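import Vale.Agent.P262.MathlibUsed
import Vale.Agent.P262.Defs
attribute [-instance] ProperSMul.toContinuousSMul IsTopologicalTorsor.toContinuousSMul IdemSemiring.toCanonicallyOrderedAdd IdemSemiring.toMulLeftMono IdemSemiring.toMulRightMono AddQuantale.instAddLeftMono AddQuantale.instAddRightMono Quantale.instMulLeftMono Quantale.instMulRightMono FiniteDimensional.rclike_to_real IsScalarTower.complexToReal FiniteDimensional.complexToReal

set_option linter.all false

section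

section

/-!
# Interface of the proof of `S_2(d) = O(√d)` (P262)

Every module is stated as a `Prop` here; `SqrtMain.lean` composes them.
Coordinates `i : Fin n` are sorted by content (`lam` monotone).
-/

open scoped BigOperators

namespace Vale.Agent.P262.Sqrt

/-- Coordinates `i < J`. -/
def lo (n J : ℕ) : Finset (Fin n) := Finset.univ.filter (fun i => i.val < J)

/-- Coordinates `J ≤ i < K`. -/
def mid (n J K : ℕ) : Finset (Fin n) := Finset.univ.filter (fun i => J ≤ i.val ∧ i.val < K)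

/-- Coordinates `J ≤ i`. -/
def hi (n J : ℕ) : Finset (Fin n) := Finset.univ.filter (fun i => J ≤ i.val)

/-- Rank weight `r_i = i - J + 1`. -/
noncomputable def rk {n : ℕ} (J : ℕ) (i : Fin n) : ℝ := (i.val : ℝ) - (J : ℝ) + 1

/-- Content form of the set `U` of vectors at `y`. -/
noncomputable def MQ {n : ℕ} {ι : Type} (w : ι → Fin n → ℝ) (U : Finset ι) (y : Fin n → ℝ) : ℝ :=
  ∑ v ∈ U, (∑ i, w v i * y i) ^ 2

/-- Diagonal form. -/
noncomputable def EQ {n : ℕ} (E : Fin n → ℝ) (y : Fin n → ℝ) : ℝ := ∑ i, E i * (y i) ^ 2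

/-- `U` is balanced with content `E` and error coefficient `a` above index `J`. -/
def Bal {n : ℕ} {ι : Type} (J : ℕ) (w : ι → Fin n → ℝ) (E : Fin n → ℝ) (a : ℝ)
    (U : Finset ι) : Prop :=
  ∀ y : Fin n → ℝ, (∀ i : Fin n, i.val < J → y i = 0) →
    |MQ w U y - EQ E y| ≤ a * (∑ i, (rk J i) ^ 2 * (y i) ^ 2)
      + Real.sqrt (∑ i, (y i) ^ 2) * Real.sqrt (EQ E y)

/-- Weighted poor content of one vector. -/
noncomputable def qv {n : ℕ} {ι : Type} (J : ℕ) (Om : Fin n → ℝ) (w : ι → Fin n → ℝ) (v : ι) : ℝ :=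
  ∑ i ∈ lo n J, Om i * (w v i) ^ 2

/-- Content of one vector in the coordinates `J ≤ i < J'`. -/
noncomputable def tv {n : ℕ} {ι : Type} (J J' : ℕ) (w : ι → Fin n → ℝ) (v : ι) : ℝ :=
  ∑ i ∈ mid n J J', (w v i) ^ 2

/-- **Module STAGE** (from the functional prefix-Banaszczyk tool).
`B = 4000`.  `D` is the set of light vectors, `pos v < 2 ^ t` is the block of `v`, `x` the
fractional signs, `Q0` an upper bound of the poor content, `C0` of the cardinality. -/
def StageProp : Prop :=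
  ∀ (n : ℕ) (ι : Type) [Fintype ι] [DecidableEq ι] (w : ι → Fin n → ℝ) (D : Finset ι)
    (J J' t : ℕ) (Om : Fin n → ℝ) (pos : ι → ℕ) (x : ι → ℝ) (Q0 C0 : ℝ),
    (∀ v ∈ D, ∑ i, (w v i) ^ 2 ≤ 1) → (∀ i, 0 ≤ Om i) → (∀ v ∈ D, |x v| ≤ 1 / 2) →
    0 ≤ Q0 → (∑ v ∈ D, qv J Om w v ≤ Q0) → (∀ v ∈ D, qv J Om w v ≤ Q0 / 1000) →
    1000 ≤ C0 → ((D.card : ℝ) ≤ C0) →
    ∃ s : ι → ℝ, (∀ v, s v = 1 ∨ s v = -1) ∧
      ∀ j : ℕ, j < 2 ^ t →
        (∀ k : ℕ, J < k → k ≤ n →
          ∑ i ∈ mid n J k,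
            (∑ v ∈ D with pos v ≤ j, (s v - x v) * w v i) ^ 2 ≤ 4000 * ((k : ℝ) - J + t)) ∧
        (∑ i ∈ lo n J,
            Om i * (∑ v ∈ D with pos v ≤ j, (s v - x v) * w v i) ^ 2 ≤ 4000 * Q0 * (t + 1)) ∧
        (∑ i ∈ hi n J, ∑ i' ∈ hi n J,
            (∑ v ∈ D with pos v ≤ j, (s v - x v) * (w v i * w v i')) ^ 2
              / ((rk J i) ^ 2 * (rk J i') ^ 2) ≤ 4000 * (t + 1)) ∧
        ((∑ v ∈ D with pos v ≤ j, (s v - x v) * tv J J' w v) ^ 2 ≤ 4000 * (t + 1)) ∧
        (|∑ v ∈ D with pos v ≤ j, (s v - x v) * qv J Om w v| ≤ 3 / 100 * Q0 * (t + 1)) ∧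
        (|∑ v ∈ D with pos v ≤ j, (s v - x v)| ≤ 3 / 100 * C0 * (t + 1))

/-- **Module TILT** (linear algebra). -/
def TiltProp : Prop :=
  ∀ (n : ℕ) (ι : Type) [Fintype ι] [DecidableEq ι] (w : ι → Fin n → ℝ) (U : Finset ι)
    (J R : ℕ) (E : Fin n → ℝ) (a : ℝ) (ξ : Fin n → ℝ),
    (∀ v ∈ U, ∑ i, (w v i) ^ 2 ≤ 1) → J ≤ R → Monotone E → (∀ i, 0 ≤ E i) → 0 ≤ a →
    Bal J w E a U →
    (∀ i : Fin n, R ≤ i.val → 1000000 ≤ E i ∧ a * (rk J i) ^ 2 ≤ Real.sqrt (E i)) →
    (∑ i ∈ hi n R, (ξ i) ^ 2 / E i ≤ 1 / 128) →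
    ∃ x : ι → ℝ, (∀ v ∈ U, |x v| ≤ 1 / 16) ∧ (∑ v ∈ U, (x v) ^ 2 ≤ 1 / 100) ∧
      (∀ i : Fin n, R ≤ i.val → ∑ v ∈ U, x v * w v i = ξ i) ∧
      (∑ i ∈ mid n J R, (∑ v ∈ U, x v * w v i) ^ 2 ≤ 1)

/-- **Module UPDATE**: balance of the two halves of a block.  `m` bounds half of the block noise. -/
def UpdateProp : Prop :=
  ∀ (n : ℕ) (ι : Type) [Fintype ι] [DecidableEq ι] (w : ι → Fin n → ℝ) (U : Finset ι)
    (J : ℕ) (E : Fin n → ℝ) (a m : ℝ) (s x : ι → ℝ),
    (∀ v ∈ U, ∑ i, (w v i) ^ 2 ≤ 1) → (∀ i, 0 ≤ E i) → 0 ≤ a → 0 ≤ m →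
    Bal J w E a U → (∀ v, s v = 1 ∨ s v = -1) → (∑ v ∈ U, (x v) ^ 2 ≤ 1 / 100) →
    (∑ i ∈ hi n J, ∑ i' ∈ hi n J,
        (∑ v ∈ U, (s v - x v) * (w v i * w v i')) ^ 2
          / ((rk J i) ^ 2 * (rk J i') ^ 2) ≤ (2 * m) ^ 2) →
    ∀ g : ℝ, g = 1 ∨ g = -1 →
      Bal J w (fun i => E i / 2) (0.525 * a + 0.07 + m) (U.filter (fun v => s v = g))

/-- Soft threshold. -/
noncomputable def shr (Δ a : ℝ) : ℝ := if Δ < a then a - Δ else if a < -Δ then a + Δ else 0

/-- Potential bound `Ξ_J(x) ≤ P`. -/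
def PotLe {n : ℕ} (J : ℕ) (om : Fin n → ℝ) (C1 : ℝ) (x : Fin n → ℝ) (P : ℝ) : Prop :=
  ∀ k : ℕ, J ≤ k → k ≤ n → ∑ i ∈ lo n k, om i * (x i) ^ 2 ≤ P + C1 * k

/-- Target point at parameter `θ`. -/
noncomputable def tgt {n : ℕ} (R : ℕ) (Δ a b : Fin n → ℝ) (θ : ℝ) (i : Fin n) : ℝ :=
  if i.val < R then (1 - θ) * a i + θ * b i
  else (1 - θ) * shr (Δ i) (a i) + θ * shr (Δ i) (b i)

/-- **Module POTENTIAL**. -/
def PotProp : Prop :=
  ∀ (n J J' R wd : ℕ) (om om' Om Δ a b e : Fin n → ℝ) (B5 Z0 P θ : ℝ),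
    J ≤ J' → J' ≤ R → R ≤ n → 1 ≤ wd → (R = J → wd = 1) → 1 ≤ B5 → 0 ≤ θ → θ ≤ 1 →
    (∀ i, 0 ≤ om i) →
    (∀ i : Fin n, i.val < J → ∀ x y : ℝ, om' i * (x + y) ^ 2 ≤ om i * x ^ 2 + 14 * Om i * y ^ 2) →
    (∀ i : Fin n, J ≤ i.val → i.val < R → ∀ x y : ℝ,
      om' i * (x + y) ^ 2 ≤ om i * x ^ 2 + 8 * y ^ 2) →
    (∀ i : Fin n, R ≤ i.val → om i = 8 ∧ om' i = 8) →
    (∑ i ∈ lo n J, Om i * (e i) ^ 2 ≤ Z0) →
    (∀ k : ℕ, J < k → k ≤ n →
      ∑ i ∈ mid n J k, (e i) ^ 2 ≤ B5 * ((k : ℝ) - J + wd)) →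
    (∀ i : Fin n, R ≤ i.val → |e i| ≤ Δ i / 2 ∧ (2 + 2 * B5) * (rk J i + wd) ≤ Δ i) →
    PotLe J om (16 + 32 * B5) a P → PotLe J om (16 + 32 * B5) b P →
    PotLe J' om' (16 + 32 * B5) (fun i => tgt R Δ a b θ i + e i)
      (P + 14 * Z0 + if J < R then 16 * B5 * ((R : ℝ) - J + wd) else 0)

/-- **Module SCHEDULE** (`T` is an arbitrary threshold constant). -/
def SchedProp : Prop :=
  ∀ T : ℝ, 1 ≤ T → ∃ Cs : ℝ, 0 ≤ Cs ∧ ∀ (n : ℕ) (lam : Fin n → ℝ), Monotone lam → (∀ i, 0 ≤ lam i) →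
    ∃ (wd J : ℕ → ℕ) (N Q : ℕ → ℝ),
      J 0 = 0 ∧ J 1 = 0 ∧ Monotone J ∧ (∀ s, J s ≤ n) ∧ (∀ s, 1 ≤ wd s) ∧ (∀ s, 1 ≤ N s) ∧
      (∀ s, J (s + 2) = J s → wd s = 1) ∧
      (∀ s, ∀ i : Fin n, J (s + 2) ≤ i.val →
        T * (max (N s) (wd s) * rk (J s) i) ^ 8
          ≤ lam i / 2 ^ (∑ s' ∈ Finset.range (s + 1), wd s')) ∧
      (∀ s, (∑ i ∈ mid n (J s) (J (s + 1)),
          (2 * (lam i / 2 ^ (∑ s' ∈ Finset.range s, wd s')) + N s * (rk (J s) i) ^ 2 + 2))
            * (0.55 : ℝ) ^ (wd s) ≤ 1) ∧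
      (∀ s, ((J (s + 1) : ℝ) - J s + 1) ^ 2
          * ((0.55 : ℝ) ^ (wd s) * (N s + 1000) + 150 * Real.sqrt (wd s)) ≤ N (s + 1)) ∧
      Q 0 = 0 ∧
      (∀ s, Q (s + 1) = 0.855 * Q s + (if J s < J (s + 1) then 200 * (wd s : ℝ) else 0)) ∧
      (∀ S : ℕ, ∑ s ∈ Finset.range S,
        (Q s * wd s + if J s < J (s + 2) then ((J (s + 2) : ℝ) - J s + wd s) else 0) ≤ Cs * n)

/-- The half-size of the correction. -/
noncomputable def Del {n : ℕ} (J wd : ℕ) (E : Fin n → ℝ) (i : Fin n) : ℝ :=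
  Real.sqrt (E i / 2 ^ wd) / (32 * rk J i)

/-- **Module NODE**: one super-split.  `b = a + ∑_{D} w`.  `B5 = 3000000`, `T = 2 ^ 100`. -/
def NodeProp : Prop :=
  ∀ (n : ℕ) (ι : Type) [Fintype ι] [DecidableEq ι] (w : ι → Fin n → ℝ) (D : Finset ι)
    (J J' R wd : ℕ) (E Om a b : Fin n → ℝ) (N N' Q : ℝ),
    (∀ v ∈ D, ∑ i, (w v i) ^ 2 ≤ 1) → J ≤ J' → J' ≤ R → R ≤ n → 1 ≤ wd → (R = J → wd = 1) →
    1 ≤ N → Monotone E → (∀ i, 0 ≤ E i) → (∀ i, 0 ≤ Om i) → 0 ≤ Q →
    (∀ i : Fin n, R ≤ i.val → (2 : ℝ) ^ 100 * (max N wd * rk J i) ^ 8 ≤ E i / 2 ^ wd) →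
    ((∑ i ∈ mid n J J', (2 * E i + N * (rk J i) ^ 2 + 2))
      * (0.55 : ℝ) ^ wd ≤ 1) →
    (((J' : ℝ) - J + 1) ^ 2 * ((0.55 : ℝ) ^ wd * (N + 1000) + 150 * Real.sqrt wd) ≤ N') →
    Bal J w E N D → (∑ v ∈ D, qv J Om w v ≤ Q) → 1000 ≤ D.card →
    (∀ i, b i = a i + ∑ v ∈ D, w v i) →
    ∃ (H : Finset ι) (pos : ι → ℕ), H ⊆ D ∧ H.card ≤ 1000 ∧
      (∀ v ∈ D \ H, pos v < 2 ^ wd) ∧
      (∀ j : ℕ, j < 2 ^ wd →
        Bal J' w (fun i => E i / 2 ^ wd) N' ((D \ H).filter (fun v => pos v = j)) ∧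
        (3 / 2 * ∑ v ∈ (D \ H).filter (fun v => pos v = j), qv J Om w v
          + ∑ v ∈ (D \ H).filter (fun v => pos v = j), tv J J' w v
            ≤ 0.855 * Q + if J < J' then 200 * (wd : ℝ) else 0) ∧
        ((D \ H).filter (fun v => pos v = j)).card < D.card) ∧
      (∀ (j : ℕ) (c : ℝ), 0 < j → j < 2 ^ wd →
        ((c = 0 ∧ j ≤ 2 ^ (wd - 1)) ∨ (c = 1 ∧ 2 ^ (wd - 1) ≤ j)) →
        ∃ e : Fin n → ℝ,
          (∀ i, a i + ∑ v ∈ (D \ H).filter (fun v => pos v < j), w v i + c * ∑ v ∈ H, w v i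
            = tgt R (Del J wd E) a b ((j : ℝ) / 2 ^ wd) i + e i) ∧
          (∑ i ∈ lo n J, Om i * (e i) ^ 2 ≤ 3000000 * Q * wd) ∧
          (∀ k : ℕ, J < k → k ≤ n →
            ∑ i ∈ mid n J k, (e i) ^ 2
              ≤ 3000000 * ((k : ℝ) - J + wd)))

/-- **CORE**: coordinate form of the theorem. -/
def CoreProp : Prop :=
  ∃ C : ℝ, 0 ≤ C ∧ ∀ (n : ℕ), 1 ≤ n → ∀ (ι : Type) [Fintype ι] (w : ι → Fin n → ℝ)
    (lam : Fin n → ℝ), Monotone lam → (∀ i, 0 ≤ lam i) → (∀ v, ∑ i, (w v i) ^ 2 ≤ 1) →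
    (∀ i, ∑ v, w v i = 0) →
    (∀ i i', ∑ v, w v i * w v i' = if i = i' then lam i else 0) →
    ∃ l : List ι, l.Nodup ∧ (∀ v, v ∈ l) ∧
      ∀ m, ∑ i, (((l.take m).map (fun v => w v i)).sum) ^ 2 ≤ C * n

/-- **Module EIGEN**: orthonormal eigenbasis of the content form. -/
def EigenProp : Prop :=
  ∀ (n : ℕ) (ι : Type) [Fintype ι] (v : ι → EuclideanSpace ℝ (Fin n)),
    ∃ (u : OrthonormalBasis (Fin n) ℝ (EuclideanSpace ℝ (Fin n))) (lam : Fin n → ℝ),
      Monotone lam ∧ (∀ i, 0 ≤ lam i) ∧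
      ∀ i i', ∑ k, inner ℝ (v k) (u i) * inner ℝ (v k) (u i') = if i = i' then lam i else 0

end Vale.Agent.P262.Sqrt
end
end

section

section

/-! Module EIGEN of the proof of `S_2(d) = O(√d)`. -/

open scoped BigOperators

namespace Vale.Agent.P262.Sqrt

namespace Eigen

variable {n : ℕ} {ι : Type} [Fintype ι]

/-- The content operator `y ↦ ∑ ⟪v k, y⟫ v k`. -/
noncomputable def T (v : ι → EuclideanSpace ℝ (Fin n)) :
    EuclideanSpace ℝ (Fin n) →ₗ[ℝ] EuclideanSpace ℝ (Fin n) where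
  toFun y := ∑ k, (inner ℝ (v k) y) • v k
  map_add' x y := by simp only [inner_add_right, add_smul, Finset.sum_add_distrib]
  map_smul' c y := by
    simp only [inner_smul_right, RingHom.id_apply, Finset.smul_sum, smul_smul]

theorem inner_T (v : ι → EuclideanSpace ℝ (Fin n)) (x y : EuclideanSpace ℝ (Fin n)) :
    inner ℝ (T v x) y = ∑ k, inner ℝ (v k) x * inner ℝ (v k) y := by
  unfold T
  simp only [LinearMap.coe_mk, AddHom.coe_mk, sum_inner, real_inner_smul_left]

theorem T_symm (v : ι → EuclideanSpace ℝ (Fin n)) : (T v).IsSymmetric := by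
  intro x y
  rw [inner_T, real_inner_comm, inner_T]
  exact Finset.sum_congr rfl fun k _ => mul_comm _ _

end Eigen

open Eigen in
theorem eigenProp : EigenProp := by
  intro n ι _ v
  have hn : Module.finrank ℝ (EuclideanSpace ℝ (Fin n)) = n := by simp only [finrank_euclideanSpace, Fintype.card_fin]
  set b := (T_symm v).eigenvectorBasis hn with hb
  set μ := (T_symm v).eigenvalues hn with hμ
  set σ := Tuple.sort μ with hσ
  refine ⟨b.reindex σ.symm, μ ∘ σ, Tuple.monotone_sort μ, ?_, ?_⟩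
  · intro i
    have h1 : inner ℝ (T v (b (σ i))) (b (σ i)) = μ (σ i) := by
      rw [hb, (T_symm v).apply_eigenvectorBasis hn]
      simp only [Real.ringHom_apply, real_inner_smul_left, inner_self_eq_norm_sq_to_K, OrthonormalBasis.norm_eq_one, one_pow, mul_one, hμ]
    rw [Function.comp_apply, ← h1, inner_T]
    exact Finset.sum_nonneg fun k _ => mul_self_nonneg _
  · intro i i'
    simp only [OrthonormalBasis.reindex_apply, Equiv.symm_symm, Function.comp_apply]
    rw [← inner_T, hb, (T_symm v).apply_eigenvectorBasis hn, real_inner_smul_left,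
      orthonormal_iff_ite.mp ((T_symm v).eigenvectorBasis hn).orthonormal]
    by_cases h : i = i'
    · subst h; simp [hμ]
    · have h2 : σ i ≠ σ i' := fun h3 => h (σ.injective h3)
      rw [if_neg h2, if_neg h, mul_zero]

end Vale.Agent.P262.Sqrt
end
end

section

section

/-!
# Recursion over super-splits: `NodeProp → PotProp → SchedProp → CoreProp`
-/

open scoped BigOperators

namespace Vale.Agent.P262.Sqrt

variable {n : ℕ} {ι : Type}

theorem mem_lo {J : ℕ} {i : Fin n} : i ∈ lo n J ↔ i.val < J := by simp only [lo, Finset.mem_filter, Finset.mem_univ, true_and]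
theorem mem_mid {J K : ℕ} {i : Fin n} : i ∈ mid n J K ↔ J ≤ i.val ∧ i.val < K := by simp only [mid, Finset.mem_filter, Finset.mem_univ, true_and]
theorem lo_all : lo n n = Finset.univ := by
  ext i; simp only [mem_lo, Fin.is_lt, Finset.mem_univ]

theorem sum_lo_split {J K : ℕ} (h : J ≤ K) (f : Fin n → ℝ) :
    ∑ i ∈ lo n K, f i = ∑ i ∈ lo n J, f i + ∑ i ∈ mid n J K, f i := by
  rw [← Finset.sum_union]
  · congr 1
    ext i
    simp only [mem_lo, Finset.mem_union, mem_mid]
    omega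
  · rw [Finset.disjoint_left]
    intro i h1 h2
    rw [mem_lo] at h1
    rw [mem_mid] at h2
    omega

/-- Poor weights `Ω` at super-level `s`. -/
noncomputable def OmW (n : ℕ) (J : ℕ → ℕ) : ℕ → Fin n → ℝ
  | 0, _ => 1
  | (s + 1), i => if i.val < J s then 3 / 2 * OmW n J s i else 1

/-- Position weights `ω` at super-level `s`. -/
noncomputable def omW (n : ℕ) (J : ℕ → ℕ) (s : ℕ) (i : Fin n) : ℝ :=
  if i.val < J s then 1 + 1 / OmW n J s i else if i.val < J (s + 1) then 4 else 8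

theorem OmW_ge_one (J : ℕ → ℕ) (s : ℕ) (i : Fin n) : 1 ≤ OmW n J s i := by
  induction s with
  | zero => simp only [OmW, Std.le_refl]
  | succ s ih =>
    unfold OmW
    split_ifs
    · linarith only [ih]
    · exact le_refl _

theorem omW_ge_one (J : ℕ → ℕ) (s : ℕ) (i : Fin n) : 1 ≤ omW n J s i := by
  have h := OmW_ge_one J s i
  unfold omW
  split_ifs
  · have : 0 ≤ 1 / OmW n J s i := by positivity
    linarith only [this]
  · norm_num
  · norm_num

theorem omW_poor (J : ℕ → ℕ) (hJ : Monotone J) (s : ℕ) (i : Fin n) (hi : i.val < J s) (x y : ℝ) :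
    omW n J (s + 1) i * (x + y) ^ 2 ≤ omW n J s i * x ^ 2 + 14 * OmW n J s i * y ^ 2 := by
  have h := OmW_ge_one J s i
  have hi' : i.val < J (s + 1) := lt_of_lt_of_le hi (hJ (Nat.le_succ s))
  have e1 : omW n J (s + 1) i = 1 + 1 / (3 / 2 * OmW n J s i) := by
    unfold omW
    rw [if_pos hi']
    simp only [OmW, hi, ↓reduceIte, one_div, mul_inv_rev, inv_div]
  have e2 : omW n J s i = 1 + 1 / OmW n J s i := by
    unfold omW
    rw [if_pos hi]
  rw [e1, e2]
  set O := OmW n J s i with hO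
  set c := 1 / O with hc
  have hO0 : 0 < O := by linarith only [h]
  have hc0 : 0 < c := by positivity
  have hc1 : c ≤ 1 := by
    rw [hc, div_le_one hO0]; exact h
  have hOc : O = 1 / c := by rw [hc]; field_simp
  have e3 : 1 / (3 / 2 * O) = 2 / 3 * c := by rw [hc]; field_simp
  rw [e3, hOc]
  -- multiply by c
  have key : 0 ≤ (c / 3) * x ^ 2 - 2 * (1 + 2 / 3 * c) * (x * y) + (14 / c - 1 - 2 / 3 * c) * y ^ 2 := by
    have h1 : (c / 3) * x ^ 2 - 2 * (1 + 2 / 3 * c) * (x * y) + (14 / c - 1 - 2 / 3 * c) * y ^ 2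
        = (3 / c) * ((c / 3 * x - (1 + 2 / 3 * c) * y) ^ 2
          + (c / 3 * (14 / c - 1 - 2 / 3 * c) - (1 + 2 / 3 * c) ^ 2) * y ^ 2) := by
      field_simp
      ring
    rw [h1]
    have h2 : c / 3 * (14 / c - 1 - 2 / 3 * c) = 14 / 3 - c / 3 - 2 / 9 * c ^ 2 := by
      field_simp
      ring
    rw [h2]
    have h3 : 0 ≤ 14 / 3 - c / 3 - 2 / 9 * c ^ 2 - (1 + 2 / 3 * c) ^ 2 := by nlinarith only [hc0,
          hc1]
    have h4 : 0 ≤ 3 / c := by positivity
    exact mul_nonneg h4 (add_nonneg (sq_nonneg _) (mul_nonneg h3 (sq_nonneg _)))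
  have h5 : 14 * (1 / c) = 14 / c := by ring
  rw [h5]
  nlinarith only [key]

theorem omW_window (J : ℕ → ℕ) (s : ℕ) (i : Fin n) (h1 : J s ≤ i.val)
    (h2 : i.val < J (s + 2)) (x y : ℝ) :
    omW n J (s + 1) i * (x + y) ^ 2 ≤ omW n J s i * x ^ 2 + 8 * y ^ 2 := by
  by_cases h3 : i.val < J (s + 1)
  · have e1 : omW n J (s + 1) i = 2 := by
      unfold omW
      rw [if_pos h3]
      have : ¬ i.val < J s := by omega
      simp only [OmW, this, ↓reduceIte, ne_eq, one_ne_zero, not_false_eq_true, div_self]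
      norm_num
    have e2 : omW n J s i = 4 := by
      unfold omW
      rw [if_neg (by omega), if_pos h3]
    rw [e1, e2]
    nlinarith only [sq_nonneg (x - y), sq_nonneg y]
  · have e1 : omW n J (s + 1) i = 4 := by
      unfold omW
      rw [if_neg h3, if_pos (by simpa using h2)]
    have e2 : omW n J s i = 8 := by
      unfold omW
      rw [if_neg (by omega), if_neg h3]
    rw [e1, e2]
    nlinarith only [sq_nonneg (x - y)]

theorem omW_rich (J : ℕ → ℕ) (hJ : Monotone J) (s : ℕ) (i : Fin n) (h1 : J (s + 2) ≤ i.val) :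
    omW n J s i = 8 ∧ omW n J (s + 1) i = 8 := by
  have ha : J s ≤ J (s + 1) := hJ (Nat.le_succ _)
  have hb : J (s + 1) ≤ J (s + 2) := hJ (Nat.le_succ _)
  constructor
  · unfold omW
    rw [if_neg (by omega), if_neg (by omega)]
  · unfold omW
    rw [if_neg (by omega), if_neg (by show ¬ i.val < J (s + 2); omega)]

theorem omW_anti (J : ℕ → ℕ) (hJ : Monotone J) (s : ℕ) (i : Fin n) :
    omW n J (s + 1) i ≤ omW n J s i := by
  by_cases h1 : i.val < J s
  · have := omW_poor J hJ s i h1 1 0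
    simpa only [ge_iff_le, add_zero, one_pow, mul_one, ne_eq, OfNat.ofNat_ne_zero, not_false_eq_true, zero_pow,     mul_zero] using this
  · by_cases h2 : i.val < J (s + 2)
    · have := omW_window J s i (by omega) h2 1 0
      simpa only [ge_iff_le, add_zero, one_pow, mul_one, ne_eq, OfNat.ofNat_ne_zero, not_false_eq_true, zero_pow,     mul_zero] using this
    · have := omW_rich J hJ s i (by omega)
      rw [this.1, this.2]

theorem PotLe.step {J : ℕ → ℕ} (hJ : Monotone J) {s : ℕ} {C1 P P' : ℝ} {x : Fin n → ℝ}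
    (h : PotLe (J s) (omW n J s) C1 x P) (hP : P ≤ P') :
    PotLe (J (s + 1)) (omW n J (s + 1)) C1 x P' := by
  intro k hk hkn
  have h1 := h k (le_trans (hJ (Nat.le_succ s)) hk) hkn
  refine le_trans ?_ (le_trans h1 (by linarith only [hP]))
  refine Finset.sum_le_sum fun i _ => ?_
  exact mul_le_mul_of_nonneg_right (omW_anti J hJ s i) (sq_nonneg _)

theorem PotLe.norm_le {J : ℕ → ℕ} {s : ℕ} {C1 P : ℝ} {x : Fin n → ℝ} (hJn : J s ≤ n)
    (h : PotLe (J s) (omW n J s) C1 x P) : ∑ i, (x i) ^ 2 ≤ P + C1 * n := by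
  have h1 := h n hJn le_rfl
  rw [lo_all] at h1
  refine le_trans (Finset.sum_le_sum fun i _ => ?_) h1
  have := omW_ge_one J s i
  nlinarith only [this]

theorem qv_succ (J : ℕ → ℕ) (hJ : Monotone J) (s : ℕ) (w : ι → Fin n → ℝ) (v : ι) :
    qv (J (s + 1)) (OmW n J (s + 1)) w v
      = 3 / 2 * qv (J s) (OmW n J s) w v + tv (J s) (J (s + 1)) w v := by
  unfold qv tv
  rw [sum_lo_split (hJ (Nat.le_succ s)), Finset.mul_sum]
  congr 1
  · refine Finset.sum_congr rfl fun i hi => ?_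
    rw [mem_lo] at hi
    simp only [OmW, hi, if_true]
    ring
  · refine Finset.sum_congr rfl fun i hi => ?_
    rw [mem_mid] at hi
    have : ¬ i.val < J s := by omega
    simp only [OmW, this, if_false]
    ring

/-- A list all of whose prefix points starting from `a` are good. -/
def Seg (w : ι → Fin n → ℝ) (G : (Fin n → ℝ) → Prop) (a : Fin n → ℝ) (l : List ι) : Prop :=
  ∀ k, G (fun i => a i + ((l.take k).map (fun v => w v i)).sum)

theorem Seg.append {w : ι → Fin n → ℝ} {G : (Fin n → ℝ) → Prop} {a : Fin n → ℝ} {l1 l2 : List ι}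
    (h1 : Seg w G a l1) (h2 : Seg w G (fun i => a i + (l1.map (fun v => w v i)).sum) l2) :
    Seg w G a (l1 ++ l2) := by
  intro k
  rcases le_or_gt k l1.length with hk | hk
  · have : (l1 ++ l2).take k = l1.take k := by
      rw [List.take_append_of_le_length hk]
    rw [this]
    exact h1 k
  · have : (l1 ++ l2).take k = l1 ++ l2.take (k - l1.length) := by
      rw [List.take_append, List.take_of_length_le hk.le]
    rw [this]
    have h3 := h2 (k - l1.length)
    simp only [List.map_append, List.sum_append]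
    simpa only [add_assoc] using h3

/-- Sum of squares of a sum of at most `m` unit vectors. -/
theorem sumsq_list_le (w : ι → Fin n → ℝ) (hw : ∀ v, ∑ i, (w v i) ^ 2 ≤ 1) (l : List ι) :
    ∑ i, ((l.map (fun v => w v i)).sum) ^ 2 ≤ (l.length : ℝ) ^ 2 := by
  classical
  have h1 : ∀ i, (l.map (fun v => w v i)).sum = ∑ j : Fin l.length, w (l.get j) i := by
    intro i
    rw [← List.sum_ofFn]
    congr 1
    conv_lhs => rw [← List.ofFn_get l, List.map_ofFn]
    rfl
  calc ∑ i, ((l.map (fun v => w v i)).sum) ^ 2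
      = ∑ i, (∑ j : Fin l.length, w (l.get j) i) ^ 2 := by simp_rw [h1]
    _ ≤ ∑ i, ((Finset.univ : Finset (Fin l.length)).card : ℝ) * ∑ j : Fin l.length, (w (l.get j) i) ^ 2 := by
        refine Finset.sum_le_sum fun i _ => ?_
        exact sq_sum_le_card_mul_sum_sq
    _ = (l.length : ℝ) * ∑ j : Fin l.length, ∑ i, (w (l.get j) i) ^ 2 := by
        rw [← Finset.mul_sum, Finset.sum_comm]
        simp only [Finset.card_univ, Fintype.card_fin, List.get_eq_getElem]
    _ ≤ (l.length : ℝ) * ∑ j : Fin l.length, (1 : ℝ) := by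
        refine mul_le_mul_of_nonneg_left ?_ (Nat.cast_nonneg _)
        exact Finset.sum_le_sum fun j _ => hw _
    _ = (l.length : ℝ) ^ 2 := by simp only [Finset.sum_const, Finset.card_univ, Fintype.card_fin, nsmul_eq_mul, mul_one]; ring

theorem Seg.of_short {w : ι → Fin n → ℝ} (hw : ∀ v, ∑ i, (w v i) ^ 2 ≤ 1) {a : Fin n → ℝ}
    {A : ℝ} (ha : ∑ i, (a i) ^ 2 ≤ A) {l : List ι} (hl : l.length ≤ 1000) :
    Seg w (fun p => ∑ i, (p i) ^ 2 ≤ 2 * A + 2000000) a l := by
  intro k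
  have h1 := sumsq_list_le w hw (l.take k)
  have h2 : ((l.take k).length : ℝ) ≤ 1000 := by
    have : (l.take k).length ≤ 1000 := le_trans (List.length_take_le' k l) hl
    exact_mod_cast this
  have h3 : ((l.take k).length : ℝ) ^ 2 ≤ 1000000 := by
    have h0 : (0 : ℝ) ≤ (l.take k).length := Nat.cast_nonneg _
    nlinarith only [h2]
  calc ∑ i, (a i + ((l.take k).map (fun v => w v i)).sum) ^ 2
      ≤ ∑ i, (2 * (a i) ^ 2 + 2 * (((l.take k).map (fun v => w v i)).sum) ^ 2) := by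
        refine Finset.sum_le_sum fun i _ => ?_
        nlinarith only [sq_nonneg (a i - ((l.take k).map (fun v => w v i)).sum)]
    _ = 2 * ∑ i, (a i) ^ 2 + 2 * ∑ i, (((l.take k).map (fun v => w v i)).sum) ^ 2 := by
        rw [Finset.sum_add_distrib, Finset.mul_sum, Finset.mul_sum]
    _ ≤ 2 * A + 2000000 := by linarith only [ha, h1, h3]

theorem list_sum_eq {l : List ι} [DecidableEq ι] (hl : l.Nodup) {S : Finset ι}
    (hS : ∀ v, v ∈ l ↔ v ∈ S) (f : ι → ℝ) : (l.map f).sum = ∑ v ∈ S, f v := by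
  have : S = l.toFinset := by
    ext v; rw [List.mem_toFinset, hS]
  rw [this, List.sum_toFinset f hl]

/-- Node invariants. -/
structure NI (w : ι → Fin n → ℝ) (lam : Fin n → ℝ) (wd J : ℕ → ℕ) (N Q P : ℕ → ℝ) (C1 : ℝ)
    (s : ℕ) (D : Finset ι) (a : Fin n → ℝ) : Prop where
  bal : Bal (J s) w (fun i => lam i / 2 ^ (∑ s' ∈ Finset.range s, wd s')) (N s) D
  q : ∑ v ∈ D, qv (J s) (OmW n J s) w v ≤ Q s
  pa : PotLe (J s) (omW n J s) C1 a (P s)
  pb : PotLe (J s) (omW n J s) C1 (fun i => a i + ∑ v ∈ D, w v i) (P s)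

theorem delta_facts {J R wd : ℕ} (hJR : J ≤ R) {E : Fin n → ℝ} {N : ℝ} (hN : 1 ≤ N)
    (h : ∀ i : Fin n, R ≤ i.val → (2 : ℝ) ^ 100 * (max N wd * rk J i) ^ 8 ≤ E i / 2 ^ wd)
    {e : Fin n → ℝ}
    (he : ∀ k : ℕ, J < k → k ≤ n →
            ∑ i ∈ mid n J k, (e i) ^ 2 ≤ 3000000 * ((k : ℝ) - J + wd))
    (i : Fin n) (hi : R ≤ i.val) :
    |e i| ≤ Del J wd E i / 2 ∧ (2 + 2 * (3000000 : ℝ)) * (rk J i + wd) ≤ Del J wd E i := by
  have hr : 1 ≤ rk J i := by
    unfold rk
    have : (J : ℝ) ≤ (i.val : ℝ) := by exact_mod_cast (le_trans hJR hi)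
    linarith only [this]
  have hNb : 1 ≤ max N (wd : ℝ) := le_trans hN (le_max_left _ _)
  have hwd : (wd : ℝ) ≤ max N (wd : ℝ) := le_max_right _ _
  have h1 := h i hi
  unfold Del
  set r := rk J i with hrdef
  set Nb := max N (wd : ℝ) with hNbdef
  set S := Real.sqrt (E i / 2 ^ wd) with hS
  have h2 : (2 : ℝ) ^ 50 * (Nb * r) ^ 4 ≤ S := by
    apply Real.le_sqrt_of_sq_le
    calc ((2 : ℝ) ^ 50 * (Nb * r) ^ 4) ^ 2 = (2 : ℝ) ^ 100 * (Nb * r) ^ 8 := by ring
      _ ≤ _ := h1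
  have hr0 : 0 < r := by linarith only [hr]
  have hNb0 : 0 < Nb := by linarith only [hNb]
  have h3 : (2 : ℝ) ^ 45 * (Nb ^ 4 * r ^ 3) ≤ S / (32 * r) := by
    rw [le_div_iff₀ (by positivity)]
    calc (2 : ℝ) ^ 45 * (Nb ^ 4 * r ^ 3) * (32 * r) = (2 : ℝ) ^ 50 * (Nb * r) ^ 4 := by ring
      _ ≤ S := h2
  have h4 : r + wd ≤ 2 * (Nb * r) := by nlinarith only [hr, hNb, hwd]
  have hp1 : 1 ≤ Nb ^ 3 := one_le_pow₀ hNb
  have hp2 : 1 ≤ r ^ 2 := one_le_pow₀ hr
  have h5 : Nb * r ≤ Nb ^ 4 * r ^ 3 := by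
    have : Nb ^ 4 * r ^ 3 = (Nb * r) * (Nb ^ 3 * r ^ 2) := by ring
    rw [this]
    have h6 : 1 ≤ Nb ^ 3 * r ^ 2 := one_le_mul_of_one_le_of_one_le hp1 hp2
    have h7 : 0 < Nb * r := by positivity
    nlinarith only [hr, h4, h6]
  have h6 : 1 ≤ Nb * r := one_le_mul_of_one_le_of_one_le hNb hr
  have hbig : (2 : ℝ) ^ 45 * (Nb * r) ≤ S / (32 * r) :=
    le_trans (mul_le_mul_of_nonneg_left h5 (by positivity)) h3
  constructor
  · -- |e i| ≤ Δ / 2
    have hk : J < i.val + 1 := by omega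
    have h7 := he (i.val + 1) hk i.isLt
    have h8 : (e i) ^ 2 ≤ ∑ i ∈ mid n J (i.val + 1), (e i) ^ 2 :=
      Finset.single_le_sum (f := fun i => (e i) ^ 2) (fun j _ => sq_nonneg _)
        (by rw [mem_mid]; omega)
    have h9 : (e i) ^ 2 ≤ 3000000 * (r + wd) := by
      refine le_trans h8 (le_trans h7 ?_)
      rw [hrdef]; unfold rk
      push_cast
      linarith only []
    have h10 : (e i) ^ 2 ≤ ((2 : ℝ) ^ 44 * (Nb * r)) ^ 2 := by
      refine le_trans h9 ?_
      have : ((2 : ℝ) ^ 44 * (Nb * r)) ^ 2 = (2 : ℝ) ^ 88 * ((Nb * r) * (Nb * r)) := by ring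
      rw [this]
      nlinarith only [hr, h4]
    have h11 := abs_le_of_sq_le_sq h10 (by positivity)
    linarith only [h3, h5, h11]
  · nlinarith only [h3, h4, h5, h6]

theorem order_exists [Fintype ι] [DecidableEq ι] (hN : NodeProp) (hP : PotProp)
    (w : ι → Fin n → ℝ) (lam : Fin n → ℝ) (hlam : Monotone lam) (hlam0 : ∀ i, 0 ≤ lam i)
    (hw : ∀ v, ∑ i, (w v i) ^ 2 ≤ 1)
    (wd J : ℕ → ℕ) (N Q P : ℕ → ℝ) (Pmax : ℝ)
    (hJ : Monotone J) (hJn : ∀ s, J s ≤ n) (hwd : ∀ s, 1 ≤ wd s) (hN1 : ∀ s, 1 ≤ N s)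
    (hJ2 : ∀ s, J (s + 2) = J s → wd s = 1)
    (hF2 : ∀ s, ∀ i : Fin n, J (s + 2) ≤ i.val →
        (2 : ℝ) ^ 100 * (max (N s) (wd s) * rk (J s) i) ^ 8
          ≤ lam i / 2 ^ (∑ s' ∈ Finset.range (s + 1), wd s'))
    (hF3 : ∀ s, (∑ i ∈ mid n (J s) (J (s + 1)),
          (2 * (lam i / 2 ^ (∑ s' ∈ Finset.range s, wd s')) + N s * (rk (J s) i) ^ 2 + 2))
            * (0.55 : ℝ) ^ (wd s) ≤ 1)
    (hF4 : ∀ s, ((J (s + 1) : ℝ) - J s + 1) ^ 2
          * ((0.55 : ℝ) ^ (wd s) * (N s + 1000) + 150 * Real.sqrt (wd s)) ≤ N (s + 1))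
    (hQ0 : ∀ s, 0 ≤ Q s)
    (hQ : ∀ s, Q (s + 1) = 0.855 * Q s + (if J s < J (s + 1) then 200 * (wd s : ℝ) else 0))
    (hPs : ∀ s, P (s + 1) = P s + 14 * (3000000 * Q s * wd s)
      + if J s < J (s + 2) then 16 * 3000000 * ((J (s + 2) : ℝ) - J s + wd s) else 0)
    (hPm : ∀ s, P s ≤ Pmax) :
    ∀ (m : ℕ) (s : ℕ) (D : Finset ι) (a : Fin n → ℝ), D.card ≤ m →
      NI w lam wd J N Q P (16 + 32 * 3000000) s D a →
      ∃ l : List ι, l.Nodup ∧ (∀ v, v ∈ l ↔ v ∈ D) ∧
        Seg w (fun p => ∑ i, (p i) ^ 2 ≤ 2 * (Pmax + (16 + 32 * 3000000) * n) + 2000000) a l := by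
  intro m
  induction m with
  | zero =>
    intro s D a hD hNI
    have hD0 : D = ∅ := by
      rw [← Finset.card_eq_zero]; omega
    subst hD0
    refine ⟨[], List.nodup_nil, by simp, ?_⟩
    apply Seg.of_short hw (A := Pmax + (16 + 32 * 3000000) * n) _ (by simp)
    exact le_trans (hNI.pa.norm_le (hJn s)) (by linarith only [hPm s])
  | succ m ih =>
    intro s D a hD hNI
    have hgood_a : ∑ i, (a i) ^ 2 ≤ Pmax + (16 + 32 * 3000000) * n :=
      le_trans (hNI.pa.norm_le (hJn s)) (by linarith only [hPm s])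
    rcases lt_or_ge D.card 1000 with hsmall | hbig
    · refine ⟨D.toList, D.nodup_toList, fun v => Finset.mem_toList, ?_⟩
      apply Seg.of_short hw hgood_a
      rw [Finset.length_toList]; omega
    · -- the super-split
      have hJ01 : J s ≤ J (s + 1) := hJ (Nat.le_succ _)
      have hJ12 : J (s + 1) ≤ J (s + 2) := hJ (Nat.le_succ _)
      set E : Fin n → ℝ := fun i => lam i / 2 ^ (∑ s' ∈ Finset.range s, wd s') with hE
      have hEE : ∀ i, E i / 2 ^ (wd s) = lam i / 2 ^ (∑ s' ∈ Finset.range (s + 1), wd s') := by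
        intro i
        rw [hE, Finset.sum_range_succ, pow_add, div_div]
      set b : Fin n → ℝ := fun i => a i + ∑ v ∈ D, w v i with hb
      obtain ⟨H, pos, hHD, hHc, hpos, hblk, hcut⟩ := hN n ι w D (J s) (J (s + 1)) (J (s + 2)) (wd s)
        E (OmW n J s) a b (N s) (N (s + 1)) (Q s) (fun v _ => hw v) hJ01 hJ12 (hJn _) (hwd s)
        (hJ2 s) (hN1 s)
        (fun i j hij => div_le_div_of_nonneg_right (hlam hij) (by positivity))
        (fun i => div_nonneg (hlam0 i) (by positivity))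
        (fun i => le_trans zero_le_one (OmW_ge_one J s i)) (hQ0 s)
        (fun i hi => by rw [hEE]; exact hF2 s i hi) (hF3 s) (hF4 s) hNI.bal hNI.q hbig
        (fun i => rfl)
      -- cut points
      set K := 2 ^ (wd s) with hK
      set half := 2 ^ (wd s - 1) with hhalf
      have hK2 : K = 2 * half := by
        rw [hK, hhalf, ← pow_succ']
        congr 1
        have := hwd s
        omega
      have hhalf1 : 1 ≤ half := Nat.one_le_two_pow
      set cp : ℕ → ℝ → Fin n → ℝ := fun j c i =>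
        a i + ∑ v ∈ (D \ H).filter (fun v => pos v < j), w v i + c * ∑ v ∈ H, w v i with hcp
      have hcutP : ∀ (j : ℕ) (c : ℝ), 0 < j → j < K →
          ((c = 0 ∧ j ≤ half) ∨ (c = 1 ∧ half ≤ j)) →
          PotLe (J (s + 1)) (omW n J (s + 1)) (16 + 32 * 3000000) (cp j c) (P (s + 1)) := by
        intro j c hj0 hjK hc
        obtain ⟨e, he1, he2, he3⟩ := hcut j c hj0 hjK hc
        have hfacts := delta_facts (le_trans hJ01 hJ12) (hN1 s)
          (fun i hi => by
            have := hF2 s i hi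
            rw [← hEE] at this
            exact this) he3
        have hθ0 : (0 : ℝ) ≤ (j : ℝ) / 2 ^ (wd s) := by (clear * - hj0; positivity)
        have hθ1 : (j : ℝ) / 2 ^ (wd s) ≤ 1 := by
          rw [div_le_one (by positivity)]
          have : (j : ℝ) ≤ (K : ℝ) := by exact_mod_cast hjK.le
          rw [hK] at this
          push_cast at this
          exact this
        have := hP n (J s) (J (s + 1)) (J (s + 2)) (wd s) (omW n J s) (omW n J (s + 1)) (OmW n J s)
          (Del (J s) (wd s) E) a b e 3000000 (3000000 * Q s * wd s) (P s) ((j : ℝ) / 2 ^ (wd s))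
          hJ01 hJ12 (hJn _) (hwd s) (hJ2 s) (by norm_num) hθ0 hθ1
          (fun i => le_trans zero_le_one (omW_ge_one J s i))
          (fun i hi x y => omW_poor J hJ s i hi x y)
          (fun i hi1 hi2 x y => omW_window J s i hi1 hi2 x y)
          (fun i hi => omW_rich J hJ s i hi) he2 he3 hfacts hNI.pa hNI.pb
        rw [hPs s]
        have hfun : cp j c = fun i => tgt (J (s + 2)) (Del (J s) (wd s) E) a b ((j : ℝ) / 2 ^ (wd s)) i + e i := by
          funext i
          rw [← he1 i]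
        rw [hfun]
        exact this
      have hPmono : P s ≤ P (s + 1) := by
        rw [hPs s]
        have h1 : 0 ≤ 14 * (3000000 * Q s * wd s) := by
          have := hQ0 s
          (clear * - this; positivity)
        have h2 : 0 ≤ (if J s < J (s + 2) then 16 * 3000000 * ((J (s + 2) : ℝ) - J s + wd s) else 0) := by
          split_ifs with h
          · have : (J s : ℝ) ≤ J (s + 2) := by exact_mod_cast h.le
            have h3 : (0 : ℝ) ≤ (J (s + 2) : ℝ) - J s + wd s := by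
              have : (0 : ℝ) ≤ wd s := Nat.cast_nonneg _
              linarith
            (clear * - this; positivity)
          · exact le_refl _
        linarith only [h1, h2]
      have hcp0 : cp 0 0 = a := by
        funext i; simp only [hcp, not_lt_zero, Finset.filter_false, Finset.sum_empty, add_zero, zero_mul]
      have hpot0 : PotLe (J (s + 1)) (omW n J (s + 1)) (16 + 32 * 3000000) (cp 0 0) (P (s + 1)) := by
        rw [hcp0]; exact hNI.pa.step hJ hPmono
      have hfiltK : (D \ H).filter (fun v => pos v < K) = D \ H := by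
        apply Finset.filter_true_of_mem
        intro v hv
        exact hpos v hv
      have hcpK : cp K 1 = b := by
        funext i
        simp only [hcp, hfiltK, one_mul, hb]
        rw [add_assoc, Finset.sum_sdiff hHD]
      have hpotK : PotLe (J (s + 1)) (omW n J (s + 1)) (16 + 32 * 3000000) (cp K 1) (P (s + 1)) := by
        rw [hcpK]; exact hNI.pb.step hJ hPmono
      have hpot1 : ∀ j, j ≤ half →
          PotLe (J (s + 1)) (omW n J (s + 1)) (16 + 32 * 3000000) (cp j 0) (P (s + 1)) := by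
        intro j hj
        rcases Nat.eq_zero_or_pos j with rfl | hj0
        · exact hpot0
        · exact hcutP j 0 hj0 (by omega) (Or.inl ⟨rfl, hj⟩)
      have hpot2 : ∀ j, half ≤ j → j ≤ K →
          PotLe (J (s + 1)) (omW n J (s + 1)) (16 + 32 * 3000000) (cp j 1) (P (s + 1)) := by
        intro j hj hjK
        rcases Nat.lt_or_ge j K with hlt | hge
        · exact hcutP j 1 (by omega) hlt (Or.inr ⟨rfl, hj⟩)
        · have : j = K := by omega
          rw [this]; exact hpotK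
      -- filters
      have hfilt_succ : ∀ j, (D \ H).filter (fun v => pos v < j + 1)
          = (D \ H).filter (fun v => pos v < j) ∪ (D \ H).filter (fun v => pos v = j) := by
        intro j
        ext v
        simp only [Finset.mem_filter, Finset.mem_union]
        constructor
        · rintro ⟨h1, h2⟩
          rcases Nat.lt_or_ge (pos v) j with h3 | h3
          · exact Or.inl ⟨h1, h3⟩
          · exact Or.inr ⟨h1, by omega⟩
        · rintro (⟨h1, h2⟩ | ⟨h1, h2⟩)
          · exact ⟨h1, by omega⟩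
          · exact ⟨h1, by omega⟩
      have hfilt_disj : ∀ j, Disjoint ((D \ H).filter (fun v => pos v < j))
          ((D \ H).filter (fun v => pos v = j)) := by
        intro j
        rw [Finset.disjoint_left]
        intro v h1 h2
        rw [Finset.mem_filter] at h1 h2
        omega
      have hcp_succ : ∀ j c, (fun i => cp j c i + ∑ v ∈ (D \ H).filter (fun v => pos v = j), w v i)
          = cp (j + 1) c := by
        intro j c
        funext i
        simp only [hcp]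
        rw [hfilt_succ j, Finset.sum_union (hfilt_disj j)]
        ring
      -- lists for the blocks
      have hblock : ∀ j c, j < K →
          PotLe (J (s + 1)) (omW n J (s + 1)) (16 + 32 * 3000000) (cp j c) (P (s + 1)) →
          PotLe (J (s + 1)) (omW n J (s + 1)) (16 + 32 * 3000000) (cp (j + 1) c) (P (s + 1)) →
          ∃ l : List ι, l.Nodup ∧ (∀ v, v ∈ l ↔ v ∈ (D \ H).filter (fun v => pos v = j)) ∧
            Seg w (fun p => ∑ i, (p i) ^ 2 ≤ 2 * (Pmax + (16 + 32 * 3000000) * n) + 2000000)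
              (cp j c) l := by
        intro j c hjK hp1 hp2
        obtain ⟨hb1, hb2, hb3⟩ := hblk j hjK
        refine ih (s + 1) _ _ (by omega) ⟨?_, ?_, hp1, ?_⟩
        · have : (fun i => lam i / 2 ^ (∑ s' ∈ Finset.range (s + 1), wd s')) = fun i => E i / 2 ^ (wd s) := by
            funext i; rw [hEE]
          rw [this]; exact hb1
        · rw [hQ s]
          refine le_trans (le_of_eq ?_) hb2
          rw [Finset.mul_sum, ← Finset.sum_add_distrib]
          refine Finset.sum_congr rfl fun v _ => ?_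
          exact qv_succ J hJ s w v
        · rw [hcp_succ]; exact hp2
      have hgoodP : ∀ x : Fin n → ℝ,
          PotLe (J (s + 1)) (omW n J (s + 1)) (16 + 32 * 3000000) x (P (s + 1)) →
          ∑ i, (x i) ^ 2 ≤ Pmax + (16 + 32 * 3000000) * n := by
        intro x hx
        exact le_trans (hx.norm_le (hJn _)) (by linarith only [hPm (s + 1)])
      -- phase 1
      have phase1 : ∀ j, j ≤ half → ∃ l : List ι, l.Nodup ∧
          (∀ v, v ∈ l ↔ v ∈ (D \ H).filter (fun v => pos v < j)) ∧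
          Seg w (fun p => ∑ i, (p i) ^ 2 ≤ 2 * (Pmax + (16 + 32 * 3000000) * n) + 2000000) a l := by
        intro j
        induction j with
        | zero =>
          intro _
          refine ⟨[], List.nodup_nil, by simp, ?_⟩
          exact Seg.of_short hw hgood_a (by simp)
        | succ j ihj =>
          intro hj
          obtain ⟨l1, hn1, hm1, hs1⟩ := ihj (by omega)
          obtain ⟨l2, hn2, hm2, hs2⟩ := hblock j 0 (by omega) (hpot1 j (by omega)) (hpot1 (j + 1) hj)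
          refine ⟨l1 ++ l2, ?_, ?_, ?_⟩
          · rw [List.nodup_append]
            refine ⟨hn1, hn2, ?_⟩
            intro x hx y hy hxy
            subst hxy
            rw [hm1] at hx
            rw [hm2] at hy
            exact (Finset.disjoint_left.1 (hfilt_disj j)) hx hy
          · intro v
            rw [List.mem_append, hm1, hm2, hfilt_succ, Finset.mem_union]
          · apply hs1.append
            have : (fun i => a i + (l1.map (fun v => w v i)).sum) = cp j 0 := by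
              funext i
              rw [list_sum_eq hn1 hm1]
              simp only [hcp, zero_mul, add_zero]
            rw [this]
            exact hs2
      -- phase 2
      have phase2 : ∀ j, half ≤ j → j ≤ K → ∃ l : List ι, l.Nodup ∧
          (∀ v, v ∈ l ↔ v ∈ (D \ H).filter (fun v => pos v < j) ∪ H) ∧
          Seg w (fun p => ∑ i, (p i) ^ 2 ≤ 2 * (Pmax + (16 + 32 * 3000000) * n) + 2000000) a l := by
        intro j hj
        induction j, hj using Nat.le_induction with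
        | base =>
          intro _
          obtain ⟨l1, hn1, hm1, hs1⟩ := phase1 half le_rfl
          refine ⟨l1 ++ H.toList, ?_, ?_, ?_⟩
          · rw [List.nodup_append]
            refine ⟨hn1, H.nodup_toList, ?_⟩
            intro x hx y hy hxy
            subst hxy
            rw [hm1, Finset.mem_filter, Finset.mem_sdiff] at hx
            rw [Finset.mem_toList] at hy
            exact hx.1.2 hy
          · intro v
            rw [List.mem_append, hm1, Finset.mem_toList, Finset.mem_union]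
          · apply hs1.append
            have : (fun i => a i + (l1.map (fun v => w v i)).sum) = cp half 0 := by
              funext i
              rw [list_sum_eq hn1 hm1]
              simp only [hcp, zero_mul, add_zero]
            rw [this]
            apply Seg.of_short hw (hgoodP _ (hpot1 half le_rfl))
            rw [Finset.length_toList]; omega
        | succ j hj ihj =>
          intro hjK
          obtain ⟨l1, hn1, hm1, hs1⟩ := ihj (by omega)
          obtain ⟨l2, hn2, hm2, hs2⟩ := hblock j 1 (by omega) (hpot2 j hj (by omega))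
            (hpot2 (j + 1) (by omega) hjK)
          refine ⟨l1 ++ l2, ?_, ?_, ?_⟩
          · rw [List.nodup_append]
            refine ⟨hn1, hn2, ?_⟩
            intro x hx y hy hxy
            subst hxy
            rw [hm1, Finset.mem_union] at hx
            rw [hm2] at hy
            rcases hx with hx | hx
            · exact (Finset.disjoint_left.1 (hfilt_disj j)) hx hy
            · rw [Finset.mem_filter, Finset.mem_sdiff] at hy
              exact hy.1.2 hx
          · intro v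
            rw [List.mem_append, hm1, hm2, hfilt_succ]
            simp only [Finset.mem_union]
            (clear * - ihj; tauto)
          · apply hs1.append
            have hdisj : Disjoint ((D \ H).filter (fun v => pos v < j)) H := by
              rw [Finset.disjoint_left]
              intro v h1 h2
              rw [Finset.mem_filter, Finset.mem_sdiff] at h1
              exact h1.1.2 h2
            have : (fun i => a i + (l1.map (fun v => w v i)).sum) = cp j 1 := by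
              funext i
              rw [list_sum_eq hn1 hm1, Finset.sum_union hdisj]
              simp only [hcp, add_assoc, one_mul]
            rw [this]
            exact hs2
      obtain ⟨l, hn1, hm1, hs1⟩ := phase2 K (by omega) le_rfl
      refine ⟨l, hn1, ?_, hs1⟩
      intro v
      rw [hm1, hfiltK, Finset.sdiff_union_of_subset hHD]

theorem MQ_diag [Fintype ι] (w : ι → Fin n → ℝ) (lam : Fin n → ℝ)
    (h : ∀ i i', ∑ v, w v i * w v i' = if i = i' then lam i else 0) (y : Fin n → ℝ) :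
    MQ w Finset.univ y = EQ lam y := by
  unfold MQ EQ
  have h1 : ∀ v, (∑ i, w v i * y i) ^ 2 = ∑ i, ∑ i', (w v i * w v i') * (y i * y i') := by
    intro v
    rw [sq, Finset.sum_mul_sum]
    refine Finset.sum_congr rfl fun i _ => Finset.sum_congr rfl fun i' _ => ?_
    ring
  simp_rw [h1]
  rw [Finset.sum_comm]
  refine Finset.sum_congr rfl fun i _ => ?_
  rw [Finset.sum_comm]
  have h2 : ∀ i', ∑ v, (w v i * w v i') * (y i * y i')
      = (if i = i' then lam i else 0) * (y i * y i') := by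
    intro i'
    rw [← Finset.sum_mul, h]
  simp_rw [h2]
  rw [Finset.sum_eq_single i]
  · rw [if_pos rfl]; ring
  · intro b _ hb
    rw [if_neg (Ne.symm hb), zero_mul]
  · intro h0
    exact absurd (Finset.mem_univ i) h0

theorem coreProp (hN : NodeProp) (hP : PotProp) (hS : SchedProp) : CoreProp := by
  classical
  obtain ⟨Cs, hCs0, hS⟩ := hS ((2 : ℝ) ^ 100) (one_le_pow₀ (by norm_num))
  refine ⟨2 * (14 * 3000000 * Cs + 16 * 3000000 * Cs + (16 + 32 * 3000000)) + 2000000,
    by (clear * - hCs0; positivity), ?_⟩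
  intro n hn ι _ w lam hlam hlam0 hw hsum hdiag
  obtain ⟨wd, J, N, Q, hJ0, hJ1, hJ, hJn, hwd, hN1, hJ2, hF2, hF3, hF4, hQ0, hQ, hcost⟩ :=
    hS n lam hlam hlam0
  have hQnn : ∀ s, 0 ≤ Q s := by
    intro s
    induction s with
    | zero => rw [hQ0]
    | succ s ih =>
      rw [hQ s]
      have : (0 : ℝ) ≤ wd s := Nat.cast_nonneg _
      split_ifs <;> nlinarith only [ih]
  set P : ℕ → ℝ := fun S => ∑ s ∈ Finset.range S,
    (14 * (3000000 * Q s * wd s)
      + if J s < J (s + 2) then 16 * 3000000 * ((J (s + 2) : ℝ) - J s + wd s) else 0) with hPdef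
  have hPs : ∀ s, P (s + 1) = P s + 14 * (3000000 * Q s * wd s)
      + if J s < J (s + 2) then 16 * 3000000 * ((J (s + 2) : ℝ) - J s + wd s) else 0 := by
    intro s
    simp only [hPdef]
    rw [Finset.sum_range_succ]
    ring
  have hcpos : ∀ s, 0 ≤ (if J s < J (s + 2) then ((J (s + 2) : ℝ) - J s + wd s) else 0) := by
    intro s
    split_ifs with h
    · have h1 : (J s : ℝ) ≤ J (s + 2) := by exact_mod_cast h.le
      have : (0 : ℝ) ≤ wd s := Nat.cast_nonneg _
      linarith only [h1]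
    · exact le_refl _
  have hPm : ∀ s, P s ≤ (14 * 3000000 * Cs + 16 * 3000000 * Cs) * n := by
    intro S
    have h1 := hcost S
    have h2 : P S ≤ (14 * 3000000 + 16 * 3000000) * ∑ s ∈ Finset.range S,
        (Q s * wd s + if J s < J (s + 2) then ((J (s + 2) : ℝ) - J s + wd s) else 0) := by
      rw [Finset.mul_sum]
      refine Finset.sum_le_sum fun s _ => ?_
      have h3 := hcpos s
      have h4 : 0 ≤ Q s * wd s := mul_nonneg (hQnn s) (Nat.cast_nonneg _)
      split_ifs at h3 ⊢ with h <;> nlinarith only [h4, h3]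
    calc P S ≤ _ := h2
      _ ≤ (14 * 3000000 + 16 * 3000000) * (Cs * n) := mul_le_mul_of_nonneg_left h1 (by norm_num)
      _ = _ := by ring
  have hP0 : P 0 = 0 := by simp only [hPdef, Finset.range_zero, Finset.sum_empty]
  have hE0 : (fun i => lam i / 2 ^ (∑ s' ∈ Finset.range 0, wd s')) = lam := by
    funext i; simp
  have hroot : NI w lam wd J N Q P (16 + 32 * 3000000) 0 Finset.univ (fun _ => 0) := by
    refine ⟨?_, ?_, ?_, ?_⟩
    · rw [hE0]
      intro y _
      rw [MQ_diag w lam hdiag, sub_self, abs_zero]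
      have h1 : 0 ≤ N 0 := le_trans zero_le_one (hN1 0)
      have h2 : 0 ≤ ∑ i, (rk (J 0) i) ^ 2 * (y i) ^ 2 :=
        Finset.sum_nonneg fun i _ => mul_nonneg (sq_nonneg _) (sq_nonneg _)
      (clear * - h1; positivity)
    · rw [hQ0]
      refine le_of_eq (Finset.sum_eq_zero fun v _ => ?_)
      unfold qv
      have : lo n (J 0) = ∅ := by
        ext i; rw [mem_lo, hJ0]; simp
      rw [this, Finset.sum_empty]
    · intro k _ _
      rw [hP0]
      simp only [ne_eq, OfNat.ofNat_ne_zero, not_false_eq_true, zero_pow, mul_zero, Finset.sum_const_zero, zero_add]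
      (clear * -; positivity)
    · intro k _ _
      rw [hP0]
      simp only [zero_add, hsum]
      simp only [ne_eq, OfNat.ofNat_ne_zero, not_false_eq_true, zero_pow, mul_zero, Finset.sum_const_zero]
      (clear * -; positivity)
  obtain ⟨l, h1, h2, h3⟩ := order_exists hN hP w lam hlam hlam0 hw wd J N Q P
    ((14 * 3000000 * Cs + 16 * 3000000 * Cs) * n) hJ hJn hwd hN1 hJ2 hF2 hF3 hF4 hQnn hQ hPs hPm
    _ 0 Finset.univ (fun _ => 0) le_rfl hroot
  refine ⟨l, h1, fun v => (h2 v).2 (Finset.mem_univ v), ?_⟩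
  intro m
  have h4 := h3 m
  simp only [zero_add] at h4
  refine le_trans h4 ?_
  have hn1 : (1 : ℝ) ≤ n := by exact_mod_cast hn
  nlinarith only [hn1]

end Vale.Agent.P262.Sqrt
end
end

section

section

/-! Module POTENTIAL of the proof of `S_2(d) = O(√d)`. -/

open scoped BigOperators

namespace Vale.Agent.P262.Sqrt

namespace Pot

theorem shr_sq (Δ a : ℝ) : (shr Δ a) ^ 2 + 2 * Δ * |shr Δ a| ≤ a ^ 2 := by
  unfold shr
  split_ifs with h1 h2
  · rw [abs_of_pos (by linarith only [h1])]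
    nlinarith only [sq_nonneg Δ]
  · rw [abs_of_neg (by linarith)]
    nlinarith only [sq_nonneg Δ]
  · simp only [ne_eq, OfNat.ofNat_ne_zero, not_false_eq_true, zero_pow, abs_zero, mul_zero, add_zero, sq_nonneg]

theorem conv_sq (x y θ : ℝ) (h0 : 0 ≤ θ) (h1 : θ ≤ 1) :
    ((1 - θ) * x + θ * y) ^ 2 ≤ (1 - θ) * x ^ 2 + θ * y ^ 2 := by
  nlinarith only [mul_nonneg (mul_nonneg (sub_nonneg.2 h1) h0) (sq_nonneg (x - y))]

/-- The rich coordinates. -/
theorem rich (Δ a b θ e : ℝ) (hΔ : 0 ≤ Δ) (h0 : 0 ≤ θ) (h1 : θ ≤ 1) (he : |e| ≤ Δ / 2) :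
    (((1 - θ) * shr Δ a + θ * shr Δ b + e) ^ 2 ≤ 2 + 2 * e ^ 2) ∨
    (((1 - θ) * shr Δ a + θ * shr Δ b + e) ^ 2 ≤
      ((1 - θ) * a ^ 2 + θ * b ^ 2) + e ^ 2 - Δ) := by
  set u := shr Δ a with hu
  set z := shr Δ b with hz
  set x := (1 - θ) * u + θ * z with hx
  by_cases h : |x| < 1
  · left
    have h2 : x ^ 2 ≤ 1 := by
      rw [← sq_abs]
      nlinarith only [h, abs_nonneg x]
    nlinarith only [h2, sq_nonneg (x - e)]
  · right
    push Not at h
    have ha := shr_sq Δ a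
    have hb := shr_sq Δ b
    rw [← hu] at ha
    rw [← hz] at hb
    have hc := conv_sq u z θ h0 h1
    rw [← hx] at hc
    have h3 : |x| ≤ (1 - θ) * |u| + θ * |z| := by
      calc |x| ≤ |(1 - θ) * u| + |θ * z| := abs_add_le _ _
        _ = (1 - θ) * |u| + θ * |z| := by
          rw [abs_mul, abs_mul, abs_of_nonneg (sub_nonneg.2 h1), abs_of_nonneg h0]
    have h4 : (1 - θ) * (u ^ 2 + 2 * Δ * |u|) + θ * (z ^ 2 + 2 * Δ * |z|) ≤
        (1 - θ) * a ^ 2 + θ * b ^ 2 :=
      add_le_add (mul_le_mul_of_nonneg_left ha (sub_nonneg.2 h1))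
        (mul_le_mul_of_nonneg_left hb h0)
    have h5 : x ^ 2 + 2 * Δ * |x| ≤ (1 - θ) * a ^ 2 + θ * b ^ 2 := by
      have : 2 * Δ * |x| ≤ 2 * Δ * ((1 - θ) * |u| + θ * |z|) :=
        mul_le_mul_of_nonneg_left h3 (by linarith only [hΔ])
      nlinarith only [hc, h4, this]
    have h6 : x * e ≤ |x| * (Δ / 2) := by
      calc x * e ≤ |x * e| := le_abs_self _
        _ = |x| * |e| := abs_mul _ _
        _ ≤ |x| * (Δ / 2) := mul_le_mul_of_nonneg_left he (abs_nonneg _)
    have h7 : Δ ≤ Δ * |x| := by nlinarith only [hΔ, h]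
    nlinarith only [h5, h6, h7]

theorem card_mid (n J k : ℕ) (hJk : J ≤ k) : ((mid n J k).card : ℝ) ≤ (k : ℝ) - J := by
  have h : (mid n J k).card ≤ (Finset.Ico J k).card := by
    apply Finset.card_le_card_of_injOn (fun i => i.val)
    · intro i hi
      simp only [mid, Finset.coe_filter, Finset.mem_univ, true_and, Set.mem_ofPred_eq] at hi
      simpa only [Finset.coe_Ico, Set.mem_Ico] using hi
    · intro i _ j _ h
      exact Fin.ext h
  rw [Nat.card_Ico] at h
  have h2 : ((mid n J k).card : ℝ) ≤ ((k - J : ℕ) : ℝ) := by exact_mod_cast h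
  rwa [Nat.cast_sub hJk] at h2

end Pot

open Pot in
theorem potProp : PotProp := by
  intro n J J' R wd om om' Om Δ a b e B5 Z0 P θ hJJ hJR hRn hwd hRJ hB h0 h1 hom hpoor hwin hrich
    hZ he hΔ hPa hPb k hk hkn
  set A : Fin n → ℝ := fun i => (1 - θ) * (a i) ^ 2 + θ * (b i) ^ 2 with hA
  have hJR' : J ≤ R := hJJ.trans hJR
  have hA0 : ∀ i, 0 ≤ om i * A i := fun i => mul_nonneg (hom i)
    (add_nonneg (mul_nonneg (sub_nonneg.2 h1) (sq_nonneg _)) (mul_nonneg h0 (sq_nonneg _)))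
  have hwd' : (1 : ℝ) ≤ wd := by exact_mod_cast hwd
  -- the potential of the mixture
  have hPA : ∀ m : ℕ, J ≤ m → m ≤ n → ∑ i ∈ lo n m, om i * A i ≤ P + (16 + 32 * B5) * m := by
    intro m hm hmn
    have e1 : ∑ i ∈ lo n m, om i * A i = (1 - θ) * ∑ i ∈ lo n m, om i * (a i) ^ 2 +
        θ * ∑ i ∈ lo n m, om i * (b i) ^ 2 := by
      rw [Finset.mul_sum, Finset.mul_sum, ← Finset.sum_add_distrib]
      exact Finset.sum_congr rfl fun i _ => by rw [hA]; ring
    rw [e1]
    have h2 := mul_le_mul_of_nonneg_left (hPa m hm hmn) (sub_nonneg.2 h1)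
    have h3 := mul_le_mul_of_nonneg_left (hPb m hm hmn) h0
    linarith only [h2, h3]
  -- pointwise bounds
  have hlow : ∀ i : Fin n, i.val < R →
      (tgt R Δ a b θ i) ^ 2 ≤ A i := by
    intro i hi
    unfold tgt
    rw [if_pos hi]
    exact conv_sq _ _ _ h0 h1
  have b1 : ∀ i : Fin n, i.val < J →
      om' i * (tgt R Δ a b θ i + e i) ^ 2 ≤ om i * A i + 14 * (Om i * (e i) ^ 2) := by
    intro i hi
    have h2 := hpoor i hi (tgt R Δ a b θ i) (e i)
    have h3 := mul_le_mul_of_nonneg_left (hlow i (by omega)) (hom i)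
    linarith only [h2, h3]
  have b2 : ∀ i : Fin n, J ≤ i.val → i.val < R →
      om' i * (tgt R Δ a b θ i + e i) ^ 2 ≤ om i * A i + 8 * (e i) ^ 2 := by
    intro i hi1 hi
    have h2 := hwin i hi1 hi (tgt R Δ a b θ i) (e i)
    have h3 := mul_le_mul_of_nonneg_left (hlow i (by omega)) (hom i)
    linarith only [h2, h3]
  have hΔ0 : ∀ i : Fin n, R ≤ i.val → 0 ≤ Δ i := by
    intro i hi
    have h2 := (hΔ i hi).1
    have h3 := abs_nonneg (e i)
    linarith only [h2, h3]
  have b3 : ∀ i : Fin n, R ≤ i.val →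
      (om' i * (tgt R Δ a b θ i + e i) ^ 2 ≤ 16 + 16 * (e i) ^ 2) ∨
      (om' i * (tgt R Δ a b θ i + e i) ^ 2 ≤ om i * A i + 8 * (e i) ^ 2 - 8 * Δ i) := by
    intro i hi
    obtain ⟨ho, ho'⟩ := hrich i hi
    have e1 : tgt R Δ a b θ i = (1 - θ) * shr (Δ i) (a i) + θ * shr (Δ i) (b i) := by
      unfold tgt
      rw [if_neg (by omega)]
    rw [e1, ho, ho']
    rcases rich (Δ i) (a i) (b i) θ (e i) (hΔ0 i hi) h0 h1 (hΔ i hi).1 with h | h
    · left; linarith only [h]
    · right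
      simp only [hA]
      linarith only [h]
  set F : Fin n → ℝ := fun i => om' i * (tgt R Δ a b θ i + e i) ^ 2 with hF
  change ∑ i ∈ lo n k, F i ≤ _
  have hJk : J ≤ k := hJJ.trans hk
  have hJk' : (J : ℝ) ≤ k := by exact_mod_cast hJk
  have hJRr : (J : ℝ) ≤ R := by exact_mod_cast hJR'
  have hsq : ∀ i, 0 ≤ (e i) ^ 2 := fun i => sq_nonneg _
  have hK : ∀ m : ℕ, J < m → m ≤ n →
      ∑ i ∈ mid n J m, (16 + 16 * (e i) ^ 2) ≤
        16 * ((m : ℝ) - J) + 16 * (B5 * ((m : ℝ) - J + wd)) := by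
    intro m hm hmn
    rw [Finset.sum_add_distrib, ← Finset.mul_sum, Finset.sum_const, nsmul_eq_mul]
    have h2 := card_mid n J m hm.le
    have h3 := he m hm hmn
    linarith only [h2, h3]
  by_cases hkR : k ≤ R
  · -- only poor and window coordinates
    have key : ∑ i ∈ lo n k, F i ≤ ∑ i ∈ lo n k, om i * A i + ∑ i ∈ lo n J, 14 * (Om i * (e i) ^ 2)
        + ∑ i ∈ mid n J k, 8 * (e i) ^ 2 := by
      simp only [lo, mid, Finset.sum_filter, ← Finset.sum_add_distrib]
      apply Finset.sum_le_sum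
      intro i _
      by_cases c1 : i.val < J
      · rw [if_pos (by omega), if_pos (by omega), if_pos c1, if_neg (by omega)]
        have := b1 i c1
        simp only [hF]
        linarith only [this]
      · by_cases c2 : i.val < k
        · rw [if_pos c2, if_pos c2, if_neg c1, if_pos (by omega)]
          have := b2 i (by omega) (by omega)
          simp only [hF]
          linarith only [this]
        · rw [if_neg c2, if_neg c2, if_neg c1, if_neg (by omega)]
          simp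
    have h2 := hPA k hJk hkn
    have h3 : ∑ i ∈ lo n J, 14 * (Om i * (e i) ^ 2) ≤ 14 * Z0 := by
      rw [← Finset.mul_sum]; linarith only [hZ]
    have h4 : ∑ i ∈ mid n J k, 8 * (e i) ^ 2 ≤
        if J < R then 16 * B5 * ((R : ℝ) - J + wd) else 0 := by
      rcases Nat.lt_or_ge J k with c | c
      · rw [if_pos (by omega), ← Finset.mul_sum]
        have h5 := he k c hkn
        have hkR' : (k : ℝ) ≤ R := by exact_mod_cast hkR
        have h6 : B5 * ((k : ℝ) - J + wd) ≤ B5 * ((R : ℝ) - J + wd) :=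
          mul_le_mul_of_nonneg_left (by linarith only [hkR']) (by linarith only [hB])
        have h7 : 0 ≤ B5 * ((R : ℝ) - J + wd) := mul_nonneg (by linarith only [hB]) (by linarith only [hwd',
              hJRr])
        linarith only [h5, h6, h7]
      · have e1 : mid n J k = ∅ := by
          apply Finset.filter_false_of_mem
          intro i _
          omega
        rw [e1, Finset.sum_empty]
        split_ifs
        · exact mul_nonneg (by linarith only [hB]) (by linarith only [hwd', hJRr])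
        · exact le_rfl
    linarith only [key, h2, h3, h4]
  · push Not at hkR
    have hRk : (R : ℝ) + 1 ≤ k := by exact_mod_cast hkR
    by_cases hex : ∃ i : Fin n, R ≤ i.val ∧ i.val < k ∧ ¬ F i ≤ 16 + 16 * (e i) ^ 2
    · -- the last large rich coordinate
      set S : Finset (Fin n) := Finset.univ.filter
        (fun i => R ≤ i.val ∧ i.val < k ∧ ¬ F i ≤ 16 + 16 * (e i) ^ 2) with hS
      have hSne : S.Nonempty := by
        obtain ⟨i, hi⟩ := hex
        exact ⟨i, by rw [hS]; exact Finset.mem_filter.2 ⟨Finset.mem_univ _, hi⟩⟩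
      obtain ⟨p, hpS, hmax⟩ := S.exists_max_image (fun i => i.val) hSne
      have hp := (Finset.mem_filter.1 (hS ▸ hpS)).2
      obtain ⟨hp1, hp2, hp3⟩ := hp
      have hgt : ∀ i : Fin n, p.val < i.val → i.val < k → F i ≤ 16 + 16 * (e i) ^ 2 := by
        intro i hi hik
        by_contra hcon
        have : i ∈ S := by
          rw [hS]; exact Finset.mem_filter.2 ⟨Finset.mem_univ _, by omega, hik, hcon⟩
        have := hmax i this
        omega
      have hpF : F p ≤ om p * A p + 8 * (e p) ^ 2 - 8 * Δ p := (b3 p hp1).resolve_left hp3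
      have key : ∑ i ∈ lo n k, F i ≤ ∑ i ∈ lo n (p.val + 1), om i * A i +
          ∑ i ∈ lo n J, 14 * (Om i * (e i) ^ 2)
          + ∑ i ∈ mid n J k, (16 + 16 * (e i) ^ 2) + ∑ i : Fin n, if i = p then -(8 * Δ p) else 0 := by
        simp only [lo, mid, Finset.sum_filter, ← Finset.sum_add_distrib]
        apply Finset.sum_le_sum
        intro i _
        have hi0 := hsq i
        have hiA := hA0 i
        by_cases c1 : i.val < J
        · rw [if_pos (by omega), if_pos (by omega), if_pos c1, if_neg (by omega),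
            if_neg (by intro h; rw [h] at c1; omega)]
          have := b1 i c1
          simp only [hF]
          linarith only [this]
        · by_cases c2 : i.val < R
          · rw [if_pos (by omega), if_pos (by omega), if_neg c1, if_pos (by omega),
              if_neg (by intro h; rw [h] at c2; omega)]
            have := b2 i (by omega) (by omega)
            simp only [hF]
            linarith only [hi0, this]
          · by_cases c3 : i = p
            · subst c3
              rw [if_pos (by omega), if_pos (by omega), if_neg c1, if_pos (by omega), if_pos rfl]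
              linarith only [hi0, hpF]
            · have c3' : i.val ≠ p.val := fun h => c3 (Fin.ext h)
              rw [if_neg c3]
              by_cases c4 : i.val < p.val
              · rw [if_pos (by omega), if_pos (by omega), if_neg c1, if_pos (by omega)]
                have hi1 := hΔ0 i (by omega)
                rcases b3 i (by omega) with h | h
                · simp only [hF]; linarith only [hiA, h]
                · simp only [hF]; linarith only [hi0, hi1, h]
              · by_cases c5 : i.val < k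
                · rw [if_pos c5, if_neg (by omega), if_neg c1, if_pos (by omega)]
                  have := hgt i (by omega) c5
                  linarith only [this]
                · rw [if_neg c5, if_neg (by omega), if_neg c1, if_neg (by omega)]
                  simp
      have h2 := hPA (p.val + 1) (by omega) (by omega)
      have h3 : ∑ i ∈ lo n J, 14 * (Om i * (e i) ^ 2) ≤ 14 * Z0 := by
        rw [← Finset.mul_sum]; linarith only [hZ]
      have h4 := hK k (by omega) hkn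
      have h5 : (∑ i : Fin n, if i = p then -(8 * Δ p) else 0) = -(8 * Δ p) := by
        simp only [Finset.sum_ite_eq', Finset.mem_univ, ↓reduceIte]
      rw [h5] at key
      have h6 := (hΔ p hp1).2
      have h7 : rk J p = (p.val : ℝ) - J + 1 := rfl
      rw [h7] at h6
      have h8 : (0 : ℝ) ≤ if J < R then 16 * B5 * ((R : ℝ) - J + wd) else 0 := by
        split_ifs
        · exact mul_nonneg (by linarith only [hB]) (by linarith only [hwd', hJRr])
        · exact le_rfl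
      have h9 : ((p.val : ℝ) + 1) ≤ k := by exact_mod_cast hp2
      push_cast at h2
      have h10 : 0 ≤ B5 * ((k : ℝ) - (p.val + 1)) := mul_nonneg (by linarith only [hB]) (by linarith only [h9])
      nlinarith only [hwd', key, h3, h4, h6, h8, h2, h10]
    · -- all rich coordinates are small
      have hsm : ∀ i : Fin n, R ≤ i.val → i.val < k → F i ≤ 16 + 16 * (e i) ^ 2 := by
        intro i hi hik
        by_contra hcon
        exact hex ⟨i, hi, hik, hcon⟩
      have key : ∑ i ∈ lo n k, F i ≤ ∑ i ∈ lo n R, om i * A i +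
          ∑ i ∈ lo n J, 14 * (Om i * (e i) ^ 2)
          + ∑ i ∈ mid n J k, 16 * (e i) ^ 2 + ∑ i ∈ mid n R k, (16 : ℝ) := by
        simp only [lo, mid, Finset.sum_filter, ← Finset.sum_add_distrib]
        apply Finset.sum_le_sum
        intro i _
        have hi0 := hsq i
        by_cases c1 : i.val < J
        · rw [if_pos (by omega), if_pos (by omega), if_pos c1, if_neg (by omega),
            if_neg (by omega)]
          have := b1 i c1
          simp only [hF]
          linarith only [this]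
        · by_cases c2 : i.val < R
          · rw [if_pos (by omega), if_pos (by omega), if_neg c1, if_pos (by omega),
              if_neg (by omega)]
            have := b2 i (by omega) (by omega)
            simp only [hF]
            linarith only [hi0, this]
          · by_cases c5 : i.val < k
            · rw [if_pos c5, if_neg (by omega), if_neg c1, if_pos (by omega), if_pos (by omega)]
              have := hsm i (by omega) c5
              linarith only [this]
            · rw [if_neg c5, if_neg (by omega), if_neg c1, if_neg (by omega), if_neg (by omega)]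
              simp
      have h2 := hPA R hJR' hRn
      have h3 : ∑ i ∈ lo n J, 14 * (Om i * (e i) ^ 2) ≤ 14 * Z0 := by
        rw [← Finset.mul_sum]; linarith only [hZ]
      have h4 : ∑ i ∈ mid n J k, 16 * (e i) ^ 2 ≤ 16 * (B5 * ((k : ℝ) - J + wd)) := by
        rw [← Finset.mul_sum]
        have := he k (by omega) hkn
        linarith only [this]
      have h5 : ∑ i ∈ mid n R k, (16 : ℝ) ≤ 16 * ((k : ℝ) - R) := by
        rw [Finset.sum_const, nsmul_eq_mul]
        have := card_mid n R k hkR.le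
        linarith only [this]
      have h10 : 0 ≤ B5 * ((k : ℝ) - R - 1) := mul_nonneg (by linarith only [hB]) (by linarith only [hRk])
      rcases Nat.lt_or_ge J R with c | c
      · rw [if_pos c]
        nlinarith only [hB, key, h2, h3, h4, h5, h10]
      · have e1 : R = J := le_antisymm c hJR'
        have e2 := hRJ e1
        rw [if_neg (by omega)]
        subst e1
        have e3 : (wd : ℝ) = 1 := by exact_mod_cast e2
        rw [e3] at h4
        nlinarith only [h2, h5, h10, key, h3, h4]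

end Vale.Agent.P262.Sqrt
end
end

section

section

/-!
# Module SCHEDULE for `S_2(d) = O(√d)` (P262)
-/

open scoped BigOperators

namespace Vale.Agent.P262.Sqrt

namespace Sched

/-- State of the schedule. -/
structure St where
  /-- number of poor coordinates -/
  J : ℕ
  /-- number of poor coordinates after the next split -/
  J' : ℕ
  /-- memory -/
  M : ℕ
  /-- level -/
  l : ℕ
  /-- bound of the poor content -/
  Q : ℝ

/-- Width of a split. -/
def wdF (Cw g M : ℕ) : ℕ := if g = 0 then 1 else Cw + 20 * (M + Nat.size g)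

/-- New memory. -/
def mF (g M : ℕ) : ℕ := if g = 0 then M - 1 else max (M - 1) (8 * Nat.size g)

/-- Constant `A`. -/
noncomputable def AF (Cw : ℕ) : ℝ := 1000 * (Cw : ℝ) + 10000

/-- Error coefficient. -/
noncomputable def NF (Cw M : ℕ) : ℝ := AF Cw * Real.sqrt 2 ^ M

/-- Richness threshold. -/
def thr (T : ℝ) (Cw n : ℕ) (lam : Fin n → ℝ) (st : St) (i : Fin n) : Prop :=
  T * (max (NF Cw st.M) (wdF Cw (st.J' - st.J) st.M : ℝ) * rk st.J i) ^ 8
    ≤ lam i / 2 ^ (st.l + wdF Cw (st.J' - st.J) st.M)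

/-- One step of the schedule. -/
noncomputable def step (T : ℝ) (Cw n : ℕ) (lam : Fin n → ℝ) (st : St) : St where
  J := st.J'
  J' := sInf {R : ℕ | st.J' ≤ R ∧ ∀ i : Fin n, R ≤ i.val → thr T Cw n lam st i}
  M := mF (st.J' - st.J) st.M
  l := st.l + wdF Cw (st.J' - st.J) st.M
  Q := 0.855 * st.Q + (if st.J < st.J' then 200 * (wdF Cw (st.J' - st.J) st.M : ℝ) else 0)

/-- The schedule. -/
noncomputable def sq (T : ℝ) (Cw n : ℕ) (lam : Fin n → ℝ) (s : ℕ) : St :=
  (step T Cw n lam)^[s] ⟨0, 0, 0, 0, 0⟩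

lemma sq_zero (T : ℝ) (Cw n : ℕ) (lam : Fin n → ℝ) : sq T Cw n lam 0 = ⟨0, 0, 0, 0, 0⟩ := rfl

lemma sq_succ (T : ℝ) (Cw n : ℕ) (lam : Fin n → ℝ) (s : ℕ) :
    sq T Cw n lam (s + 1) = step T Cw n lam (sq T Cw n lam s) := by
  simp only [sq, Function.iterate_succ_apply']

section basic

variable (T : ℝ) (Cw n : ℕ) (lam : Fin n → ℝ)

lemma step_set_nonempty (st : St) :
    {R : ℕ | st.J' ≤ R ∧ ∀ i : Fin n, R ≤ i.val → thr T Cw n lam st i}.Nonempty := by
  refine ⟨max st.J' n, le_max_left _ _, fun i hi => ?_⟩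
  have h1 := i.isLt
  have h2 : n ≤ i.val := le_trans (le_max_right _ _) hi
  omega

lemma step_J'_mem (st : St) :
    st.J' ≤ (step T Cw n lam st).J' ∧
      ∀ i : Fin n, (step T Cw n lam st).J' ≤ i.val → thr T Cw n lam st i :=
  Nat.sInf_mem (step_set_nonempty T Cw n lam st)

lemma step_J'_le (st : St) (h : st.J' ≤ n) : (step T Cw n lam st).J' ≤ n := by
  apply Nat.sInf_le
  refine ⟨h, fun i hi => ?_⟩
  have h1 := i.isLt
  omega

/-- Minimality: if the window is nonempty its last element violates the threshold. -/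
lemma step_last (st : St) (h : st.J' < (step T Cw n lam st).J')
    (hn : (step T Cw n lam st).J' ≤ n) :
    ∃ i : Fin n, i.val + 1 = (step T Cw n lam st).J' ∧ ¬ thr T Cw n lam st i := by
  set R := (step T Cw n lam st).J' with hR
  have hR1 : R - 1 < n := by omega
  refine ⟨⟨R - 1, hR1⟩, by simp only; omega, fun hthr => ?_⟩
  have hnot : R - 1 ∉ {R : ℕ | st.J' ≤ R ∧ ∀ i : Fin n, R ≤ i.val → thr T Cw n lam st i} := by
    apply Nat.notMem_of_lt_sInf
    show R - 1 < R
    omega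
  apply hnot
  refine ⟨by omega, fun i hi => ?_⟩
  rcases Nat.lt_or_ge i.val R with hlt | hge
  · have : i = ⟨R - 1, hR1⟩ := by
      apply Fin.ext
      simp only
      omega
    rw [this]
    exact hthr
  · exact (step_J'_mem T Cw n lam st).2 i hge

lemma sq_J_succ (s : ℕ) : (sq T Cw n lam (s + 1)).J = (sq T Cw n lam s).J' := by
  rw [sq_succ]; rfl

lemma sq_le (s : ℕ) : (sq T Cw n lam s).J ≤ (sq T Cw n lam s).J' ∧
    (sq T Cw n lam s).J' ≤ n := by
  induction s with
  | zero => simp [sq_zero]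
  | succ s ih =>
    rw [sq_succ]
    refine ⟨?_, step_J'_le T Cw n lam _ ih.2⟩
    exact (step_J'_mem T Cw n lam _).1

lemma sq_l (s : ℕ) : (sq T Cw n lam s).l =
    ∑ s' ∈ Finset.range s,
      wdF Cw ((sq T Cw n lam s').J' - (sq T Cw n lam s').J) (sq T Cw n lam s').M := by
  induction s with
  | zero => simp only [sq_zero, Finset.range_zero, Finset.sum_empty]
  | succ s ih =>
    rw [Finset.sum_range_succ, ← ih, sq_succ]
    rfl

end basic

/-! ### Arithmetic -/

lemma one_le_wdF (Cw g M : ℕ) (h : 1 ≤ Cw) : 1 ≤ wdF Cw g M := by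
  unfold wdF; split_ifs <;> omega

lemma AF_pos (Cw : ℕ) : (10000 : ℝ) ≤ AF Cw := by
  unfold AF
  have : (0 : ℝ) ≤ Cw := Nat.cast_nonneg _
  linarith only []

lemma sqrt2_ge : (1 : ℝ) ≤ Real.sqrt 2 := by
  rw [show (1 : ℝ) = Real.sqrt 1 by simp]
  exact Real.sqrt_le_sqrt (by norm_num)

lemma sqrt2_le : Real.sqrt 2 ≤ (2 : ℝ) := by
  rw [show (2 : ℝ) = Real.sqrt 4 by
    rw [show (4 : ℝ) = 2 ^ 2 by norm_num]; simp]
  exact Real.sqrt_le_sqrt (by norm_num)

lemma sqrt2_pow_le (M : ℕ) : Real.sqrt 2 ^ M ≤ (2 : ℝ) ^ M :=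
  pow_le_pow_left₀ (by positivity) sqrt2_le M

lemma one_le_NF (Cw M : ℕ) : 1 ≤ NF Cw M := by
  unfold NF
  have h1 := AF_pos Cw
  have h2 : (1 : ℝ) ≤ Real.sqrt 2 ^ M := one_le_pow₀ sqrt2_ge
  nlinarith only [h1, h2]

lemma lt_two_pow_size (g : ℕ) : (g : ℝ) + 1 ≤ 2 ^ (Nat.size g) := by
  have h : g < 2 ^ Nat.size g := Nat.lt_size_self g
  have h' : g + 1 ≤ 2 ^ Nat.size g := h
  exact_mod_cast h'

/-- Bound of `max N w` by a power of two. -/
lemma max_bound (Cw g M M1 : ℕ) (h1 : M ≤ M1 + 1) (h2 : g ≠ 0 → Nat.size g ≤ M1) :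
    max (NF Cw M) (wdF Cw g M : ℝ) ≤ AF Cw * 2 ^ (M1 + 1) := by
  have hA := AF_pos Cw
  have hM1 : (M1 : ℝ) + 1 ≤ 2 ^ (M1 + 1) := by
    have h : M1 + 1 < 2 ^ (M1 + 1) := Nat.lt_two_pow_self
    exact_mod_cast h.le
  apply max_le
  · unfold NF
    apply mul_le_mul_of_nonneg_left _ (by linarith only [hA])
    calc Real.sqrt 2 ^ M ≤ 2 ^ M := sqrt2_pow_le M
      _ ≤ 2 ^ (M1 + 1) := pow_le_pow_right₀ (by norm_num) h1
  · have hC : (0 : ℝ) ≤ Cw := Nat.cast_nonneg _
    have hw : (wdF Cw g M : ℝ) ≤ AF Cw * ((M1 : ℝ) + 1) := by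
      unfold wdF AF
      split_ifs with hg
      · have : (0 : ℝ) ≤ M1 := Nat.cast_nonneg _
        push_cast
        nlinarith only []
      · have h3 := h2 hg
        have h3' : (Nat.size g : ℝ) ≤ M1 := by exact_mod_cast h3
        have h1' : (M : ℝ) ≤ M1 + 1 := by exact_mod_cast h1
        have : (0 : ℝ) ≤ M1 := Nat.cast_nonneg _
        push_cast
        nlinarith only [h3', h1']
    calc (wdF Cw g M : ℝ) ≤ AF Cw * ((M1 : ℝ) + 1) := hw
      _ ≤ AF Cw * 2 ^ (M1 + 1) := by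
        apply mul_le_mul_of_nonneg_left hM1 (by linarith only [hA])

lemma pow20 : (2 : ℝ) ^ 16 ≤ (20 / 11) ^ 20 := by norm_num

lemma pow_wd (k : ℕ) : (2 : ℝ) ^ (16 * k) ≤ (20 / 11) ^ (20 * k) := by
  rw [pow_mul, pow_mul]
  exact pow_le_pow_left₀ (by positivity) pow20 k

lemma inv_pow (w : ℕ) : (0.55 : ℝ) ^ w * (20 / 11) ^ w = 1 := by
  rw [← mul_pow]; norm_num

/-- From `X ≤ (20/11)^w` to `X * 0.55^w ≤ 1`. -/
lemma mul_pow_le_one {X : ℝ} {w : ℕ} (h : X ≤ (20 / 11) ^ w) : X * (0.55 : ℝ) ^ w ≤ 1 := by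
  calc X * (0.55 : ℝ) ^ w ≤ (20 / 11) ^ w * (0.55 : ℝ) ^ w :=
        mul_le_mul_of_nonneg_right h (by positivity)
    _ = 1 := by rw [mul_comm]; exact inv_pow w

/-- Main arithmetic inequality behind (F3). -/
lemma F3_ineq (T : ℝ) (hT : 1 ≤ T) (Cw : ℕ)
    (hC : (2 : ℝ) ^ 18 * T * AF Cw ^ 8 ≤ (20 / 11) ^ Cw)
    (M g : ℕ) (hg : g ≠ 0) (X : ℝ) (hX0 : 0 ≤ X)
    (hX : X ≤ AF Cw * 2 ^ (2 * M + Nat.size g + 2)) :
    ((g : ℝ) * (2 * (T * X ^ 8) + NF Cw M * (g : ℝ) ^ 2 + 2)) * (0.55 : ℝ) ^ (wdF Cw g M) ≤ 1 := by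
  have hA := AF_pos Cw
  set σ := Nat.size g with hσ
  have hg2 : (g : ℝ) ≤ 2 ^ σ := by
    have := lt_two_pow_size g
    linarith only [this]
  have hg0 : (0 : ℝ) ≤ g := Nat.cast_nonneg _
  apply mul_pow_le_one
  have hwd : wdF Cw g M = Cw + 20 * (M + σ) := by
    unfold wdF; rw [if_neg hg]
  rw [hwd]
  set P : ℝ := 2 ^ (16 * M + 8 * σ) with hP
  have hP1 : 1 ≤ P := one_le_pow₀ (by norm_num)
  have hA8 : AF Cw ≤ AF Cw ^ 8 := by
    calc AF Cw = AF Cw ^ 1 := (pow_one _).symm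
      _ ≤ AF Cw ^ 8 := pow_le_pow_right₀ (by linarith only [hA]) (by norm_num)
  have hA8' : (10000 : ℝ) ≤ AF Cw ^ 8 := le_trans hA hA8
  -- first term
  have h1 : 2 * (T * X ^ 8) ≤ 2 ^ 17 * T * AF Cw ^ 8 * P := by
    have hX8 : X ^ 8 ≤ (AF Cw * 2 ^ (2 * M + σ + 2)) ^ 8 := pow_le_pow_left₀ hX0 hX 8
    have e1 : (AF Cw * 2 ^ (2 * M + σ + 2)) ^ 8 = AF Cw ^ 8 * P * 2 ^ 16 := by
      rw [mul_pow, hP, ← pow_mul, mul_assoc, ← pow_add]
      congr 2
      ring
    rw [e1] at hX8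
    calc 2 * (T * X ^ 8) ≤ 2 * (T * (AF Cw ^ 8 * P * 2 ^ 16)) := by
          apply mul_le_mul_of_nonneg_left _ (by norm_num)
          exact mul_le_mul_of_nonneg_left hX8 (by linarith only [hT])
      _ = 2 ^ 17 * T * AF Cw ^ 8 * P := by ring
  have h2 : NF Cw M * (g : ℝ) ^ 2 ≤ T * AF Cw ^ 8 * P := by
    have e1 : NF Cw M ≤ AF Cw * 2 ^ M := by
      unfold NF
      exact mul_le_mul_of_nonneg_left (sqrt2_pow_le M) (by linarith only [hA])
    have e2 : (g : ℝ) ^ 2 ≤ (2 ^ σ) ^ 2 := pow_le_pow_left₀ hg0 hg2 2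
    have e3 : (2 : ℝ) ^ M * (2 ^ σ) ^ 2 ≤ P := by
      rw [hP, ← pow_mul, ← pow_add]
      apply pow_le_pow_right₀ (by norm_num)
      (clear * -; omega)
    have e4 : (0 : ℝ) ≤ (2 ^ σ) ^ 2 := by positivity
    calc NF Cw M * (g : ℝ) ^ 2 ≤ (AF Cw * 2 ^ M) * (2 ^ σ) ^ 2 := by
          apply mul_le_mul e1 e2 (by positivity) (by positivity)
      _ = AF Cw * (2 ^ M * (2 ^ σ) ^ 2) := by ring
      _ ≤ AF Cw * P := mul_le_mul_of_nonneg_left e3 (by linarith only [hA])
      _ ≤ (T * AF Cw ^ 8) * P := by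
          apply mul_le_mul_of_nonneg_right _ (by linarith only [hP1])
          nlinarith only [hT, hA, hA8]
      _ = T * AF Cw ^ 8 * P := by ring
  have h3 : (2 : ℝ) ≤ T * AF Cw ^ 8 * P := by
    have : (2 : ℝ) ≤ T * AF Cw ^ 8 := by nlinarith only [hT, hA, hA8]
    nlinarith only [hP1, this]
  have hTA : 0 ≤ T * AF Cw ^ 8 * P := by linarith only [h3]
  have h4 : 2 * (T * X ^ 8) + NF Cw M * (g : ℝ) ^ 2 + 2 ≤ 2 ^ 18 * T * AF Cw ^ 8 * P := by
    nlinarith only [h1, h2, h3]
  have h5 : (0 : ℝ) ≤ 2 ^ 18 * T * AF Cw ^ 8 * P := by nlinarith only [h3]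
  calc (g : ℝ) * (2 * (T * X ^ 8) + NF Cw M * (g : ℝ) ^ 2 + 2)
      ≤ 2 ^ σ * (2 ^ 18 * T * AF Cw ^ 8 * P) := by
        apply mul_le_mul hg2 h4 _ (by positivity)
        have : 0 ≤ NF Cw M := by linarith only [one_le_NF Cw M]
        (clear * - hT this hg; positivity)
    _ = (2 ^ 18 * T * AF Cw ^ 8) * (2 ^ σ * P) := by ring
    _ ≤ (20 / 11) ^ Cw * (20 / 11) ^ (20 * (M + σ)) := by
        apply mul_le_mul hC _ (by positivity) (by positivity)
        calc (2 : ℝ) ^ σ * P ≤ 2 ^ (16 * (M + σ)) := by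
              rw [hP, ← pow_add]
              apply pow_le_pow_right₀ (by norm_num)
              (clear * -; omega)
          _ ≤ (20 / 11) ^ (20 * (M + σ)) := pow_wd _
    _ = (20 / 11) ^ (Cw + 20 * (M + σ)) := by rw [pow_add]

/-- (F4) arithmetic. -/
lemma F4_ineq (T : ℝ) (hT : 1 ≤ T) (Cw : ℕ)
    (hC : (2 : ℝ) ^ 18 * T * AF Cw ^ 8 ≤ (20 / 11) ^ Cw) (M g : ℕ) :
    ((g : ℝ) + 1) ^ 2 * ((0.55 : ℝ) ^ (wdF Cw g M) * (NF Cw M + 1000)
      + 150 * Real.sqrt (wdF Cw g M)) ≤ NF Cw (mF g M) := by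
  have hA := AF_pos Cw
  by_cases hg : g = 0
  · subst hg
    have hw : wdF Cw 0 M = 1 := by unfold wdF; simp
    have hm : mF 0 M = M - 1 := by unfold mF; simp
    rw [hw, hm]
    simp only [Nat.cast_zero, zero_add, one_pow, one_mul, pow_one, Nat.cast_one, Real.sqrt_one]
    rcases Nat.eq_zero_or_pos M with h0 | h0
    · subst h0
      unfold NF
      simp only [pow_zero, mul_one, Nat.zero_sub]
      norm_num
      linarith only [hA]
    · obtain ⟨k, rfl⟩ := Nat.exists_eq_succ_of_ne_zero (Nat.pos_iff_ne_zero.mp h0)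
      have hk : k.succ - 1 = k := rfl
      rw [hk]
      have e1 : NF Cw k.succ = NF Cw k * Real.sqrt 2 := by
        unfold NF; rw [pow_succ]; ring
      rw [e1]
      have h2 : Real.sqrt 2 ≤ 1.42 := by
        rw [show (1.42 : ℝ) = Real.sqrt (1.42 ^ 2) by
          rw [Real.sqrt_sq (by norm_num)]]
        exact Real.sqrt_le_sqrt (by norm_num)
      have h3 : (10000 : ℝ) ≤ NF Cw k := by
        unfold NF
        have : (1 : ℝ) ≤ Real.sqrt 2 ^ k := one_le_pow₀ sqrt2_ge
        nlinarith only [hA, this]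
      nlinarith only [h2, h3]
  · set σ := Nat.size g with hσ
    have hσ1 : 1 ≤ σ := Nat.size_pos.mpr (Nat.pos_of_ne_zero hg)
    have hw : wdF Cw g M = Cw + 20 * (M + σ) := by unfold wdF; rw [if_neg hg]
    have hm : mF g M = max (M - 1) (8 * σ) := by unfold mF; rw [if_neg hg]
    set w := wdF Cw g M with hwdef
    set y := mF g M with hy
    have hg2 : (g : ℝ) + 1 ≤ 2 ^ σ := lt_two_pow_size g
    have hg0 : (0 : ℝ) ≤ g := Nat.cast_nonneg _
    -- the first summand is at most one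
    have h1 : (0.55 : ℝ) ^ w * (NF Cw M + 1000) ≤ 1 := by
      rw [mul_comm]
      apply mul_pow_le_one
      have e1 : NF Cw M + 1000 ≤ (2 ^ 18 * T * AF Cw ^ 8) * 2 ^ (16 * (M + σ)) := by
        have a1 : NF Cw M ≤ AF Cw * 2 ^ M := by
          unfold NF
          exact mul_le_mul_of_nonneg_left (sqrt2_pow_le M) (by linarith only [hA])
        have a2 : AF Cw ≤ AF Cw ^ 8 := by
          calc AF Cw = AF Cw ^ 1 := (pow_one _).symm
            _ ≤ AF Cw ^ 8 := pow_le_pow_right₀ (by linarith only [hA]) (by norm_num)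
        have a3 : (2 : ℝ) ^ M ≤ 2 ^ (16 * (M + σ)) :=
          pow_le_pow_right₀ (by norm_num) (by omega)
        have a4 : (1 : ℝ) ≤ 2 ^ M := one_le_pow₀ (by norm_num)
        have a5 : AF Cw * 2 ^ M + 1000 ≤ (2 * AF Cw) * 2 ^ M := by nlinarith only [hA, a4]
        have a6 : 2 * AF Cw ≤ 2 ^ 18 * T * AF Cw ^ 8 := by nlinarith only [hT, hA, a2]
        calc NF Cw M + 1000 ≤ (2 * AF Cw) * 2 ^ M := by linarith only [a1, a5]
          _ ≤ (2 ^ 18 * T * AF Cw ^ 8) * 2 ^ (16 * (M + σ)) := by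
              apply mul_le_mul a6 a3 (by positivity) (by linarith only [hA, a6])
      calc NF Cw M + 1000 ≤ (2 ^ 18 * T * AF Cw ^ 8) * 2 ^ (16 * (M + σ)) := e1
        _ ≤ (20 / 11) ^ Cw * (20 / 11) ^ (20 * (M + σ)) := by
            apply mul_le_mul hC (pow_wd _) (by positivity) (by positivity)
        _ = (20 / 11) ^ w := by rw [hw, pow_add]
    have hw1 : (1 : ℝ) ≤ Real.sqrt w := by
      rw [show (1 : ℝ) = Real.sqrt 1 by simp]
      apply Real.sqrt_le_sqrt
      have : 1 ≤ w := by rw [hw]; omega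
      exact_mod_cast this
    have h2 : (0.55 : ℝ) ^ w * (NF Cw M + 1000) + 150 * Real.sqrt w ≤ 151 * Real.sqrt w := by
      linarith only [h1, hw1]
    have h3 : ((g : ℝ) + 1) ^ 2 ≤ 2 ^ (2 * σ) := by
      rw [mul_comm 2 σ, pow_mul]
      exact pow_le_pow_left₀ (by positivity) hg2 2
    have h4 : (2 : ℝ) ^ (2 * σ) * (151 * Real.sqrt w) ≤ NF Cw y := by
      apply le_of_sq_le_sq _ (by linarith only [one_le_NF Cw y])
      have e1 : ((2 : ℝ) ^ (2 * σ) * (151 * Real.sqrt w)) ^ 2 = 2 ^ (4 * σ) * (22801 * w) := by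
        rw [mul_pow, mul_pow, Real.sq_sqrt (Nat.cast_nonneg _), ← pow_mul]
        norm_num
        left
        ring
      have e2 : NF Cw y ^ 2 = AF Cw ^ 2 * 2 ^ y := by
        unfold NF
        rw [mul_pow, ← pow_mul, mul_comm y 2, pow_mul, Real.sq_sqrt (by norm_num)]
      rw [e1, e2]
      have hy8 : 8 * σ ≤ y := by rw [hm]; exact le_max_right _ _
      have hyM : M - 1 ≤ y := by rw [hm]; exact le_max_left _ _
      obtain ⟨z, hz⟩ : ∃ z, y = 4 * σ + z := ⟨y - 4 * σ, by omega⟩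
      have hwz : (w : ℝ) ≤ (Cw + 60) * 2 ^ z := by
        have a1 : w ≤ (Cw + 60) * (z + 1) := by
          rw [hw]
          have b1 : M ≤ 2 * z + 1 := by omega
          have b2 : 4 * σ ≤ z := by omega
          nlinarith only [hσ1, hy8, hz, b1]
        have a2 : z + 1 ≤ 2 ^ z := Nat.lt_two_pow_self
        have a3 : w ≤ (Cw + 60) * 2 ^ z := le_trans a1 (Nat.mul_le_mul_left _ a2)
        exact_mod_cast a3
      have hA2 : (22801 : ℝ) * (Cw + 60) ≤ AF Cw ^ 2 := by
        unfold AF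
        have : (0 : ℝ) ≤ Cw := Nat.cast_nonneg _
        nlinarith only []
      rw [hz, pow_add]
      calc (2 : ℝ) ^ (4 * σ) * (22801 * w) ≤ 2 ^ (4 * σ) * (22801 * ((Cw + 60) * 2 ^ z)) := by
            apply mul_le_mul_of_nonneg_left _ (by positivity)
            exact mul_le_mul_of_nonneg_left hwz (by norm_num)
        _ = (22801 * (Cw + 60)) * (2 ^ (4 * σ) * 2 ^ z) := by ring
        _ ≤ AF Cw ^ 2 * (2 ^ (4 * σ) * 2 ^ z) :=
            mul_le_mul_of_nonneg_right hA2 (by positivity)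
    calc ((g : ℝ) + 1) ^ 2 * ((0.55 : ℝ) ^ w * (NF Cw M + 1000) + 150 * Real.sqrt w)
        ≤ 2 ^ (2 * σ) * (151 * Real.sqrt w) := by
          apply mul_le_mul h3 h2 _ (by positivity)
          have := one_le_NF Cw M
          (clear * - this hw1; positivity)
      _ ≤ NF Cw y := h4

/-- Existence of the width constant. -/
lemma exists_Cw (T : ℝ) (hT : 1 ≤ T) :
    ∃ Cw : ℕ, 1 ≤ Cw ∧ (2 : ℝ) ^ 18 * T * AF Cw ^ 8 ≤ (20 / 11) ^ Cw := by
  have h := tendsto_pow_const_div_const_pow_of_one_lt 8 (show (1 : ℝ) < 20 / 11 by norm_num)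
  set c : ℝ := 1 / (2 ^ 18 * T * 11000 ^ 8) with hc
  have hc0 : 0 < c := by (clear * - hT; positivity)
  have h1 := (h.eventually (gt_mem_nhds hc0)).and (Filter.eventually_ge_atTop 1)
  obtain ⟨k, hk, hk1⟩ := h1.exists
  refine ⟨k, hk1, ?_⟩
  have hp : (0 : ℝ) < (20 / 11) ^ k := by positivity
  rw [div_lt_iff₀ hp, hc, one_div, inv_mul_eq_div, lt_div_iff₀ (by positivity)] at hk
  have hk' : (1 : ℝ) ≤ k := by exact_mod_cast hk1
  have hA : AF k ≤ 11000 * k := by unfold AF; linarith only [hk']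
  have hA8 : AF k ^ 8 ≤ (11000 * (k : ℝ)) ^ 8 :=
    pow_le_pow_left₀ (by linarith only [AF_pos k]) hA 8
  calc (2 : ℝ) ^ 18 * T * AF k ^ 8 ≤ 2 ^ 18 * T * (11000 * (k : ℝ)) ^ 8 := by
        apply mul_le_mul_of_nonneg_left hA8 (by positivity)
    _ = (k : ℝ) ^ 8 * (2 ^ 18 * T * 11000 ^ 8) := by ring
    _ ≤ (20 / 11) ^ k := hk.le

lemma cube_le (k : ℕ) : (k + 1) ^ 3 ≤ 8 * 2 ^ k := by
  rcases Nat.lt_or_ge k 4 with h | h
  · interval_cases k <;> norm_num
  · induction k, h using Nat.le_induction with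
    | base => norm_num
    | succ k hk ih =>
      have h2 : (k + 1 + 1) ^ 3 ≤ 2 * (k + 1) ^ 3 := by
        nlinarith only [hk, Nat.mul_le_mul (Nat.mul_le_mul hk hk) (le_refl k)]
      calc (k + 1 + 1) ^ 3 ≤ 2 * (k + 1) ^ 3 := h2
        _ ≤ 2 * (8 * 2 ^ k) := Nat.mul_le_mul_left _ ih
        _ = 8 * 2 ^ (k + 1) := by ring

lemma size_cube (g : ℕ) : (Nat.size g) ^ 3 ≤ 8 * g := by
  rcases Nat.eq_zero_or_pos g with h | h
  · subst h; simp
  · have h1 : 0 < Nat.size g := Nat.size_pos.mpr h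
    obtain ⟨k, hk⟩ : ∃ k, Nat.size g = k + 1 := ⟨Nat.size g - 1, by omega⟩
    have h2 : 2 ^ k ≤ g := Nat.lt_size.mp (by omega)
    rw [hk]
    exact le_trans (cube_le k) (Nat.mul_le_mul_left _ h2)

/-- The potential of the schedule. -/
noncomputable def Psi (M : ℕ) (Q : ℝ) : ℝ := 410400000 * (M : ℝ) ^ 3 + Q ^ 2 + 7 * Q

/-- Constant of the amortization. -/
noncomputable def KF (Cw : ℕ) : ℝ :=
  1026000 * (Cw : ℝ) ^ 2 + 410400000 * 8 + 410400000 * 4096 + 2

lemma amort (Cw : ℕ) (hCw : 1 ≤ Cw) (M g g2 : ℕ) (Q : ℝ) (hQ : 0 ≤ Q) :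
    Q * (wdF Cw g M : ℝ)
      + (if 0 < g + g2 then ((g : ℝ) + g2 + (wdF Cw g M : ℝ)) else 0)
      + Psi (mF g M) (0.855 * Q + (if 0 < g then 200 * (wdF Cw g M : ℝ) else 0))
      ≤ Psi M Q + KF Cw * ((g : ℝ) + g2) := by
  have hK : (2 : ℝ) ≤ KF Cw := by
    unfold KF
    nlinarith only []
  have hg20 : (0 : ℝ) ≤ g2 := Nat.cast_nonneg _
  by_cases hg : g = 0
  · subst hg
    have hw : wdF Cw 0 M = 1 := by unfold wdF; simp
    have hm : mF 0 M = M - 1 := by unfold mF; simp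
    rw [hw, hm]
    simp only [lt_irrefl, if_false, add_zero, zero_add, Nat.cast_zero, Nat.cast_one, mul_one]
    have h1 : (if 0 < g2 then (g2 : ℝ) + 1 else 0) ≤ 2 * g2 := by
      split_ifs with h
      · have : (1 : ℝ) ≤ g2 := by exact_mod_cast h
        linarith only [this]
      · linarith only []
    have h2 : ((M - 1 : ℕ) : ℝ) ^ 3 ≤ (M : ℝ) ^ 3 := by
      apply pow_le_pow_left₀ (Nat.cast_nonneg _)
      exact_mod_cast Nat.sub_le M 1
    have h3 : 2 * (g2 : ℝ) ≤ KF Cw * g2 := mul_le_mul_of_nonneg_right hK hg20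
    unfold Psi
    nlinarith only [hQ, h1, h2, h3]
  · have hgp : 0 < g := Nat.pos_of_ne_zero hg
    set σ := Nat.size g with hσ
    have hw : wdF Cw g M = Cw + 20 * (M + σ) := by unfold wdF; rw [if_neg hg]
    have hm : mF g M = max (M - 1) (8 * σ) := by unfold mF; rw [if_neg hg]
    rw [if_pos (by omega : 0 < g + g2), if_pos hgp]
    set w : ℝ := (wdF Cw g M : ℝ) with hwr
    have hwe : w = (Cw : ℝ) + 20 * ((M : ℝ) + σ) := by
      rw [hwr, hw]; push_cast; ring
    have hM0 : (0 : ℝ) ≤ M := Nat.cast_nonneg _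
    have hσ0 : (0 : ℝ) ≤ σ := Nat.cast_nonneg _
    have hC0 : (1 : ℝ) ≤ Cw := by exact_mod_cast hCw
    have hg1 : (1 : ℝ) ≤ g := by exact_mod_cast hgp
    have hw1 : 1 ≤ w := by rw [hwe]; nlinarith only [hC0]
    have hw2 : w ^ 2 ≤ 3 * (Cw : ℝ) ^ 2 + 1200 * (M : ℝ) ^ 2 + 1200 * (σ : ℝ) ^ 2 := by
      rw [hwe]
      nlinarith only [sq_nonneg ((Cw : ℝ) - 20 * M), sq_nonneg ((Cw : ℝ) - 20 * σ),
            sq_nonneg ((M : ℝ) - σ)]
    have hcube : ((mF g M : ℕ) : ℝ) ^ 3 + (M : ℝ) ^ 2 ≤ (M : ℝ) ^ 3 + 512 * (σ : ℝ) ^ 3 := by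
      have h1 : (mF g M) ^ 3 + M ^ 2 ≤ M ^ 3 + 512 * σ ^ 3 := by
        have h2 : (mF g M) ^ 3 ≤ (M - 1) ^ 3 + (8 * σ) ^ 3 := by
          rw [hm]
          rcases max_cases (M - 1) (8 * σ) with h | h
          · rw [h.1]; exact Nat.le_add_right _ _
          · rw [h.1]; exact Nat.le_add_left _ _
        have h3 : (M - 1) ^ 3 + M ^ 2 ≤ M ^ 3 := by
          rcases Nat.eq_zero_or_pos M with h0 | h0
          · subst h0; simp
          · obtain ⟨k, rfl⟩ := Nat.exists_eq_succ_of_ne_zero (Nat.pos_iff_ne_zero.mp h0)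
            have hk : k.succ - 1 = k := rfl
            rw [hk, Nat.succ_eq_add_one]
            nlinarith only [Nat.zero_le k, Nat.zero_le (k ^ 2), sq_nonneg (↑k), Nat.zero_le (k)]
        calc (mF g M) ^ 3 + M ^ 2 ≤ (M - 1) ^ 3 + (8 * σ) ^ 3 + M ^ 2 := by (clear * - h2; omega)
          _ = ((M - 1) ^ 3 + M ^ 2) + 512 * σ ^ 3 := by ring
          _ ≤ M ^ 3 + 512 * σ ^ 3 := by omega
      exact_mod_cast h1
    have hσ3 : (σ : ℝ) ^ 3 ≤ 8 * g := by exact_mod_cast size_cube g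
    have hσ2 : (σ : ℝ) ^ 2 ≤ 8 * g := by
      have h1 : σ ^ 2 ≤ σ ^ 3 := by
        rcases Nat.eq_zero_or_pos σ with h0 | h0
        · rw [h0]; norm_num
        · exact Nat.pow_le_pow_right h0 (by norm_num)
      have h2 : (σ : ℝ) ^ 2 ≤ (σ : ℝ) ^ 3 := by exact_mod_cast h1
      linarith only [hσ3, h2]
    have hQw : Q * w ≤ 0.1 * Q ^ 2 + 2.5 * w ^ 2 := by
      nlinarith only [sq_nonneg (Q - 5 * w)]
    have hQ2 : (0.855 * Q + 200 * w) ^ 2 ≤ 0.84 * Q ^ 2 + 333000 * w ^ 2 := by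
      nlinarith only [sq_nonneg (Q - 1710 * w)]
    have hww : w ≤ w ^ 2 := by nlinarith only [hwe, hC0]
    have hCC : (Cw : ℝ) ^ 2 ≤ (Cw : ℝ) ^ 2 * g := by nlinarith only [hg1]
    have hKg : KF Cw * g2 ≥ 2 * g2 := mul_le_mul_of_nonneg_right hK hg20
    have hKe : KF Cw * ((g : ℝ) + g2) = 1026000 * ((Cw : ℝ) ^ 2 * g)
        + (410400000 * 8 + 410400000 * 4096 + 2) * g + KF Cw * g2 := by
      unfold KF; ring
    rw [hKe]
    unfold Psi
    nlinarith only [hQ, hg1, hw2, hcube, hσ3, hσ2, hQw, hQ2, hww, hCC, hKg]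
lemma F3_step (T : ℝ) (hT : 1 ≤ T) (Cw : ℕ)
    (hC : (2 : ℝ) ^ 18 * T * AF Cw ^ 8 ≤ (20 / 11) ^ Cw) (n : ℕ) (lam : Fin n → ℝ)
    (hmono : Monotone lam) (st : St) (hst : st.J ≤ st.J') (st' : St)
    (hst' : st' = step T Cw n lam st) (hn : st'.J' ≤ n) (hg : st'.J' - st'.J ≠ 0) :
    (∑ i ∈ mid n st'.J st'.J',
      (2 * (lam i / 2 ^ st'.l) + NF Cw st'.M * (rk st'.J i) ^ 2 + 2))
        * (0.55 : ℝ) ^ (wdF Cw (st'.J' - st'.J) st'.M) ≤ 1 := by
  have hJ : st'.J = st.J' := by rw [hst']; rfl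
  have hM : st'.M = mF (st.J' - st.J) st.M := by rw [hst']; rfl
  have hl : st'.l = st.l + wdF Cw (st.J' - st.J) st.M := by rw [hst']; rfl
  obtain ⟨k, hk1, hk2⟩ : ∃ i : Fin n, i.val + 1 = st'.J' ∧ ¬ thr T Cw n lam st i := by
    have h1 : st.J' < (step T Cw n lam st).J' := by rw [← hst', ← hJ]; omega
    have h2 : (step T Cw n lam st).J' ≤ n := by rw [← hst']; exact hn
    have h3 := step_last T Cw n lam st h1 h2
    rw [← hst'] at h3
    exact h3
  set g := st'.J' - st'.J with hgdef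
  set g' := st.J' - st.J with hg'def
  set M1 := st'.M with hM1
  set X : ℝ := max (NF Cw st.M) (wdF Cw g' st.M : ℝ) * rk st.J k with hX
  have hthr : lam k / 2 ^ st'.l < T * X ^ 8 := by
    unfold thr at hk2
    rw [not_le] at hk2
    rw [hl]
    exact hk2
  have hA := AF_pos Cw
  have hrk : rk st.J k = (g : ℝ) + g' := by
    unfold rk
    have e1 : (k.val : ℝ) + 1 = st'.J' := by exact_mod_cast hk1
    have e2 : (g : ℝ) = (st'.J' : ℝ) - st'.J := by
      rw [hgdef, Nat.cast_sub (by omega)]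
    have e3 : (g' : ℝ) = (st.J' : ℝ) - st.J := by
      rw [hg'def, Nat.cast_sub hst]
    rw [e2, e3, hJ]
    linarith only [e1]
  have hmax : max (NF Cw st.M) (wdF Cw g' st.M : ℝ) ≤ AF Cw * 2 ^ (M1 + 1) := by
    apply max_bound
    · rw [hM]; unfold mF; split_ifs <;> omega
    · intro hne
      rw [hM]; unfold mF; rw [if_neg hne]
      have := le_max_right (st.M - 1) (8 * Nat.size g')
      omega
  have hgg : (g : ℝ) + g' ≤ 2 ^ (Nat.size g + M1 + 1) := by
    have a1 : g < 2 ^ Nat.size g := Nat.lt_size_self g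
    have a2 : g' ≤ 2 ^ M1 := by
      by_cases hne : g' = 0
      · rw [hne]; exact Nat.zero_le _
      · have b1 : g' < 2 ^ Nat.size g' := Nat.lt_size_self g'
        have b2 : Nat.size g' ≤ M1 := by
          rw [hM]; unfold mF; rw [if_neg hne]
          have := le_max_right (st.M - 1) (8 * Nat.size g')
          omega
        exact le_trans b1.le (Nat.pow_le_pow_right (by norm_num) b2)
    have a3 : 2 ^ Nat.size g ≤ 2 ^ (Nat.size g + M1) :=
      Nat.pow_le_pow_right (by norm_num) (by omega)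
    have a4 : 2 ^ M1 ≤ 2 ^ (Nat.size g + M1) :=
      Nat.pow_le_pow_right (by norm_num) (by omega)
    have a5 : g + g' ≤ 2 ^ (Nat.size g + M1 + 1) := by
      rw [pow_succ]; omega
    exact_mod_cast a5
  have hX0 : 0 ≤ X := by
    rw [hX, hrk]
    apply mul_nonneg
    · exact le_trans (by linarith only [one_le_NF Cw st.M]) (le_max_left _ _)
    · (clear * - hg; positivity)
  have hXle : X ≤ AF Cw * 2 ^ (2 * M1 + Nat.size g + 2) := by
    rw [hX, hrk]
    calc max (NF Cw st.M) (wdF Cw g' st.M : ℝ) * ((g : ℝ) + g')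
        ≤ (AF Cw * 2 ^ (M1 + 1)) * 2 ^ (Nat.size g + M1 + 1) := by
          apply mul_le_mul hmax hgg (by (clear * - hg; positivity)) (by positivity)
      _ = AF Cw * 2 ^ (2 * M1 + Nat.size g + 2) := by
          rw [mul_assoc, ← pow_add]
          congr 2
          ring
  have hmain := F3_ineq T hT Cw hC M1 g hg X hX0 hXle
  refine le_trans ?_ hmain
  apply mul_le_mul_of_nonneg_right _ (by positivity)
  have hcard : ((mid n st'.J st'.J').card : ℝ) ≤ g := by
    have h1 : (mid n st'.J st'.J').card ≤ (Finset.Ico st'.J st'.J').card := by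
      apply Finset.card_le_card_of_injOn (fun i : Fin n => i.val)
      · intro i hi
        simp only [mid, Finset.coe_filter, Finset.mem_univ, true_and, Set.mem_ofPred_eq] at hi
        simp only [Finset.coe_Ico, Set.mem_Ico]
        exact hi
      · intro i _ j _ hij
        exact Fin.ext hij
    rw [Nat.card_Ico] at h1
    exact_mod_cast h1
  have hN := one_le_NF Cw M1
  have hterm : ∀ i ∈ mid n st'.J st'.J',
      2 * (lam i / 2 ^ st'.l) + NF Cw M1 * (rk st'.J i) ^ 2 + 2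
        ≤ 2 * (T * X ^ 8) + NF Cw M1 * (g : ℝ) ^ 2 + 2 := by
    intro i hi
    simp only [mid, Finset.mem_filter, Finset.mem_univ, true_and] at hi
    have h1 : lam i ≤ lam k := hmono (by
      rw [Fin.le_def]; omega)
    have h2 : lam i / 2 ^ st'.l ≤ lam k / 2 ^ st'.l :=
      div_le_div_of_nonneg_right h1 (by positivity)
    have h3 : 0 ≤ rk st'.J i := by
      unfold rk
      have : (st'.J : ℝ) ≤ i.val := by exact_mod_cast hi.1
      linarith only [this]
    have h4 : rk st'.J i ≤ g := by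
      unfold rk
      have e2 : (g : ℝ) = (st'.J' : ℝ) - st'.J := by
        rw [hgdef, Nat.cast_sub (by omega)]
      have e3 : (i.val : ℝ) + 1 ≤ st'.J' := by exact_mod_cast hi.2
      rw [e2]; linarith only [e3]
    have h5 : (rk st'.J i) ^ 2 ≤ (g : ℝ) ^ 2 := pow_le_pow_left₀ h3 h4 2
    nlinarith only [hthr, hN, h2, h5]
  calc ∑ i ∈ mid n st'.J st'.J', (2 * (lam i / 2 ^ st'.l) + NF Cw M1 * (rk st'.J i) ^ 2 + 2)
      ≤ ∑ i ∈ mid n st'.J st'.J', (2 * (T * X ^ 8) + NF Cw M1 * (g : ℝ) ^ 2 + 2) :=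
        Finset.sum_le_sum hterm
    _ = ((mid n st'.J st'.J').card : ℝ) * (2 * (T * X ^ 8) + NF Cw M1 * (g : ℝ) ^ 2 + 2) := by
        rw [Finset.sum_const, nsmul_eq_mul]
    _ ≤ (g : ℝ) * (2 * (T * X ^ 8) + NF Cw M1 * (g : ℝ) ^ 2 + 2) := by
        apply mul_le_mul_of_nonneg_right hcard
        (clear * - hT hN hg; positivity)

/-- **Module SCHEDULE**. -/
theorem schedProp' : SchedProp := by
  intro T hT
  obtain ⟨Cw, hCw1, hC⟩ := exists_Cw T hT
  have hK0 : (2 : ℝ) ≤ KF Cw := by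
    unfold KF
    nlinarith only []
  refine ⟨2 * KF Cw, by linarith only [hK0], ?_⟩
  intro n lam hmono hlam0
  set S : ℕ → St := sq T Cw n lam with hS
  set W : ℕ → ℕ := fun s => wdF Cw ((S s).J' - (S s).J) (S s).M with hW
  have hSs : ∀ s, S (s + 1) = step T Cw n lam (S s) := sq_succ T Cw n lam
  have hS0 : S 0 = ⟨0, 0, 0, 0, 0⟩ := sq_zero T Cw n lam
  have hJs : ∀ s, (S (s + 1)).J = (S s).J' := sq_J_succ T Cw n lam
  have hle : ∀ s, (S s).J ≤ (S s).J' ∧ (S s).J' ≤ n := sq_le T Cw n lam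
  have hl : ∀ s, (S s).l = ∑ s' ∈ Finset.range s, W s' := sq_l T Cw n lam
  have hls : ∀ s, (S (s + 1)).l = (S s).l + W s := fun s => by rw [hSs]; rfl
  have hMs : ∀ s, (S (s + 1)).M = mF ((S s).J' - (S s).J) (S s).M := fun s => by
    rw [hSs]; rfl
  have hQs : ∀ s, (S (s + 1)).Q = 0.855 * (S s).Q +
      (if (S s).J < (S s).J' then 200 * (W s : ℝ) else 0) := fun s => by
    rw [hSs]; rfl
  have hQ0 : ∀ s, 0 ≤ (S s).Q := by
    intro s
    induction s with
    | zero => rw [hS0]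
    | succ s ih =>
      rw [hQs]
      have : (0 : ℝ) ≤ if (S s).J < (S s).J' then 200 * (W s : ℝ) else 0 := by
        split_ifs <;> positivity
      linarith only [ih, this]
  refine ⟨W, fun s => (S s).J, fun s => NF Cw (S s).M, fun s => (S s).Q, ?_, ?_, ?_, ?_, ?_, ?_,
    ?_, ?_, ?_, ?_, ?_, ?_, ?_⟩
  · show (S 0).J = 0
    rw [hS0]
  · show (S (0 + 1)).J = 0
    rw [hJs, hS0]
  · exact monotone_nat_of_le_succ (fun s => by
      show (S s).J ≤ (S (s + 1)).J
      rw [hJs]; exact (hle s).1)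
  · intro s
    exact le_trans (hle s).1 (hle s).2
  · intro s
    exact one_le_wdF Cw _ _ hCw1
  · intro s
    exact one_le_NF Cw _
  · intro s hs
    have h1 : (S s).J' ≤ (S s).J := by
      have h2 : (S (s + 2)).J = (S (s + 1)).J' := hJs (s + 1)
      have h3 := (hle (s + 1)).1
      rw [hJs] at h3
      have hs' : (S (s + 2)).J = (S s).J := hs
      omega
    show wdF Cw ((S s).J' - (S s).J) (S s).M = 1
    rw [Nat.sub_eq_zero_of_le h1]
    unfold wdF; simp
  · intro s i hi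
    have h1 : (S (s + 2)).J = (step T Cw n lam (S s)).J' := by
      rw [hJs (s + 1), hSs]
    have hi' : (step T Cw n lam (S s)).J' ≤ i.val := by rw [← h1]; exact hi
    have h2 := (step_J'_mem T Cw n lam (S s)).2 i hi'
    unfold thr at h2
    rw [← hl (s + 1), hls]
    exact h2
  · intro s
    show (∑ i ∈ mid n (S s).J (S (s + 1)).J,
      (2 * (lam i / 2 ^ (∑ s' ∈ Finset.range s, W s')) + NF Cw (S s).M * (rk (S s).J i) ^ 2 + 2))
        * (0.55 : ℝ) ^ (W s) ≤ 1
    rw [hJs, ← hl s]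
    by_cases hg : (S s).J' - (S s).J = 0
    · have hempty : mid n (S s).J (S s).J' = ∅ := by
        apply Finset.filter_eq_empty_iff.mpr
        intro i _ h
        omega
      rw [hempty]; simp only [Finset.sum_empty, zero_mul, zero_le_one]
    · obtain ⟨r, rfl⟩ : ∃ r, s = r + 1 := by
        rcases s with _ | r
        · exfalso; apply hg; simp [hS0]
        · exact ⟨r, rfl⟩
      exact F3_step T hT Cw hC n lam hmono (S r) (hle r).1 (S (r + 1)) (hSs r) (hle (r + 1)).2 hg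
  · intro s
    have h := F4_ineq T hT Cw hC (S s).M ((S s).J' - (S s).J)
    rw [Nat.cast_sub (hle s).1] at h
    show ((((S (s + 1)).J : ℕ) : ℝ) - (S s).J + 1) ^ 2 *
      ((0.55 : ℝ) ^ (W s) * (NF Cw (S s).M + 1000) + 150 * Real.sqrt (W s))
      ≤ NF Cw (S (s + 1)).M
    rw [hJs, hMs]
    exact h
  · show (S 0).Q = 0
    rw [hS0]
  · intro s
    show (S (s + 1)).Q =
      0.855 * (S s).Q + (if (S s).J < (S (s + 1)).J then 200 * (W s : ℝ) else 0)
    rw [hQs, hJs]
  · intro m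
    have key : ∀ m : ℕ, ∑ s ∈ Finset.range m,
        ((S s).Q * (W s : ℝ) + if (S s).J < (S (s + 2)).J then
          (((S (s + 2)).J : ℝ) - (S s).J + (W s : ℝ)) else 0)
        + Psi (S m).M (S m).Q ≤ KF Cw * (((S m).J : ℝ) + (S m).J') := by
      intro m
      induction m with
      | zero =>
        rw [hS0]
        simp only [Finset.range_zero, Finset.sum_empty, Psi, CharP.cast_eq_zero, ne_eq, OfNat.ofNat_ne_zero, not_false_eq_true, zero_pow, mul_zero, add_zero, Std.le_refl]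
      | succ s ih =>
        rw [Finset.sum_range_succ]
        have h := amort Cw hCw1 (S s).M ((S s).J' - (S s).J)
          ((S (s + 1)).J' - (S (s + 1)).J) (S s).Q (hQ0 s)
        have e1 : ((((S s).J' - (S s).J : ℕ)) : ℝ) = (S s).J' - (S s).J :=
          Nat.cast_sub (hle s).1
        have e2 : ((((S (s + 1)).J' - (S (s + 1)).J : ℕ)) : ℝ) = (S (s + 1)).J' - (S s).J' := by
          rw [Nat.cast_sub (hle (s + 1)).1, hJs]
        have e3 : (0 < (S s).J' - (S s).J + ((S (s + 1)).J' - (S (s + 1)).J)) ↔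
            (S s).J < (S (s + 2)).J := by
          have a1 := (hle s).1
          have a2 := (hle (s + 1)).1
          have a3 := hJs s
          have a4 : (S (s + 2)).J = (S (s + 1)).J' := hJs (s + 1)
          omega
        have e4 : (0 < (S s).J' - (S s).J) ↔ (S s).J < (S s).J' := by
          omega
        have e5 : ((S (s + 2)).J : ℝ) = (S (s + 1)).J' := by
          have a4 : (S (s + 2)).J = (S (s + 1)).J' := hJs (s + 1)
          rw [a4]
        rw [e1, e2] at h
        simp only [e3, e4] at h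
        rw [hMs s, hQs s, e5]
        have e6 : ((S (s + 1)).J : ℝ) = (S s).J' := by rw [hJs]
        rw [e6]
        have e7 : ((S s).J' : ℝ) - (S s).J + (((S (s + 1)).J' : ℝ) - (S s).J') + (W s : ℝ)
          = ((S (s + 1)).J' : ℝ) - (S s).J + (W s : ℝ) := by ring
        have h' : (S s).Q * (W s : ℝ)
          + (if (S s).J < (S (s + 2)).J then
              (((S (s + 1)).J' : ℝ) - (S s).J + (W s : ℝ)) else 0)
          + Psi (mF ((S s).J' - (S s).J) (S s).M)
            (0.855 * (S s).Q + (if (S s).J < (S s).J' then 200 * (W s : ℝ) else 0))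
          ≤ Psi (S s).M (S s).Q
            + KF Cw * (((S s).J' : ℝ) - (S s).J + (((S (s + 1)).J' : ℝ) - (S s).J')) := by
          rw [← e7]; exact h
        nlinarith only [h', ih]
    have hm := key m
    have hPsi : 0 ≤ Psi (S m).M (S m).Q := by
      unfold Psi
      have := hQ0 m
      (clear * - this; positivity)
    have hJn : ((S m).J : ℝ) + (S m).J' ≤ 2 * n := by
      have a1 : ((S m).J' : ℝ) ≤ n := by exact_mod_cast (hle m).2
      have a2 : ((S m).J : ℝ) ≤ (S m).J' := by exact_mod_cast (hle m).1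
      linarith only [a1, a2]
    have h3 : KF Cw * (((S m).J : ℝ) + (S m).J') ≤ KF Cw * (2 * n) :=
      mul_le_mul_of_nonneg_left hJn (by linarith only [hK0])
    show ∑ s ∈ Finset.range m,
        ((S s).Q * (W s : ℝ) + if (S s).J < (S (s + 2)).J then
          (((S (s + 2)).J : ℝ) - (S s).J + (W s : ℝ)) else 0) ≤ 2 * KF Cw * n
    linarith only [hm, hPsi, h3]

end Sched

/-- **Module SCHEDULE**. -/
theorem schedProp : SchedProp := Sched.schedProp'

end Vale.Agent.P262.Sqrt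
end
end

section

section

open MeasureTheory ProbabilityTheory
open scoped ENNReal BigOperators NNReal

namespace Vale.Agent.P262.Sqrt

/-- The standard Gaussian measure on `κ → ℝ`. -/
noncomputable abbrev gam (κ : Type) [Fintype κ] : Measure (κ → ℝ) :=
  Measure.pi (fun _ => gaussianReal 0 1)

theorem gauss1_fun (x : ℝ) :
    gaussianPDFReal 0 1 x * Real.exp (x ^ 2 / 4)
      = (Real.sqrt (2 * Real.pi))⁻¹ * Real.exp (-(1 / 4) * x ^ 2) := by
  rw [gaussianPDFReal]
  simp only [NNReal.coe_one, sub_zero, mul_one]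
  rw [mul_assoc, ← Real.exp_add]
  congr 2
  ring

theorem gauss1_integrable : Integrable (fun x : ℝ => Real.exp (x ^ 2 / 4)) (gaussianReal 0 1) := by
  rw [gaussianReal_of_var_ne_zero 0 (one_ne_zero)]
  rw [integrable_withDensity_iff (measurable_gaussianPDF 0 1)
    (Filter.Eventually.of_forall fun _ => gaussianPDF_lt_top)]
  have h : (fun x : ℝ => Real.exp (x ^ 2 / 4) * (gaussianPDF 0 1 x).toReal)
      = fun x => (Real.sqrt (2 * Real.pi))⁻¹ * Real.exp (-(1 / 4) * x ^ 2) := by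
    funext x
    rw [toReal_gaussianPDF, mul_comm, gauss1_fun]
  rw [h]
  exact (integrable_exp_neg_mul_sq (by norm_num)).const_mul _

theorem gauss1_integral : ∫ x : ℝ, Real.exp (x ^ 2 / 4) ∂(gaussianReal 0 1) = Real.sqrt 2 := by
  rw [integral_gaussianReal_eq_integral_smul (one_ne_zero)]
  simp only [smul_eq_mul, gauss1_fun]
  rw [integral_const_mul, integral_gaussian]
  rw [← Real.sqrt_inv, ← Real.sqrt_mul (by positivity)]
  congr 1
  field_simp
  norm_num

theorem gauss_prod {κ : Type} [Fintype κ] [DecidableEq κ] (S : Finset κ) :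
    ∫⁻ x, ENNReal.ofReal (Real.exp ((∑ i ∈ S, (x i) ^ 2) / 4)) ∂(gam κ)
      = ENNReal.ofReal (Real.sqrt 2 ^ S.card) := by
  have h1 : ∀ x : κ → ℝ, Real.exp ((∑ i ∈ S, (x i) ^ 2) / 4)
      = ∏ i, (if i ∈ S then Real.exp ((x i) ^ 2 / 4) else 1) := by
    intro x
    rw [Finset.sum_div, Real.exp_sum, Finset.prod_ite_mem, Finset.univ_inter]
  have hint : Integrable (fun x : κ → ℝ => ∏ i, (if i ∈ S then Real.exp ((x i) ^ 2 / 4) else 1))
      (gam κ) := by
    apply Integrable.fintype_prod (f := fun i (y : ℝ) => if i ∈ S then Real.exp (y ^ 2 / 4) else 1)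
    intro i
    by_cases hi : i ∈ S
    · simpa only [hi, ↓reduceIte] using gauss1_integrable
    · simp [hi]
  simp_rw [h1]
  rw [← ofReal_integral_eq_lintegral_ofReal hint
    (Filter.Eventually.of_forall fun x => Finset.prod_nonneg fun i _ => by
      split_ifs <;> positivity)]
  congr 1
  rw [integral_fintype_prod_eq_prod (fun i (y : ℝ) => if i ∈ S then Real.exp (y ^ 2 / 4) else 1)]
  have h2 : ∀ i : κ, ∫ y : ℝ, (if i ∈ S then Real.exp (y ^ 2 / 4) else 1) ∂(gaussianReal 0 1)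
      = if i ∈ S then Real.sqrt 2 else 1 := by
    intro i
    by_cases hi : i ∈ S
    · simp only [hi, if_true]
      exact gauss1_integral
    · simp [hi]
  simp_rw [h2]
  rw [Finset.prod_ite_mem, Finset.univ_inter, Finset.prod_const]

theorem gam_map_linear {κ : Type} [Fintype κ] (a : κ → ℝ) (ha : ∑ c, (a c) ^ 2 = 1) :
    (gam κ).map (fun x => ∑ c, a c * x c) = gaussianReal 0 1 := by
  have h1 := map_pi_eq_stdGaussian (ι := κ)
  let L : StrongDual ℝ (EuclideanSpace ℝ κ) := innerSL ℝ (WithLp.toLp 2 a)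
  have hL := IsGaussian.map_eq_gaussianReal (μ := stdGaussian (EuclideanSpace ℝ κ)) L
  rw [integral_strongDual_stdGaussian, variance_dual_stdGaussian] at hL
  have hn : ‖L‖ = 1 := by
    rw [innerSL_apply_norm, EuclideanSpace.norm_eq]
    simp only [Real.norm_eq_abs, sq_abs, ha, Real.sqrt_one]
  rw [hn] at hL
  rw [← h1, Measure.map_map (by (clear * -; fun_prop)) (by fun_prop)] at hL
  convert hL using 2
  · funext x
    simp only [coe_innerSL_apply, PiLp.inner_apply, RCLike.inner_apply, Real.ringHom_apply, mul_comm, Function.comp_apply, L]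
  · norm_num

theorem gauss_linear {κ : Type} [Fintype κ] (a : κ → ℝ) (ha : ∑ c, (a c) ^ 2 = 1) :
    ∫⁻ x, ENNReal.ofReal (Real.exp ((∑ c, a c * x c) ^ 2 / 4)) ∂(gam κ)
      = ENNReal.ofReal (Real.sqrt 2) := by
  have h := gam_map_linear a ha
  have h2 : ∫⁻ y : ℝ, ENNReal.ofReal (Real.exp (y ^ 2 / 4)) ∂((gam κ).map
      (fun x => ∑ c, a c * x c)) = ENNReal.ofReal (Real.sqrt 2) := by
    rw [h, ← ofReal_integral_eq_lintegral_ofReal gauss1_integrable
      (Filter.Eventually.of_forall fun x => by positivity), gauss1_integral]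
  rw [lintegral_map (by fun_prop) (by fun_prop)] at h2
  exact h2

theorem gauss_quad_point {κ P : Type} [Fintype κ] [Fintype P] (A : P → κ → ℝ)
    (hA : ∑ p, ∑ c, (A p c) ^ 2 ≤ 1) (x : κ → ℝ) :
    Real.exp ((∑ p, (∑ c, A p c * x c) ^ 2) / 4)
      ≤ ∑ p, (∑ c, (A p c) ^ 2)
          * Real.exp ((∑ c, A p c * x c) ^ 2 / (∑ c, (A p c) ^ 2) / 4)
        + (1 - ∑ p, ∑ c, (A p c) ^ 2) := by
  have h := convexOn_exp.map_sum_le (t := (Finset.univ : Finset (Option P)))
    (w := fun o => o.elim (1 - ∑ p, ∑ c, (A p c) ^ 2) (fun p => ∑ c, (A p c) ^ 2))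
    (p := fun o => o.elim 0 (fun p => (∑ c, A p c * x c) ^ 2 / (∑ c, (A p c) ^ 2) / 4))
    (by
      intro o _
      cases o with
      | none => simpa only [Option.elim_none, sub_nonneg] using hA
      | some p => exact Finset.sum_nonneg fun c _ => sq_nonneg _)
    (by simp only [Fintype.sum_option, Option.elim_none, Option.elim_some, sub_add_cancel])
    (by intro o _; exact Set.mem_univ _)
  simp only [Fintype.sum_option, Option.elim_none, Option.elim_some, smul_eq_mul, mul_zero,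
    zero_add, Real.exp_zero, mul_one] at h
  have h2 : ∑ p, (∑ c, (A p c) ^ 2) * ((∑ c, A p c * x c) ^ 2 / (∑ c, (A p c) ^ 2) / 4)
      = (∑ p, (∑ c, A p c * x c) ^ 2) / 4 := by
    rw [Finset.sum_div]
    refine Finset.sum_congr rfl fun p _ => ?_
    by_cases hp : ∑ c, (A p c) ^ 2 = 0
    · have h3 : ∀ c, A p c = 0 := by
        intro c
        have := (Finset.sum_eq_zero_iff_of_nonneg (fun c _ => sq_nonneg (A p c))).1 hp c
          (Finset.mem_univ c)
        exact pow_eq_zero_iff (two_ne_zero) |>.1 this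
      simp only [h3, ne_eq, OfNat.ofNat_ne_zero, not_false_eq_true, zero_pow, Finset.sum_const_zero, zero_mul, div_zero, zero_div, mul_zero]
    · (clear * - hp; field_simp)
  rw [h2] at h
  linarith only [h]

theorem gauss_quad {κ P : Type} [Fintype κ] [Fintype P] (A : P → κ → ℝ)
    (hA : ∑ p, ∑ c, (A p c) ^ 2 ≤ 1) :
    ∫⁻ x, ENNReal.ofReal (Real.exp ((∑ p, (∑ c, A p c * x c) ^ 2) / 4)) ∂(gam κ)
      ≤ ENNReal.ofReal (Real.sqrt 2) := by
  have hσ : ∀ p, 0 ≤ ∑ c, (A p c) ^ 2 := fun p => Finset.sum_nonneg fun c _ => sq_nonneg _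
  have h1 : ∀ x : κ → ℝ, ENNReal.ofReal (Real.exp ((∑ p, (∑ c, A p c * x c) ^ 2) / 4))
      ≤ ∑ p, ENNReal.ofReal (∑ c, (A p c) ^ 2)
          * ENNReal.ofReal (Real.exp ((∑ c, A p c * x c) ^ 2 / (∑ c, (A p c) ^ 2) / 4))
        + ENNReal.ofReal (1 - ∑ p, ∑ c, (A p c) ^ 2) := by
    intro x
    refine (ENNReal.ofReal_le_ofReal (gauss_quad_point A hA x)).trans ?_
    rw [ENNReal.ofReal_add (Finset.sum_nonneg fun p _ => mul_nonneg (hσ p) (Real.exp_pos _).le)
      (by linarith only [hA]), ENNReal.ofReal_sum_of_nonneg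
        (fun p _ => mul_nonneg (hσ p) (Real.exp_pos _).le)]
    refine add_le_add (le_of_eq ?_) le_rfl
    refine Finset.sum_congr rfl fun p _ => ?_
    rw [ENNReal.ofReal_mul (hσ p)]
  refine (lintegral_mono h1).trans ?_
  rw [lintegral_add_right _ measurable_const, lintegral_finsetSum _ (fun p _ => by fun_prop)]
  have h2 : ∀ p, ∫⁻ x, ENNReal.ofReal (∑ c, (A p c) ^ 2)
          * ENNReal.ofReal (Real.exp ((∑ c, A p c * x c) ^ 2 / (∑ c, (A p c) ^ 2) / 4)) ∂(gam κ)
      = ENNReal.ofReal ((∑ c, (A p c) ^ 2) * Real.sqrt 2) := by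
    intro p
    rw [lintegral_const_mul _ (by fun_prop), ENNReal.ofReal_mul (hσ p)]
    by_cases hp : ∑ c, (A p c) ^ 2 = 0
    · rw [hp]; simp only [ENNReal.ofReal_zero, div_zero, zero_div, Real.exp_zero, ENNReal.ofReal_one, lintegral_const, measure_univ, mul_one, zero_mul]
    · have hpos : 0 < ∑ c, (A p c) ^ 2 := lt_of_le_of_ne (hσ p) (Ne.symm hp)
      congr 1
      have h3 := gauss_linear (fun c => A p c / Real.sqrt (∑ c, (A p c) ^ 2)) (by
        simp_rw [div_pow]
        rw [Real.sq_sqrt (hσ p), ← Finset.sum_div, div_self hp])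
      rw [← h3]
      congr 1
      funext x
      congr 2
      have h4 : ∑ c, A p c / Real.sqrt (∑ c, (A p c) ^ 2) * x c
          = (∑ c, A p c * x c) / Real.sqrt (∑ c, (A p c) ^ 2) := by
        rw [Finset.sum_div]
        refine Finset.sum_congr rfl fun c _ => ?_
        ring
      rw [h4, div_pow, Real.sq_sqrt (hσ p)]
  simp_rw [h2]
  rw [← ENNReal.ofReal_sum_of_nonneg (fun p _ => mul_nonneg (hσ p) (Real.sqrt_nonneg _)),
    lintegral_const, measure_univ, mul_one, ← ENNReal.ofReal_add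
      (Finset.sum_nonneg fun p _ => mul_nonneg (hσ p) (Real.sqrt_nonneg _)) (by linarith only [hA])]
  apply ENNReal.ofReal_le_ofReal
  rw [← Finset.sum_mul]
  have h5 : 1 ≤ Real.sqrt 2 := Real.one_le_sqrt.mpr (by norm_num)
  nlinarith only [hA, h5]

end Vale.Agent.P262.Sqrt
end
end

section

section

/-!
# Statements for the functional prefix-Banaszczyk tool
-/

open MeasureTheory ProbabilityTheory
open scoped ENNReal BigOperators NNReal

namespace Vale.Agent.P262.Sqrt

/-- **TOOL** (functional prefix-Banaszczyk with biased signs). -/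
def ToolProp : Prop :=
  ∀ (κ ι : Type) [Fintype κ] [Fintype ι] (f : (κ → ℝ) → ℝ), ConvexOn ℝ Set.univ f →
    (∀ x, 0 ≤ f x) → (∫⁻ x, ENNReal.ofReal (f x) ∂(gam κ) ≤ 1) →
    ∀ (z : ι → κ → ℝ) (y : ι → ℝ) (blk : ι → ℕ) (K : ℕ),
      (∀ v, ∑ c, (z v c) ^ 2 ≤ (3 / 10) ^ 2) → (∀ v, |y v| ≤ 1 / 2) →
      ∃ s : ι → ℝ, (∀ v, s v = 1 ∨ s v = -1) ∧
        ∀ j < K, f (fun c => ∑ v with blk v ≤ j, (s v - y v) * z v c) ≤ K

end Vale.Agent.P262.Sqrt
end
end

section

section

open MeasureTheory ProbabilityTheory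
open scoped ENNReal BigOperators NNReal

namespace Vale.Agent.P262.Sqrt

namespace Stage

/-- Exponential quadratic cost. -/
noncomputable def QC {κ P : Type} [Fintype κ] [Fintype P] (A : P → κ → ℝ) (x : κ → ℝ) : ℝ :=
  Real.exp ((∑ p, (∑ c, A p c * x c) ^ 2) / 4)

theorem QC_pos {κ P : Type} [Fintype κ] [Fintype P] (A : P → κ → ℝ) (x : κ → ℝ) :
    0 < QC A x := Real.exp_pos _

theorem QC_convex {κ P : Type} [Fintype κ] [Fintype P] (A : P → κ → ℝ) :
    ConvexOn ℝ Set.univ (QC A) := by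
  refine ⟨convex_univ, ?_⟩
  intro x _ y _ a b ha hb hab
  simp only [smul_eq_mul]
  unfold QC
  refine le_trans (Real.exp_le_exp.2 ?_)
    (convexOn_exp.2 (Set.mem_univ ((∑ p, (∑ c, A p c * x c) ^ 2) / 4))
      (Set.mem_univ ((∑ p, (∑ c, A p c * y c) ^ 2) / 4)) ha hb hab)
  simp only [smul_eq_mul]
  have h : ∀ p, (∑ c, A p c * (a • x + b • y) c) ^ 2
      ≤ a * (∑ c, A p c * x c) ^ 2 + b * (∑ c, A p c * y c) ^ 2 := by
    intro p
    have h1 : ∑ c, A p c * (a • x + b • y) c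
        = a * (∑ c, A p c * x c) + b * (∑ c, A p c * y c) := by
      rw [Finset.mul_sum, Finset.mul_sum, ← Finset.sum_add_distrib]
      refine Finset.sum_congr rfl fun c _ => ?_
      simp only [Pi.add_apply, Pi.smul_apply, smul_eq_mul]
      ring
    rw [h1]
    set X := ∑ c, A p c * x c
    set Y := ∑ c, A p c * y c
    have hb' : b = 1 - a := by linarith only [hab]
    subst hb'
    nlinarith only [mul_nonneg (mul_nonneg ha hb)
      (sq_nonneg (X - Y))]
  have h2 : ∑ p, (∑ c, A p c * (a • x + b • y) c) ^ 2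
      ≤ a * ∑ p, (∑ c, A p c * x c) ^ 2 + b * ∑ p, (∑ c, A p c * y c) ^ 2 := by
    rw [Finset.mul_sum, Finset.mul_sum, ← Finset.sum_add_distrib]
    exact Finset.sum_le_sum fun p _ => h p
  calc (∑ p, (∑ c, A p c * (a • x + b • y) c) ^ 2) / 4
      ≤ (a * ∑ p, (∑ c, A p c * x c) ^ 2 + b * ∑ p, (∑ c, A p c * y c) ^ 2) / 4 := by
        linarith only [h2]
    _ = _ := by ring

theorem QC_measurable {κ P : Type} [Fintype κ] [Fintype P] (A : P → κ → ℝ) :
    Measurable (QC A) := by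
  unfold QC
  fun_prop

theorem QC_int {κ P : Type} [Fintype κ] [Fintype P] (A : P → κ → ℝ)
    (hA : ∑ p, ∑ c, (A p c) ^ 2 ≤ 1) :
    ∫⁻ x, ENNReal.ofReal (QC A x) ∂(gam κ) ≤ ENNReal.ofReal (Real.sqrt 2) :=
  gauss_quad A hA

/-- Logarithmic consequence of a bound on the cost. -/
theorem log_bound (y : ℝ) (t : ℕ) (h : Real.exp y ≤ 6 * Real.sqrt 2 * 2 ^ t) :
    y ≤ 9 / 4 + 0.7 * t := by
  by_contra hc
  push Not at hc
  have h1 : Real.exp (9 / 4 + 0.7 * t) < Real.exp y := Real.exp_lt_exp.2 hc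
  have h2 : 6 * Real.sqrt 2 ≤ Real.exp (9 / 4) := by
    have h3 : (6 * Real.sqrt 2) ^ 4 ≤ (Real.exp (9 / 4)) ^ 4 := by
      have h4 : (Real.exp (9 / 4)) ^ 4 = (Real.exp 1) ^ 9 := by
        rw [← Real.exp_nat_mul, ← Real.exp_nat_mul]; (clear * -; norm_num)
      have h5 : (6 * Real.sqrt 2) ^ 4 = 5184 := by
        have : Real.sqrt 2 ^ 2 = 2 := Real.sq_sqrt (by norm_num)
        calc (6 * Real.sqrt 2) ^ 4 = 1296 * (Real.sqrt 2 ^ 2) ^ 2 := by ring
          _ = 5184 := by rw [this]; norm_num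
      rw [h4, h5]
      have h6 : (2.7 : ℝ) ≤ Real.exp 1 := by
        have := Real.exp_one_gt_d9; linarith only [this]
      calc (5184 : ℝ) ≤ 2.7 ^ 9 := by norm_num
        _ ≤ _ := pow_le_pow_left₀ (by norm_num) h6 9
    exact le_of_pow_le_pow_left₀ (by norm_num) (Real.exp_pos _).le h3
  have h7 : (2 : ℝ) ^ t ≤ Real.exp (0.7 * t) := by
    have h8 : (2 : ℝ) ≤ Real.exp 0.7 := by
      rw [← Real.log_le_iff_le_exp (by norm_num)]
      have := Real.log_two_lt_d9; linarith only [this]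
    calc (2 : ℝ) ^ t ≤ (Real.exp 0.7) ^ t := pow_le_pow_left₀ (by norm_num) h8 t
      _ = Real.exp (0.7 * t) := by rw [← Real.exp_nat_mul]; ring_nf
  have h9 : 6 * Real.sqrt 2 * 2 ^ t ≤ Real.exp (9 / 4 + 0.7 * t) := by
    rw [Real.exp_add]
    exact mul_le_mul h2 h7 (by positivity) (Real.exp_pos _).le
  linarith only [h, h1, h9]

theorem log_bound' (y : ℝ) (t m : ℕ)
    (h : (1 / (2 * Real.sqrt 2)) ^ m * Real.exp y ≤ 6 * 2 ^ t) :
    y ≤ 9 / 4 + 0.7 * t + 1.05 * m := by
  have h0 : (0 : ℝ) < Real.sqrt 2 := Real.sqrt_pos.2 (by norm_num)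
  have h1 : (2 * Real.sqrt 2) ^ m ≤ Real.exp (1.05 * m) := by
    have h8 : 2 * Real.sqrt 2 ≤ Real.exp 1.05 := by
      rw [← Real.log_le_iff_le_exp (by positivity), Real.log_mul (by norm_num) h0.ne',
        Real.log_sqrt (by norm_num)]
      have := Real.log_two_lt_d9; linarith only [this]
    calc (2 * Real.sqrt 2) ^ m ≤ (Real.exp 1.05) ^ m := pow_le_pow_left₀ (by positivity) h8 m
      _ = Real.exp (1.05 * m) := by rw [← Real.exp_nat_mul]; ring_nf
  have h2 : Real.exp (y - 1.05 * m) ≤ 6 * Real.sqrt 2 * 2 ^ t := by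
    rw [Real.exp_sub, div_le_iff₀ (Real.exp_pos _)]
    have h3 : Real.exp y ≤ 6 * 2 ^ t * (2 * Real.sqrt 2) ^ m := by
      have h4 : (1 / (2 * Real.sqrt 2)) ^ m = ((2 * Real.sqrt 2) ^ m)⁻¹ := by
        rw [one_div, inv_pow]
      rw [h4, inv_mul_le_iff₀ (by positivity)] at h
      linarith only [h]
    have h5 : 1 ≤ Real.sqrt 2 := Real.one_le_sqrt.mpr (by norm_num)
    calc Real.exp y ≤ 6 * 2 ^ t * (2 * Real.sqrt 2) ^ m := h3
      _ ≤ 6 * 2 ^ t * Real.exp (1.05 * m) := by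
          apply mul_le_mul_of_nonneg_left h1 (by positivity)
      _ ≤ 6 * Real.sqrt 2 * 2 ^ t * Real.exp (1.05 * m) := by
          apply mul_le_mul_of_nonneg_right _ (Real.exp_pos _).le
          have : (0 : ℝ) < 2 ^ t := by positivity
          nlinarith only [h5, this]
  have := log_bound _ t h2
  linarith only [this]

theorem inv_sq_range (m : ℕ) :
    ∑ j ∈ Finset.range (m + 1), 1 / ((j : ℝ) + 1) ^ 2 ≤ 2 - 1 / ((m : ℝ) + 1) := by
  induction m with
  | zero => (clear * -; norm_num)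
  | succ m ih =>
    rw [Finset.sum_range_succ]
    push_cast
    have hm : (0 : ℝ) ≤ m := Nat.cast_nonneg m
    have h1 : 1 / ((m : ℝ) + 1 + 1) ^ 2 ≤ 1 / ((m : ℝ) + 1) - 1 / ((m : ℝ) + 1 + 1) := by
      rw [div_sub_div _ _ (by positivity) (by positivity), div_le_div_iff₀ (by positivity)
        (by positivity)]
      nlinarith only []
    linarith only [ih, h1]

theorem inv_sq_sum (n J : ℕ) : ∑ i ∈ hi n J, 1 / (rk J i) ^ 2 ≤ 2 := by
  have h1 : ∑ i ∈ hi n J, 1 / (rk J i) ^ 2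
      = ∑ j ∈ (hi n J).image (fun i => i.val - J), 1 / ((j : ℝ) + 1) ^ 2 := by
    rw [Finset.sum_image]
    · refine Finset.sum_congr rfl fun i hi' => ?_
      have hJ : J ≤ i.val := (Finset.mem_filter.1 hi').2
      rw [rk, Nat.cast_sub hJ]
    · intro a ha b hb hab
      have hJa : J ≤ a.val := (Finset.mem_filter.1 ha).2
      have hJb : J ≤ b.val := (Finset.mem_filter.1 hb).2
      apply Fin.ext
      simp only at hab
      omega
  rw [h1]
  have h2 : (hi n J).image (fun i => i.val - J) ⊆ Finset.range (n + 1) := by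
    intro j hj
    rw [Finset.mem_image] at hj
    obtain ⟨i, -, rfl⟩ := hj
    rw [Finset.mem_range]
    have := i.isLt
    omega
  refine (Finset.sum_le_sum_of_subset_of_nonneg h2 fun j _ _ => by (clear * -; positivity)).trans ?_
  refine (inv_sq_range n).trans ?_
  have : (0 : ℝ) ≤ 1 / ((n : ℝ) + 1) := by (clear * -; positivity)
  linarith only [this]

end Stage

end Vale.Agent.P262.Sqrt
end
end

section

section

open MeasureTheory ProbabilityTheory
open scoped ENNReal BigOperators NNReal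

namespace Vale.Agent.P262.Sqrt.Stage

theorem cost_nonneg {α : Type} (T : Finset ℕ) (c : ℕ → ℝ) (hc : ∀ k, 0 ≤ c k)
    (G : ℕ → α → ℝ) (hG0 : ∀ k x, 0 ≤ G k x) (H1 H2 H3 H4 H5 : α → ℝ)
    (n1 : ∀ x, 0 ≤ H1 x) (n2 : ∀ x, 0 ≤ H2 x) (n3 : ∀ x, 0 ≤ H3 x) (n4 : ∀ x, 0 ≤ H4 x)
    (n5 : ∀ x, 0 ≤ H5 x) (x : α) :
    0 ≤ (1 / 6) * ((∑ k ∈ T, c k * G k x)
      + (1 / Real.sqrt 2) * (H1 x + H2 x + H3 x + H4 x + H5 x)) := by
  have h5 : 0 ≤ ∑ k ∈ T, c k * G k x :=
    Finset.sum_nonneg fun k _ => mul_nonneg (hc k) (hG0 k x)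
  have q1 := n1 x
  have q2 := n2 x
  have q3 := n3 x
  have q4 := n4 x
  have q5 := n5 x
  (clear * - h5 q1 q2 q3 q4 q5; positivity)

theorem cost_le {α : Type} (T : Finset ℕ) (c : ℕ → ℝ) (hc : ∀ k, 0 ≤ c k)
    (G : ℕ → α → ℝ) (hG0 : ∀ k x, 0 ≤ G k x) (H1 H2 H3 H4 H5 : α → ℝ)
    (n1 : ∀ x, 0 ≤ H1 x) (n2 : ∀ x, 0 ≤ H2 x) (n3 : ∀ x, 0 ≤ H3 x) (n4 : ∀ x, 0 ≤ H4 x)
    (n5 : ∀ x, 0 ≤ H5 x) (x : α) (B : ℝ)
    (hB : (1 / 6) * ((∑ k ∈ T, c k * G k x)
      + (1 / Real.sqrt 2) * (H1 x + H2 x + H3 x + H4 x + H5 x)) ≤ B) :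
    (∀ k ∈ T, c k * G k x ≤ 6 * B) ∧ H1 x ≤ 6 * Real.sqrt 2 * B ∧ H2 x ≤ 6 * Real.sqrt 2 * B
      ∧ H3 x ≤ 6 * Real.sqrt 2 * B ∧ H4 x ≤ 6 * Real.sqrt 2 * B ∧ H5 x ≤ 6 * Real.sqrt 2 * B := by
  have hsq : (0 : ℝ) < Real.sqrt 2 := Real.sqrt_pos.2 (by norm_num)
  have h5 : 0 ≤ ∑ k ∈ T, c k * G k x :=
    Finset.sum_nonneg fun k _ => mul_nonneg (hc k) (hG0 k x)
  have q1 := n1 x
  have q2 := n2 x
  have q3 := n3 x
  have q4 := n4 x
  have q5 := n5 x
  have h6 : 0 ≤ (1 / Real.sqrt 2) * (H1 x + H2 x + H3 x + H4 x + H5 x) := by (clear * - q1 q2 q3 q4 q5; positivity)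
  have h7 : (1 / Real.sqrt 2) * (H1 x + H2 x + H3 x + H4 x + H5 x) ≤ 6 * B := by linarith only [hB, h5]
  have h8 : H1 x + H2 x + H3 x + H4 x + H5 x ≤ 6 * Real.sqrt 2 * B := by
    rw [one_div, inv_mul_le_iff₀ hsq] at h7
    linarith only [h7]
  refine ⟨?_, by linarith only [q2, q3, q4, q5, h8], by linarith only [q1, q3, q4, q5, h8], by linarith only [q1, q2, q4, q5, h8], by linarith only [q1, q2, q3, q5, h8], by linarith only [q1, q2, q3, q4,
        h8]⟩
  intro k hk
  have := Finset.single_le_sum (f := fun k => c k * G k x)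
    (fun k _ => mul_nonneg (hc k) (hG0 k x)) hk
  linarith only [hB, h6, this]

theorem cost_convex {κ : Type} (T : Finset ℕ) (c : ℕ → ℝ) (hc : ∀ k, 0 ≤ c k)
    (G : ℕ → (κ → ℝ) → ℝ) (hG : ∀ k, ConvexOn ℝ Set.univ (G k)) (H1 H2 H3 H4 H5 : (κ → ℝ) → ℝ)
    (c1 : ConvexOn ℝ Set.univ H1) (c2 : ConvexOn ℝ Set.univ H2) (c3 : ConvexOn ℝ Set.univ H3)
    (c4 : ConvexOn ℝ Set.univ H4) (c5 : ConvexOn ℝ Set.univ H5) :
    ConvexOn ℝ Set.univ (fun x => (1 / 6) * ((∑ k ∈ T, c k * G k x)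
      + (1 / Real.sqrt 2) * (H1 x + H2 x + H3 x + H4 x + H5 x))) := by
  have hs : ConvexOn ℝ Set.univ (fun x => ∑ k ∈ T, c k * G k x) := by
    refine ⟨convex_univ, ?_⟩
    intro x hx y hy a b ha hb hab
    simp only [smul_eq_mul]
    rw [Finset.mul_sum, Finset.mul_sum, ← Finset.sum_add_distrib]
    refine Finset.sum_le_sum fun k _ => ?_
    have h := (hG k).2 hx hy ha hb hab
    simp only [smul_eq_mul] at h
    calc _ ≤ c k * (a * G k x + b * G k y) := mul_le_mul_of_nonneg_left h (hc k)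
      _ = _ := by ring
  have hr := ((((c1.add c2).add c3).add c4).add c5).smul
    (by positivity : (0 : ℝ) ≤ 1 / Real.sqrt 2)
  exact (hs.add hr).smul (by norm_num : (0 : ℝ) ≤ 1 / 6)

theorem cost_int {α : Type} [MeasurableSpace α] (μ : Measure α) (T : Finset ℕ) (c : ℕ → ℝ)
    (hc : ∀ k, 0 ≤ c k)
    (G : ℕ → α → ℝ) (hG0 : ∀ k x, 0 ≤ G k x) (hGm : ∀ k, Measurable (G k))
    (b : ℕ → ℝ) (hb : ∀ k, 0 ≤ b k)
    (hGi : ∀ k, ∫⁻ x, ENNReal.ofReal (G k x) ∂μ ≤ ENNReal.ofReal (b k))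
    (hcb : ∑ k ∈ T, c k * b k ≤ 1)
    (H1 H2 H3 H4 H5 : α → ℝ)
    (n1 : ∀ x, 0 ≤ H1 x) (n2 : ∀ x, 0 ≤ H2 x) (n3 : ∀ x, 0 ≤ H3 x) (n4 : ∀ x, 0 ≤ H4 x)
    (n5 : ∀ x, 0 ≤ H5 x)
    (m1 : Measurable H1) (m2 : Measurable H2) (m3 : Measurable H3) (m4 : Measurable H4)
    (m5 : Measurable H5)
    (i1 : ∫⁻ x, ENNReal.ofReal (H1 x) ∂μ ≤ ENNReal.ofReal (Real.sqrt 2))
    (i2 : ∫⁻ x, ENNReal.ofReal (H2 x) ∂μ ≤ ENNReal.ofReal (Real.sqrt 2))
    (i3 : ∫⁻ x, ENNReal.ofReal (H3 x) ∂μ ≤ ENNReal.ofReal (Real.sqrt 2))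
    (i4 : ∫⁻ x, ENNReal.ofReal (H4 x) ∂μ ≤ ENNReal.ofReal (Real.sqrt 2))
    (i5 : ∫⁻ x, ENNReal.ofReal (H5 x) ∂μ ≤ ENNReal.ofReal (Real.sqrt 2)) :
    ∫⁻ x, ENNReal.ofReal ((1 / 6) * ((∑ k ∈ T, c k * G k x)
      + (1 / Real.sqrt 2) * (H1 x + H2 x + H3 x + H4 x + H5 x))) ∂μ ≤ 1 := by
  have hsq : (0 : ℝ) < Real.sqrt 2 := Real.sqrt_pos.2 (by norm_num)
  have h1 : ∀ x, ENNReal.ofReal ((1 / 6) * ((∑ k ∈ T, c k * G k x)
      + (1 / Real.sqrt 2) * (H1 x + H2 x + H3 x + H4 x + H5 x)))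
      = ENNReal.ofReal (1 / 6) * ((∑ k ∈ T, ENNReal.ofReal (c k) * ENNReal.ofReal (G k x))
        + ENNReal.ofReal (1 / Real.sqrt 2) * (ENNReal.ofReal (H1 x)
          + ENNReal.ofReal (H2 x) + ENNReal.ofReal (H3 x)
          + ENNReal.ofReal (H4 x) + ENNReal.ofReal (H5 x))) := by
    intro x
    have q1 := n1 x
    have q2 := n2 x
    have q3 := n3 x
    have q4 := n4 x
    have q5 := n5 x
    have hs0 : 0 ≤ ∑ k ∈ T, c k * G k x :=
      Finset.sum_nonneg fun k _ => mul_nonneg (hc k) (hG0 k x)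
    rw [ENNReal.ofReal_mul (by norm_num), ENNReal.ofReal_add hs0 (by (clear * - q1 q2 q3 q4 q5; positivity)),
      ENNReal.ofReal_mul (by positivity), ENNReal.ofReal_add (by (clear * - q1 q2 q3 q4; positivity)) q5,
      ENNReal.ofReal_add (by (clear * - q1 q2 q3; positivity)) q4, ENNReal.ofReal_add (by (clear * - q1 q2; positivity)) q3,
      ENNReal.ofReal_add q1 q2, ENNReal.ofReal_sum_of_nonneg
        (fun k _ => mul_nonneg (hc k) (hG0 k x))]
    congr 2
    refine Finset.sum_congr rfl fun k _ => ?_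
    rw [ENNReal.ofReal_mul (hc k)]
  simp_rw [h1]
  have mm : ∀ k, Measurable (fun x => ENNReal.ofReal (G k x)) := fun k => (hGm k).ennreal_ofReal
  have o1 := m1.ennreal_ofReal
  have o2 := m2.ennreal_ofReal
  have o3 := m3.ennreal_ofReal
  have o4 := m4.ennreal_ofReal
  have o5 := m5.ennreal_ofReal
  have mS : Measurable (fun x => ∑ k ∈ T, ENNReal.ofReal (c k) * ENNReal.ofReal (G k x)) :=
    Finset.measurable_sum _ fun k _ => (mm k).const_mul _
  have mR : Measurable (fun x => ENNReal.ofReal (H1 x)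
          + ENNReal.ofReal (H2 x) + ENNReal.ofReal (H3 x)
          + ENNReal.ofReal (H4 x) + ENNReal.ofReal (H5 x)) :=
    (((o1.add o2).add o3).add o4).add o5
  have mT : Measurable (fun x => ∑ k ∈ T, ENNReal.ofReal (c k) * ENNReal.ofReal (G k x)
        + ENNReal.ofReal (1 / Real.sqrt 2) * (ENNReal.ofReal (H1 x)
          + ENNReal.ofReal (H2 x) + ENNReal.ofReal (H3 x)
          + ENNReal.ofReal (H4 x) + ENNReal.ofReal (H5 x))) := mS.add (mR.const_mul _)
  rw [lintegral_const_mul _ mT, lintegral_add_left mS,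
    lintegral_finsetSum _ (fun k _ => (mm k).const_mul _), lintegral_const_mul _ mR,
    lintegral_add_right _ o5, lintegral_add_right _ o4,
    lintegral_add_right _ o3, lintegral_add_right _ o2]
  have i0 : ∑ k ∈ T, ∫⁻ x, ENNReal.ofReal (c k) * ENNReal.ofReal (G k x) ∂μ ≤ 1 := by
    have e2 : ∀ k ∈ T, ∫⁻ x, ENNReal.ofReal (c k) * ENNReal.ofReal (G k x) ∂μ
        ≤ ENNReal.ofReal (c k * b k) := by
      intro k _
      rw [lintegral_const_mul _ (mm k), ENNReal.ofReal_mul (hc k)]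
      gcongr
      exact hGi k
    refine (Finset.sum_le_sum e2).trans ?_
    rw [← ENNReal.ofReal_sum_of_nonneg (fun k _ => mul_nonneg (hc k) (hb k))]
    rw [← ENNReal.ofReal_one]
    exact ENNReal.ofReal_le_ofReal hcb
  calc _ ≤ ENNReal.ofReal (1 / 6) * (1 + ENNReal.ofReal (1 / Real.sqrt 2)
        * (ENNReal.ofReal (Real.sqrt 2) + ENNReal.ofReal (Real.sqrt 2)
          + ENNReal.ofReal (Real.sqrt 2) + ENNReal.ofReal (Real.sqrt 2)
          + ENNReal.ofReal (Real.sqrt 2))) := by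
        (clear * - i0 i1 i2 i3 i4 i5; gcongr)
    _ = 1 := by
        rw [← ENNReal.ofReal_add (by positivity) (by positivity),
          ← ENNReal.ofReal_add (by positivity) (by positivity),
          ← ENNReal.ofReal_add (by positivity) (by positivity),
          ← ENNReal.ofReal_add (by positivity) (by positivity),
          ← ENNReal.ofReal_mul (by positivity), ← ENNReal.ofReal_one,
          ← ENNReal.ofReal_add (by positivity) (by positivity),
          ← ENNReal.ofReal_mul (by positivity)]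
        congr 1
        field_simp
        norm_num

theorem geo_sum (J n : ℕ) : ∑ k ∈ Finset.Ioc J n, (1 / 2 : ℝ) ^ (k - J) ≤ 1 := by
  have h : ∀ m : ℕ, ∑ k ∈ Finset.Ioc J (J + m), (1 / 2 : ℝ) ^ (k - J) = 1 - (1 / 2) ^ m := by
    intro m
    induction m with
    | zero => simp only [add_zero, Std.le_refl, Finset.Ioc_eq_empty_of_le, one_div, inv_pow, Finset.sum_empty, pow_zero, sub_self]
    | succ m ih =>
      rw [← add_assoc, Finset.sum_Ioc_succ_top (by omega), ih]
      have : J + m + 1 - J = m + 1 := by omega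
      rw [this, pow_succ]
      ring
  rcases le_or_gt J n with hJ | hJ
  · obtain ⟨m, rfl⟩ := Nat.exists_eq_add_of_le hJ
    rw [h]
    have : (0 : ℝ) ≤ (1 / 2) ^ m := by positivity
    linarith only [this]
  · rw [Finset.Ioc_eq_empty (by omega)]
    simp only [one_div, inv_pow, Finset.sum_empty, zero_le_one]

end Vale.Agent.P262.Sqrt.Stage
end
end

section

section

open MeasureTheory ProbabilityTheory
open scoped ENNReal BigOperators NNReal

namespace Vale.Agent.P262.Sqrt.Stage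

/-- Feature index. -/
abbrev FI (n : ℕ) (ι : Type) : Type := Fin n ⊕ (ι ⊕ ((Fin n × Fin n) ⊕ Fin 3))

section
variable {n : ℕ} {ι : Type} [Fintype ι] [DecidableEq ι]

/-- Features (before scaling by `1/10`). -/
noncomputable def ft (w : ι → Fin n → ℝ) (J J' : ℕ) (Om : Fin n → ℝ) (Q0 C0 : ℝ) (v : ι) :
    FI n ι → ℝ
  | Sum.inl i => if J ≤ i.val then w v i else 0
  | Sum.inr (Sum.inl u) => if u = v then 1 else 0
  | Sum.inr (Sum.inr (Sum.inl p)) => if J ≤ p.1.val ∧ J ≤ p.2.val then w v p.1 * w v p.2 else 0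
  | Sum.inr (Sum.inr (Sum.inr a)) =>
      if a = 0 then tv J J' w v else if a = 1 then 1000 * qv J Om w v / Q0 else 1000 / C0

theorem ft_norm (w : ι → Fin n → ℝ) (J J' : ℕ) (Om : Fin n → ℝ) (Q0 C0 : ℝ) (v : ι)
    (hw : ∑ i, (w v i) ^ 2 ≤ 1) (hOm : ∀ i, 0 ≤ Om i) (hQ : 0 ≤ Q0)
    (hq : qv J Om w v ≤ Q0 / 1000) (hC : 1000 ≤ C0) :
    ∑ c, (ft w J J' Om Q0 C0 v c) ^ 2 ≤ 6 := by
  rw [Fintype.sum_sum_type, Fintype.sum_sum_type, Fintype.sum_sum_type, Fin.sum_univ_three]
  simp only [ft]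
  have h1 : ∑ i : Fin n, (if J ≤ i.val then w v i else 0) ^ 2 ≤ 1 := by
    refine (Finset.sum_le_sum fun i _ => ?_).trans hw
    split_ifs
    · exact le_rfl
    · simpa only [ne_eq, OfNat.ofNat_ne_zero, not_false_eq_true, zero_pow] using sq_nonneg (w v i)
  have h2 : ∑ u : ι, (if u = v then (1 : ℝ) else 0) ^ 2 = 1 := by
    simp only [ite_pow, one_pow, ne_eq, OfNat.ofNat_ne_zero, not_false_eq_true, zero_pow, Finset.sum_ite_eq', Finset.mem_univ, ↓reduceIte]
  have h3 : ∑ p : Fin n × Fin n,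
      (if J ≤ p.1.val ∧ J ≤ p.2.val then w v p.1 * w v p.2 else 0) ^ 2 ≤ 1 := by
    have h4 : ∑ p : Fin n × Fin n,
        (if J ≤ p.1.val ∧ J ≤ p.2.val then w v p.1 * w v p.2 else 0) ^ 2
        ≤ ∑ p : Fin n × Fin n, (w v p.1) ^ 2 * (w v p.2) ^ 2 := by
      refine Finset.sum_le_sum fun p _ => ?_
      split_ifs
      · exact le_of_eq (by ring)
      · have := mul_nonneg (sq_nonneg (w v p.1)) (sq_nonneg (w v p.2))
        simpa only [ne_eq, OfNat.ofNat_ne_zero, not_false_eq_true, zero_pow, ge_iff_le] using this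
    refine h4.trans ?_
    rw [← Finset.univ_product_univ, Finset.sum_product]
    simp only
    rw [← Finset.sum_mul_sum]
    have h5 : 0 ≤ ∑ i, (w v i) ^ 2 := Finset.sum_nonneg fun i _ => sq_nonneg _
    nlinarith only [hw, h5]
  have h6 : (tv J J' w v) ^ 2 ≤ 1 := by
    have h7 : 0 ≤ tv J J' w v := Finset.sum_nonneg fun i _ => sq_nonneg _
    have h8 : tv J J' w v ≤ 1 :=
      (Finset.sum_le_univ_sum_of_nonneg fun i => sq_nonneg _).trans hw
    nlinarith only [h7, h8]
  have h9 : (1000 * qv J Om w v / Q0) ^ 2 ≤ 1 := by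
    have h10 : 0 ≤ qv J Om w v := Finset.sum_nonneg fun i _ => mul_nonneg (hOm i) (sq_nonneg _)
    have h11 : 0 ≤ 1000 * qv J Om w v / Q0 := by (clear * - h10 hQ; positivity)
    have h12 : 1000 * qv J Om w v / Q0 ≤ 1 := by
      apply div_le_one_of_le₀ _ hQ
      linarith only [hq]
    nlinarith only [h11, h12]
  have h13 : (1000 / C0) ^ 2 ≤ 1 := by
    have h14 : 0 ≤ 1000 / C0 := by positivity
    have h15 : 1000 / C0 ≤ 1 := by
      apply div_le_one_of_le₀ hC (by linarith only [hC])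
    nlinarith only [h14, h15]
  have e1 : ((1 : Fin 3) = 0) = False := by simp
  have e2 : ((2 : Fin 3) = 0) = False := by simp
  have e3 : ((2 : Fin 3) = 1) = False := by simp
  simp only [e1, e2, e3, if_true, if_false]
  linarith only [h1, h2, h3, h6, h9, h13]

/-- Window matrices. -/
noncomputable def A1 (n : ℕ) (ι : Type) [DecidableEq ι] (J k : ℕ) (i : Fin n) : FI n ι → ℝ
  | Sum.inl i' => if i' = i ∧ J ≤ i.val ∧ i.val < k then 1 else 0
  | _ => 0

theorem A1_apply (J k : ℕ) (i : Fin n) (X : FI n ι → ℝ) :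
    ∑ c, A1 n ι J k i c * X c = if J ≤ i.val ∧ i.val < k then X (Sum.inl i) else 0 := by
  rw [Fintype.sum_sum_type]
  simp only [A1, ite_mul, one_mul, zero_mul, Finset.sum_const_zero, add_zero]
  by_cases h : J ≤ i.val ∧ i.val < k
  · simp only [h, and_self, and_true, Finset.sum_ite_eq', Finset.mem_univ, ↓reduceIte]
  · simp only [h, and_false, ↓reduceIte, Finset.sum_const_zero]

theorem A1_sum (J k : ℕ) (X : FI n ι → ℝ) :
    ∑ i : Fin n, (∑ c, A1 n ι J k i c * X c) ^ 2 = ∑ i ∈ mid n J k, (X (Sum.inl i)) ^ 2 := by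
  rw [mid, Finset.sum_filter]
  refine Finset.sum_congr rfl fun i _ => ?_
  rw [A1_apply]
  split_ifs <;> simp

theorem mid_card (n J k : ℕ) : (mid n J k).card ≤ k - J := by
  have h : ((mid n J k).image (fun i => i.val)).card = (mid n J k).card :=
    Finset.card_image_of_injective _ Fin.val_injective
  rw [← h]
  have h2 : (mid n J k).image (fun i => i.val) ⊆ Finset.Ico J k := by
    intro j hj
    rw [Finset.mem_image] at hj
    obtain ⟨i, hi', rfl⟩ := hj
    have := (Finset.mem_filter.1 hi').2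
    exact Finset.mem_Ico.2 this
  refine (Finset.card_le_card h2).trans ?_
  rw [Nat.card_Ico]

theorem A1_int (J k : ℕ) :
    ∫⁻ x, ENNReal.ofReal (QC (A1 n ι J k) x) ∂(gam (FI n ι))
      ≤ ENNReal.ofReal (Real.sqrt 2 ^ (k - J)) := by
  have h : ∀ x : FI n ι → ℝ, QC (A1 n ι J k) x
      = Real.exp ((∑ c ∈ (mid n J k).map ⟨Sum.inl, Sum.inl_injective⟩, (x c) ^ 2) / 4) := by
    intro x
    unfold QC
    rw [A1_sum, Finset.sum_map]
    rfl
  simp_rw [h]
  rw [gauss_prod, Finset.card_map]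
  apply ENNReal.ofReal_le_ofReal
  exact pow_le_pow_right₀ (Real.one_le_sqrt.mpr (by norm_num)) (mid_card n J k)

/-- Poor matrix. -/
noncomputable def A2 (w : ι → Fin n → ℝ) (D : Finset ι) (J : ℕ) (Om : Fin n → ℝ) (Q0 : ℝ)
    (i : Fin n) : FI n ι → ℝ
  | Sum.inr (Sum.inl u) => if i.val < J ∧ u ∈ D then Real.sqrt (Om i / Q0) * w u i else 0
  | _ => 0

theorem A2_apply (w : ι → Fin n → ℝ) (D : Finset ι) (J : ℕ) (Om : Fin n → ℝ) (Q0 : ℝ)
    (i : Fin n) (X : FI n ι → ℝ) :
    ∑ c, A2 w D J Om Q0 i c * X c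
      = if i.val < J then ∑ u ∈ D, Real.sqrt (Om i / Q0) * w u i * X (Sum.inr (Sum.inl u))
        else 0 := by
  rw [Fintype.sum_sum_type, Fintype.sum_sum_type]
  simp only [A2, zero_mul, Finset.sum_const_zero, ite_mul, add_zero, zero_add]
  by_cases h : i.val < J
  · simp only [h, true_and, if_true]
    rw [Finset.sum_ite_mem, Finset.univ_inter]
  · simp only [h, false_and, ↓reduceIte, Finset.sum_const_zero]

theorem A2_norm (w : ι → Fin n → ℝ) (D : Finset ι) (J : ℕ) (Om : Fin n → ℝ) (Q0 : ℝ)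
    (hOm : ∀ i, 0 ≤ Om i) (hQ : 0 ≤ Q0) (hq : ∑ v ∈ D, qv J Om w v ≤ Q0) :
    ∑ i : Fin n, ∑ c, (A2 w D J Om Q0 i c) ^ 2 ≤ 1 := by
  have h1 : ∀ i : Fin n, ∑ c, (A2 w D J Om Q0 i c) ^ 2
      = if i.val < J then Om i / Q0 * ∑ u ∈ D, (w u i) ^ 2 else 0 := by
    intro i
    rw [Fintype.sum_sum_type, Fintype.sum_sum_type]
    simp only [A2]
    norm_num
    by_cases h : i.val < J
    · simp only [h, true_and, if_true]
      rw [Finset.mul_sum, Finset.sum_ite_mem, Finset.univ_inter]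
      refine Finset.sum_congr rfl fun u _ => ?_
      rw [mul_pow, Real.sq_sqrt (div_nonneg (hOm i) hQ)]
    · simp only [h, false_and, ↓reduceIte, Finset.sum_const_zero]
  simp_rw [h1]
  rw [← Finset.sum_filter]
  have h2 : ∑ i ∈ Finset.univ.filter (fun i : Fin n => i.val < J),
      Om i / Q0 * ∑ u ∈ D, (w u i) ^ 2 = (∑ v ∈ D, qv J Om w v) / Q0 := by
    simp only [qv, lo]
    rw [Finset.sum_comm, Finset.sum_div]
    refine Finset.sum_congr rfl fun i _ => ?_
    rw [Finset.mul_sum, Finset.sum_div]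
    refine Finset.sum_congr rfl fun u _ => ?_
    ring
  rw [h2]
  exact div_le_one_of_le₀ hq hQ

/-- Matrix part. -/
noncomputable def A3 (n : ℕ) (ι : Type) (J : ℕ) (p : Fin n × Fin n) : FI n ι → ℝ
  | Sum.inr (Sum.inr (Sum.inl q)) =>
      if q = p ∧ J ≤ p.1.val ∧ J ≤ p.2.val then 1 / (2 * rk J p.1 * rk J p.2) else 0
  | _ => 0

omit [DecidableEq ι] in
theorem A3_apply (J : ℕ) (p : Fin n × Fin n) (X : FI n ι → ℝ) :
    ∑ c, A3 n ι J p c * X c
      = if J ≤ p.1.val ∧ J ≤ p.2.val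
        then 1 / (2 * rk J p.1 * rk J p.2) * X (Sum.inr (Sum.inr (Sum.inl p))) else 0 := by
  rw [Fintype.sum_sum_type, Fintype.sum_sum_type, Fintype.sum_sum_type]
  simp only [A3, zero_mul, Finset.sum_const_zero, ite_mul, add_zero, zero_add]
  by_cases h : J ≤ p.1.val ∧ J ≤ p.2.val
  · simp only [h, and_self, and_true, one_div, mul_inv_rev, Finset.sum_ite_eq', Finset.mem_univ, ↓reduceIte]
  · simp only [h, and_false, ↓reduceIte, Finset.sum_const_zero]

omit [DecidableEq ι] in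
theorem A3_norm (J : ℕ) : ∑ p : Fin n × Fin n, ∑ c, (A3 n ι J p c) ^ 2 ≤ 1 := by
  have h1 : ∀ p : Fin n × Fin n, ∑ c, (A3 n ι J p c) ^ 2
      = if J ≤ p.1.val ∧ J ≤ p.2.val then (1 / (2 * rk J p.1 * rk J p.2)) ^ 2 else 0 := by
    intro p
    rw [Fintype.sum_sum_type, Fintype.sum_sum_type, Fintype.sum_sum_type]
    simp only [A3]
    norm_num
    by_cases h : J ≤ p.1.val ∧ J ≤ p.2.val
    · simp only [h, and_self, and_true, one_div, Finset.sum_ite_eq', Finset.mem_univ, ↓reduceIte]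
    · simp only [h, and_false, ↓reduceIte, Finset.sum_const_zero]
  simp_rw [h1]
  rw [← Finset.sum_filter]
  have h2 : (Finset.univ.filter (fun p : Fin n × Fin n => J ≤ p.1.val ∧ J ≤ p.2.val))
      = hi n J ×ˢ hi n J := by
    ext p
    simp only [Finset.mem_filter, Finset.mem_univ, true_and, hi, Finset.mem_product]
  rw [h2, Finset.sum_product]
  have h3 : ∀ i ∈ hi n J, ∑ i' ∈ hi n J, (1 / (2 * rk J i * rk J i')) ^ 2
      = 1 / (rk J i) ^ 2 * ((1 / 4) * ∑ i' ∈ hi n J, 1 / (rk J i') ^ 2) := by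
    intro i _
    rw [Finset.mul_sum, Finset.mul_sum]
    refine Finset.sum_congr rfl fun i' _ => ?_
    rw [div_pow, mul_pow, mul_pow]
    ring
  rw [Finset.sum_congr rfl h3, ← Finset.sum_mul]
  have h4 := inv_sq_sum n J
  have h5 : 0 ≤ ∑ i ∈ hi n J, 1 / (rk J i) ^ 2 := Finset.sum_nonneg fun i _ => by (clear * -; positivity)
  nlinarith only [h4, h5]

/-- Scalar part. -/
noncomputable def A4 (n : ℕ) (ι : Type) (a : Fin 3) (_ : Unit) : FI n ι → ℝ
  | Sum.inr (Sum.inr (Sum.inr b)) => if b = a then 1 else 0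
  | _ => 0

omit [DecidableEq ι] in
theorem A4_apply (a : Fin 3) (X : FI n ι → ℝ) :
    ∑ c, A4 n ι a () c * X c = X (Sum.inr (Sum.inr (Sum.inr a))) := by
  rw [Fintype.sum_sum_type, Fintype.sum_sum_type, Fintype.sum_sum_type]
  simp only [A4, zero_mul, Finset.sum_const_zero, ite_mul, one_mul, zero_add]
  simp

omit [DecidableEq ι] in
theorem A4_norm (a : Fin 3) : ∑ p : Unit, ∑ c, (A4 n ι a p c) ^ 2 ≤ 1 := by
  simp only [Finset.univ_unique, Finset.sum_singleton]
  rw [Fintype.sum_sum_type, Fintype.sum_sum_type, Fintype.sum_sum_type]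
  simp only [A4]
  norm_num

/-- The total cost. -/
noncomputable def fc (w : ι → Fin n → ℝ) (D : Finset ι) (J : ℕ) (Om : Fin n → ℝ) (Q0 : ℝ)
    (X : FI n ι → ℝ) : ℝ :=
  (1 / 6) * ((∑ k ∈ Finset.Ioc J n, (1 / (2 * Real.sqrt 2)) ^ (k - J) * QC (A1 n ι J k) X)
    + (1 / Real.sqrt 2) * (QC (A2 w D J Om Q0) X + QC (A3 n ι J) X + QC (A4 n ι 0) X
      + QC (A4 n ι 1) X + QC (A4 n ι 2) X))

omit [DecidableEq ι] in
theorem c_nonneg (J k : ℕ) : (0 : ℝ) ≤ (1 / (2 * Real.sqrt 2)) ^ (k - J) := by positivity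

theorem fc_nonneg (w : ι → Fin n → ℝ) (D : Finset ι) (J : ℕ) (Om : Fin n → ℝ) (Q0 : ℝ)
    (X : FI n ι → ℝ) : 0 ≤ fc w D J Om Q0 X :=
  cost_nonneg (Finset.Ioc J n) (fun k => (1 / (2 * Real.sqrt 2)) ^ (k - J)) (fun k => c_nonneg J k)
    (fun k => QC (A1 n ι J k)) (fun k x => (QC_pos (A1 n ι J k) x).le)
    (QC (A2 w D J Om Q0)) (QC (A3 n ι J)) (QC (A4 n ι 0)) (QC (A4 n ι 1)) (QC (A4 n ι 2))
    (fun x => (QC_pos (A2 w D J Om Q0) x).le) (fun x => (QC_pos (A3 n ι J) x).le)
    (fun x => (QC_pos (A4 n ι 0) x).le) (fun x => (QC_pos (A4 n ι 1) x).le)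
    (fun x => (QC_pos (A4 n ι 2) x).le) X

theorem fc_le (w : ι → Fin n → ℝ) (D : Finset ι) (J : ℕ) (Om : Fin n → ℝ) (Q0 : ℝ)
    (X : FI n ι → ℝ) (B : ℝ) (hB : fc w D J Om Q0 X ≤ B) :
    (∀ k ∈ Finset.Ioc J n, (1 / (2 * Real.sqrt 2)) ^ (k - J) * QC (A1 n ι J k) X ≤ 6 * B) ∧
      QC (A2 w D J Om Q0) X ≤ 6 * Real.sqrt 2 * B ∧ QC (A3 n ι J) X ≤ 6 * Real.sqrt 2 * B ∧
      QC (A4 n ι 0) X ≤ 6 * Real.sqrt 2 * B ∧ QC (A4 n ι 1) X ≤ 6 * Real.sqrt 2 * B ∧
      QC (A4 n ι 2) X ≤ 6 * Real.sqrt 2 * B :=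
  cost_le (Finset.Ioc J n) (fun k => (1 / (2 * Real.sqrt 2)) ^ (k - J)) (fun k => c_nonneg J k)
    (fun k => QC (A1 n ι J k)) (fun k x => (QC_pos (A1 n ι J k) x).le)
    (QC (A2 w D J Om Q0)) (QC (A3 n ι J)) (QC (A4 n ι 0)) (QC (A4 n ι 1)) (QC (A4 n ι 2))
    (fun x => (QC_pos (A2 w D J Om Q0) x).le) (fun x => (QC_pos (A3 n ι J) x).le)
    (fun x => (QC_pos (A4 n ι 0) x).le) (fun x => (QC_pos (A4 n ι 1) x).le)
    (fun x => (QC_pos (A4 n ι 2) x).le) X B hB

theorem fc_convex (w : ι → Fin n → ℝ) (D : Finset ι) (J : ℕ) (Om : Fin n → ℝ) (Q0 : ℝ) :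
    ConvexOn ℝ Set.univ (fc w D J Om Q0) :=
  cost_convex (Finset.Ioc J n) (fun k => (1 / (2 * Real.sqrt 2)) ^ (k - J))
    (fun k => c_nonneg J k)
    (fun k => QC (A1 n ι J k)) (fun k => QC_convex (A1 n ι J k))
    (QC (A2 w D J Om Q0)) (QC (A3 n ι J)) (QC (A4 n ι 0)) (QC (A4 n ι 1)) (QC (A4 n ι 2))
    (QC_convex _) (QC_convex _) (QC_convex _) (QC_convex _) (QC_convex _)

theorem fc_int (w : ι → Fin n → ℝ) (D : Finset ι) (J : ℕ) (Om : Fin n → ℝ) (Q0 : ℝ)
    (hOm : ∀ i, 0 ≤ Om i) (hQ : 0 ≤ Q0) (hq : ∑ v ∈ D, qv J Om w v ≤ Q0) :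
    ∫⁻ X, ENNReal.ofReal (fc w D J Om Q0 X) ∂(gam (FI n ι)) ≤ 1 := by
  refine cost_int (gam (FI n ι)) (Finset.Ioc J n) (fun k => (1 / (2 * Real.sqrt 2)) ^ (k - J))
    (fun k => c_nonneg J k)
    (fun k => QC (A1 n ι J k)) (fun k x => (QC_pos (A1 n ι J k) x).le)
    (fun k => QC_measurable (A1 n ι J k)) (fun k => Real.sqrt 2 ^ (k - J))
    (fun k => by positivity) (fun k => A1_int J k) ?_
    (QC (A2 w D J Om Q0)) (QC (A3 n ι J)) (QC (A4 n ι 0)) (QC (A4 n ι 1)) (QC (A4 n ι 2))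
    (fun x => (QC_pos (A2 w D J Om Q0) x).le) (fun x => (QC_pos (A3 n ι J) x).le)
    (fun x => (QC_pos (A4 n ι 0) x).le) (fun x => (QC_pos (A4 n ι 1) x).le)
    (fun x => (QC_pos (A4 n ι 2) x).le)
    (QC_measurable _) (QC_measurable _) (QC_measurable _) (QC_measurable _) (QC_measurable _)
    (QC_int (A2 w D J Om Q0) (A2_norm w D J Om Q0 hOm hQ hq))
    (QC_int (A3 n ι J) (A3_norm (ι := ι) J))
    (QC_int (A4 n ι 0) (A4_norm (n := n) (ι := ι) 0))
    (QC_int (A4 n ι 1) (A4_norm (n := n) (ι := ι) 1))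
    (QC_int (A4 n ι 2) (A4_norm (n := n) (ι := ι) 2))
  refine le_trans (le_of_eq ?_) (geo_sum J n)
  refine Finset.sum_congr rfl fun k _ => ?_
  have hsq : (0 : ℝ) < Real.sqrt 2 := Real.sqrt_pos.2 (by norm_num)
  rw [← mul_pow]
  congr 1
  field_simp

end

end Vale.Agent.P262.Sqrt.Stage
end
end

section

section

open MeasureTheory ProbabilityTheory
open scoped ENNReal BigOperators NNReal

namespace Vale.Agent.P262.Sqrt.Stage

section
variable {n : ℕ} {ι : Type} [DecidableEq ι]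

/-- The sum vector. -/
noncomputable def XX (w : ι → Fin n → ℝ) (D : Finset ι) (J J' : ℕ) (Om : Fin n → ℝ) (Q0 C0 : ℝ)
    (pos : ι → ℕ) (s x : ι → ℝ) (j : ℕ) (c : FI n ι) : ℝ :=
  (∑ v ∈ D with pos v ≤ j, (s v - x v) * ft w J J' Om Q0 C0 v c) / 10

theorem XX_inl (w : ι → Fin n → ℝ) (D : Finset ι) (J J' : ℕ) (Om : Fin n → ℝ) (Q0 C0 : ℝ)
    (pos : ι → ℕ) (s x : ι → ℝ) (j : ℕ) (i : Fin n) (hi' : J ≤ i.val) :
    XX w D J J' Om Q0 C0 pos s x j (Sum.inl i)
      = (∑ v ∈ D with pos v ≤ j, (s v - x v) * w v i) / 10 := by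
  simp only [XX, ft, if_pos hi']

theorem XX_id (w : ι → Fin n → ℝ) (D : Finset ι) (J J' : ℕ) (Om : Fin n → ℝ) (Q0 C0 : ℝ)
    (pos : ι → ℕ) (s x : ι → ℝ) (j : ℕ) (u : ι) :
    XX w D J J' Om Q0 C0 pos s x j (Sum.inr (Sum.inl u))
      = (if u ∈ D ∧ pos u ≤ j then s u - x u else 0) / 10 := by
  simp only [XX, ft, mul_ite, mul_one, mul_zero]
  congr 1
  rw [Finset.sum_ite_eq]
  simp only [Finset.mem_filter]

theorem XX_mat (w : ι → Fin n → ℝ) (D : Finset ι) (J J' : ℕ) (Om : Fin n → ℝ) (Q0 C0 : ℝ)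
    (pos : ι → ℕ) (s x : ι → ℝ) (j : ℕ) (i i' : Fin n) (h1 : J ≤ i.val) (h2 : J ≤ i'.val) :
    XX w D J J' Om Q0 C0 pos s x j (Sum.inr (Sum.inr (Sum.inl (i, i'))))
      = (∑ v ∈ D with pos v ≤ j, (s v - x v) * (w v i * w v i')) / 10 := by
  simp only [XX, ft, h1, h2, and_self, if_true]

theorem XX_0 (w : ι → Fin n → ℝ) (D : Finset ι) (J J' : ℕ) (Om : Fin n → ℝ) (Q0 C0 : ℝ)
    (pos : ι → ℕ) (s x : ι → ℝ) (j : ℕ) :
    XX w D J J' Om Q0 C0 pos s x j (Sum.inr (Sum.inr (Sum.inr 0)))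
      = (∑ v ∈ D with pos v ≤ j, (s v - x v) * tv J J' w v) / 10 := by
  simp only [XX, ft, if_true]

theorem XX_1 (w : ι → Fin n → ℝ) (D : Finset ι) (J J' : ℕ) (Om : Fin n → ℝ) (Q0 C0 : ℝ)
    (pos : ι → ℕ) (s x : ι → ℝ) (j : ℕ) :
    XX w D J J' Om Q0 C0 pos s x j (Sum.inr (Sum.inr (Sum.inr 1)))
      = 100 / Q0 * ∑ v ∈ D with pos v ≤ j, (s v - x v) * qv J Om w v := by
  have e1 : ((1 : Fin 3) = 0) = False := by simp
  simp only [XX, ft, e1, if_true, if_false]
  rw [Finset.sum_div, Finset.mul_sum]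
  refine Finset.sum_congr rfl fun v _ => ?_
  ring

theorem XX_2 (w : ι → Fin n → ℝ) (D : Finset ι) (J J' : ℕ) (Om : Fin n → ℝ) (Q0 C0 : ℝ)
    (pos : ι → ℕ) (s x : ι → ℝ) (j : ℕ) :
    XX w D J J' Om Q0 C0 pos s x j (Sum.inr (Sum.inr (Sum.inr 2)))
      = 100 / C0 * ∑ v ∈ D with pos v ≤ j, (s v - x v) := by
  have e2 : ((2 : Fin 3) = 0) = False := by simp
  have e3 : ((2 : Fin 3) = 1) = False := by simp
  simp only [XX, ft, e2, e3, if_false]
  rw [Finset.sum_div, Finset.mul_sum]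
  refine Finset.sum_congr rfl fun v _ => ?_
  ring

end

theorem abs_of_sq (S c T : ℝ) (t : ℕ) (hc : 0 < c) (hT : T = 100 / c * S)
    (h : T ^ 2 / 4 ≤ 9 / 4 + 0.7 * t) : |S| ≤ 3 / 100 * c * (t + 1) := by
  have ht : (0 : ℝ) ≤ t := Nat.cast_nonneg t
  have h1 : |T| ≤ 3 * (t + 1) := by
    apply abs_le_of_sq_le_sq _ (by positivity)
    nlinarith only [h]
  have h2 : |T| = 100 / c * |S| := by
    rw [hT, abs_mul, abs_of_pos (by positivity)]
  rw [h2] at h1
  have h3 : |S| = c / 100 * (100 / c * |S|) := by field_simp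
  rw [h3]
  calc c / 100 * (100 / c * |S|) ≤ c / 100 * (3 * (t + 1)) :=
        mul_le_mul_of_nonneg_left h1 (by positivity)
    _ = _ := by ring

end Vale.Agent.P262.Sqrt.Stage

namespace Vale.Agent.P262.Sqrt

open Stage

/-- **Module STAGE**, from the tool. -/
theorem stage_of_tool (hT : ToolProp) : StageProp := by
  intro n ι _ _ w D J J' t Om pos x Q0 C0 hw hOm hx hQ hq hqv hC hDC
  classical
  have hz1 : ∀ v, ∑ c, ((if v ∈ D then ft w J J' Om Q0 C0 v c / 10 else 0 : ℝ)) ^ 2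
      ≤ (3 / 10) ^ 2 := by
    intro v
    by_cases hv : v ∈ D
    · simp only [hv, if_true, div_pow]
      rw [← Finset.sum_div]
      have := ft_norm w J J' Om Q0 C0 v (hw v hv) hOm hQ (hqv v hv) hC
      rw [div_le_iff₀ (by norm_num)]
      linarith only [this]
    · simp only [hv, if_false]
      norm_num
  have hy1 : ∀ v, |(if v ∈ D then x v else 0 : ℝ)| ≤ 1 / 2 := by
    intro v
    by_cases hv : v ∈ D
    · simp only [hv, if_true]
      exact hx v hv
    · simp only [hv, if_false]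
      norm_num
  obtain ⟨s, hs, hf⟩ := hT (FI n ι) ι (fc w D J Om Q0) (fc_convex w D J Om Q0)
    (fc_nonneg w D J Om Q0) (fc_int w D J Om Q0 hOm hQ hq)
    (fun v c => if v ∈ D then ft w J J' Om Q0 C0 v c / 10 else 0)
    (fun v => if v ∈ D then x v else 0) pos (2 ^ t) hz1 hy1
  refine ⟨s, hs, fun j hj => ?_⟩
  have hfj := hf j hj
  have hX : (fun c => ∑ v with pos v ≤ j, (s v - (if v ∈ D then x v else 0))
      * (if v ∈ D then ft w J J' Om Q0 C0 v c / 10 else 0))
      = XX w D J J' Om Q0 C0 pos s x j := by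
    funext c
    unfold XX
    rw [Finset.sum_div, Finset.sum_filter, Finset.sum_filter, ← Finset.sum_filter_add_sum_filter_not
      Finset.univ (fun v => v ∈ D)]
    have h1 : Finset.univ.filter (fun v => v ∈ D) = D := by simp only [Finset.subset_univ, Finset.filter_mem_eq_of_subset]
    rw [h1]
    have h2 : ∑ v ∈ Finset.univ.filter (fun v => ¬ v ∈ D),
        (if pos v ≤ j then (s v - (if v ∈ D then x v else 0))
          * (if v ∈ D then ft w J J' Om Q0 C0 v c / 10 else 0) else 0) = 0 := by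
      apply Finset.sum_eq_zero
      intro v hv
      have := (Finset.mem_filter.1 hv).2
      simp [this]
    rw [h2, add_zero]
    refine Finset.sum_congr rfl fun v hv => ?_
    simp only [hv, if_true]
    split_ifs
    · ring
    · rfl
  rw [hX] at hfj
  push_cast at hfj
  obtain ⟨b1, b2, b3, b4, b5, b6⟩ := fc_le w D J Om Q0 _ _ hfj
  have ht : (0 : ℝ) ≤ t := Nat.cast_nonneg t
  have hzero : Q0 = 0 → ∀ v ∈ D, ∀ i ∈ lo n J, Om i * (w v i) ^ 2 = 0 := by
    intro h0 v hv i hi'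
    have h1 : ∀ v ∈ D, 0 ≤ qv J Om w v := fun v _ =>
      Finset.sum_nonneg fun i _ => mul_nonneg (hOm i) (sq_nonneg _)
    have h2 : qv J Om w v ≤ 0 := by
      have := Finset.single_le_sum h1 hv
      linarith only [hq, h0, this]
    have h3 : Om i * (w v i) ^ 2 ≤ qv J Om w v :=
      Finset.single_le_sum (f := fun i => Om i * (w v i) ^ 2)
        (fun i _ => mul_nonneg (hOm i) (sq_nonneg _)) hi'
    have h4 := mul_nonneg (hOm i) (sq_nonneg (w v i))
    linarith only [h2, h3, h4]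
  refine ⟨?_, ?_, ?_, ?_, ?_, ?_⟩
  · intro k hk hkn
    have h1 := b1 k (Finset.mem_Ioc.2 ⟨hk, hkn⟩)
    unfold QC at h1
    have h2 := log_bound' _ t (k - J) h1
    rw [A1_sum] at h2
    have h3 : ∑ i ∈ mid n J k, (XX w D J J' Om Q0 C0 pos s x j (Sum.inl i)) ^ 2
        = (∑ i ∈ mid n J k, (∑ v ∈ D with pos v ≤ j, (s v - x v) * w v i) ^ 2) / 100 := by
      rw [Finset.sum_div]
      refine Finset.sum_congr rfl fun i hi' => ?_
      have hJi : J ≤ i.val := (Finset.mem_filter.1 hi').2.1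
      rw [XX_inl w D J J' Om Q0 C0 pos s x j i hJi]
      ring
    rw [h3] at h2
    have h4 : ((k - J : ℕ) : ℝ) = (k : ℝ) - J := by
      rw [Nat.cast_sub hk.le]
    rw [h4] at h2
    have h5 : (1 : ℝ) ≤ (k : ℝ) - J := by
      have : (J : ℝ) + 1 ≤ k := by exact_mod_cast hk
      linarith only [this]
    linarith only [h2, h5]
  · unfold QC at b2
    have h2 := log_bound _ t b2
    simp_rw [A2_apply] at h2
    rcases hQ.eq_or_lt with h0 | h0
    · have hz := hzero h0.symm
      have : ∑ i ∈ lo n J, Om i * (∑ v ∈ D with pos v ≤ j, (s v - x v) * w v i) ^ 2 = 0 := by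
        apply Finset.sum_eq_zero
        intro i hi'
        by_cases hO : Om i = 0
        · rw [hO, zero_mul]
        · have h3 : ∑ v ∈ D with pos v ≤ j, (s v - x v) * w v i = 0 := by
            apply Finset.sum_eq_zero
            intro v hv
            have h4 := hz v (Finset.mem_filter.1 hv).1 i hi'
            have h5 : w v i = 0 := by
              rcases mul_eq_zero.1 h4 with h | h
              · exact absurd h hO
              · exact pow_eq_zero_iff (two_ne_zero) |>.1 h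
            rw [h5, mul_zero]
          rw [h3]
          ring
      rw [this, ← h0]
      simp
    · have h3 : ∑ i : Fin n, (if i.val < J then ∑ u ∈ D, Real.sqrt (Om i / Q0) * w u i
            * XX w D J J' Om Q0 C0 pos s x j (Sum.inr (Sum.inl u)) else 0) ^ 2
          = (∑ i ∈ lo n J, Om i * (∑ v ∈ D with pos v ≤ j, (s v - x v) * w v i) ^ 2)
            / (100 * Q0) := by
        rw [Finset.sum_div, lo, Finset.sum_filter]
        refine Finset.sum_congr rfl fun i _ => ?_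
        by_cases hi' : i.val < J
        · simp only [hi', if_true]
          have h4 : ∑ u ∈ D, Real.sqrt (Om i / Q0) * w u i
              * XX w D J J' Om Q0 C0 pos s x j (Sum.inr (Sum.inl u))
              = Real.sqrt (Om i / Q0) * ((∑ v ∈ D with pos v ≤ j, (s v - x v) * w v i) / 10) := by
            rw [Finset.sum_div, Finset.mul_sum, Finset.sum_filter]
            refine Finset.sum_congr rfl fun v hv => ?_
            rw [XX_id]
            simp only [hv, true_and]
            split_ifs <;> ring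
          rw [h4, mul_pow, Real.sq_sqrt (div_nonneg (hOm i) hQ)]
          field_simp
          ring
        · simp [hi']
      rw [h3] at h2
      rw [div_div, div_le_iff₀ (by positivity)] at h2
      nlinarith only [h2, h0]
  · unfold QC at b3
    have h2 := log_bound _ t b3
    simp_rw [A3_apply] at h2
    have h3 : ∑ p : Fin n × Fin n, (if J ≤ p.1.val ∧ J ≤ p.2.val
          then 1 / (2 * rk J p.1 * rk J p.2)
            * XX w D J J' Om Q0 C0 pos s x j (Sum.inr (Sum.inr (Sum.inl p))) else 0) ^ 2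
        = (∑ i ∈ hi n J, ∑ i' ∈ hi n J,
            (∑ v ∈ D with pos v ≤ j, (s v - x v) * (w v i * w v i')) ^ 2
              / ((rk J i) ^ 2 * (rk J i') ^ 2)) / 400 := by
      have h4 : ∀ p : Fin n × Fin n, (if J ≤ p.1.val ∧ J ≤ p.2.val
          then 1 / (2 * rk J p.1 * rk J p.2)
            * XX w D J J' Om Q0 C0 pos s x j (Sum.inr (Sum.inr (Sum.inl p))) else 0) ^ 2
          = if J ≤ p.1.val ∧ J ≤ p.2.val then
            ((∑ v ∈ D with pos v ≤ j, (s v - x v) * (w v p.1 * w v p.2)) ^ 2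
              / ((rk J p.1) ^ 2 * (rk J p.2) ^ 2)) / 400 else 0 := by
        rintro ⟨i, i'⟩
        by_cases h : J ≤ i.val ∧ J ≤ i'.val
        · simp only [h, and_self, if_true]
          rw [XX_mat w D J J' Om Q0 C0 pos s x j i i' h.1 h.2]
          rw [mul_pow, div_pow, div_pow, mul_pow, mul_pow, div_div, one_pow, div_mul_div_comm]
          congr 1
          · ring
          · ring
        · simp only [h, ↓reduceIte, ne_eq, OfNat.ofNat_ne_zero, not_false_eq_true, zero_pow]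
      simp_rw [h4]
      rw [← Finset.sum_filter]
      have h5 : (Finset.univ.filter (fun p : Fin n × Fin n => J ≤ p.1.val ∧ J ≤ p.2.val))
          = hi n J ×ˢ hi n J := by
        ext p
        simp only [Finset.mem_filter, Finset.mem_univ, true_and, hi, Finset.mem_product]
      rw [h5, Finset.sum_product, Finset.sum_div]
      refine Finset.sum_congr rfl fun i _ => ?_
      rw [Finset.sum_div]
    rw [h3] at h2
    linarith only [h2]
  · unfold QC at b4
    have h2 := log_bound _ t b4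
    simp only [Finset.univ_unique, Finset.sum_singleton] at h2
    rw [A4_apply, XX_0] at h2
    nlinarith only [h2]
  · rcases hQ.eq_or_lt with h0 | h0
    · have hz := hzero h0.symm
      have : ∑ v ∈ D with pos v ≤ j, (s v - x v) * qv J Om w v = 0 := by
        apply Finset.sum_eq_zero
        intro v hv
        have : qv J Om w v = 0 := Finset.sum_eq_zero fun i hi' =>
          hz v (Finset.mem_filter.1 hv).1 i hi'
        rw [this, mul_zero]
      rw [this, ← h0]
      simp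
    · unfold QC at b5
      have h2 := log_bound _ t b5
      simp only [Finset.univ_unique, Finset.sum_singleton] at h2
      rw [A4_apply] at h2
      exact abs_of_sq _ Q0 _ t h0 (XX_1 w D J J' Om Q0 C0 pos s x j) h2
  · unfold QC at b6
    have h2 := log_bound _ t b6
    simp only [Finset.univ_unique, Finset.sum_singleton] at h2
    rw [A4_apply] at h2
    exact abs_of_sq _ C0 _ t (by linarith only [hC]) (XX_2 w D J J' Om Q0 C0 pos s x j) h2

end Vale.Agent.P262.Sqrt
end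
end

section

section

/-!
# Slicing the standard Gaussian measure along a unit vector
-/

open MeasureTheory ProbabilityTheory
open scoped ENNReal BigOperators NNReal

namespace Vale.Agent.P262.Sqrt

section Slice

variable {E : Type*} [NormedAddCommGroup E] [InnerProductSpace ℝ E] [FiniteDimensional ℝ E]
  [MeasurableSpace E] [BorelSpace E]

theorem slice_map (e : E) (he : ‖e‖ = 1) :
    ((stdGaussian E).prod (gaussianReal 0 1)).map
      (fun p : E × ℝ => p.1 - (inner ℝ e p.1 : ℝ) • e + p.2 • e) = stdGaussian E := by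
  have hcont : Continuous (fun p : E × ℝ => p.1 - (inner ℝ e p.1 : ℝ) • e + p.2 • e) := by
    fun_prop
  have : IsProbabilityMeasure (((stdGaussian E).prod (gaussianReal 0 1)).map
      (fun p : E × ℝ => p.1 - (inner ℝ e p.1 : ℝ) • e + p.2 • e)) :=
    Measure.isProbabilityMeasure_map hcont.aemeasurable
  apply Measure.ext_of_charFun
  ext t
  have hee : (inner ℝ e e : ℝ) = 1 := by rw [real_inner_self_eq_norm_sq, he, one_pow]
  rw [charFun_apply, integral_map hcont.aemeasurable (by (clear he hee; fun_prop))]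
  have h1 : ∀ p : E × ℝ,
      Complex.exp ((inner ℝ (p.1 - (inner ℝ e p.1 : ℝ) • e + p.2 • e) t : ℝ) * Complex.I)
      = Complex.exp ((inner ℝ p.1 (t - (inner ℝ e t : ℝ) • e) : ℝ) * Complex.I)
        * Complex.exp (((inner ℝ e t : ℝ) : ℂ) * (p.2 : ℂ) * Complex.I) := by
    intro p
    rw [← Complex.exp_add]
    congr 1
    rw [inner_add_left, inner_sub_left, inner_smul_left, inner_smul_left, inner_sub_right,
      inner_smul_right]
    simp only [conj_trivial]
    rw [real_inner_comm e p.1]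
    push_cast
    ring
  simp_rw [h1]
  rw [integral_prod_mul (μ := stdGaussian E) (ν := gaussianReal 0 1)
    (fun x : E => Complex.exp ((inner ℝ x (t - (inner ℝ e t : ℝ) • e) : ℝ) * Complex.I))
    (fun z : ℝ => Complex.exp (((inner ℝ e t : ℝ) : ℂ) * (z : ℂ) * Complex.I))]
  rw [← charFun_apply, ← charFun_apply_real, charFun_stdGaussian, charFun_stdGaussian,
    charFun_gaussianReal, ← Complex.exp_add]
  congr 1
  have h2 : ‖t - (inner ℝ e t : ℝ) • e‖ ^ 2 = ‖t‖ ^ 2 - (inner ℝ e t : ℝ) ^ 2 := by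
    rw [norm_sub_sq_real, inner_smul_right, norm_smul, he, mul_one, real_inner_comm e t,
      Real.norm_eq_abs, sq_abs]
    ring
  have h3 : ((‖t - (inner ℝ e t : ℝ) • e‖ : ℂ)) ^ 2 = (‖t‖ : ℂ) ^ 2 - ((inner ℝ e t : ℝ) : ℂ) ^ 2 := by
    exact_mod_cast h2
  rw [h3]
  simp only [NNReal.coe_one, Complex.ofReal_one, Complex.ofReal_zero, mul_zero, zero_mul]
  ring

theorem slice_lintegral (e : E) (he : ‖e‖ = 1) (H : E → ℝ≥0∞) (hH : Measurable H) :
    ∫⁻ x, H x ∂(stdGaussian E)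
      = ∫⁻ x, ∫⁻ z, H (x - (inner ℝ e x : ℝ) • e + z • e) ∂(gaussianReal 0 1) ∂(stdGaussian E) := by
  have hcont : Continuous (fun p : E × ℝ => p.1 - (inner ℝ e p.1 : ℝ) • e + p.2 • e) := by
    fun_prop
  have h1 : ∫⁻ x, H x ∂(stdGaussian E)
      = ∫⁻ x, H x ∂(((stdGaussian E).prod (gaussianReal 0 1)).map
      (fun p : E × ℝ => p.1 - (inner ℝ e p.1 : ℝ) • e + p.2 • e)) := by
    rw [slice_map e he]
  rw [h1, lintegral_map hH hcont.measurable]
  exact lintegral_prod (fun p : E × ℝ => H (p.1 - (inner ℝ e p.1 : ℝ) • e + p.2 • e))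
    (hH.comp hcont.measurable).aemeasurable

end Slice

end Vale.Agent.P262.Sqrt
end
end

section

section

/-!
# The functional prefix tool from the one-dimensional inequality
-/

open MeasureTheory ProbabilityTheory
open scoped ENNReal BigOperators NNReal

namespace Vale.Agent.P262.Sqrt

/-- One-dimensional inequality. -/
def OneDimProp : Prop :=
  ∀ (f g : ℝ → ℝ), ConvexOn ℝ Set.univ f → (∀ x, 0 ≤ f x) → (∀ x, 0 ≤ g x) → Measurable g →
    ∀ (δ y : ℝ), 0 ≤ δ → δ ≤ 3 / 10 → |y| ≤ 1 / 2 →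
    (∀ s, ∀ τ ∈ Set.Icc (-2 : ℝ) 2, g s ≤ max (f (s + (τ - 1) * δ)) (f (s + (τ + 1) * δ))) →
    ∫⁻ s, ENNReal.ofReal (g (s - y * δ)) ∂(gaussianReal 0 1)
      ≤ ∫⁻ s, ENNReal.ofReal (f s) ∂(gaussianReal 0 1)

section Op

variable {E : Type*} [NormedAddCommGroup E] [InnerProductSpace ℝ E]

/-- The operator. -/
noncomputable def TT (u : E) (y : ℝ) (G : E → ℝ) (x : E) : ℝ :=
  ⨅ τ : Set.Icc (-2 : ℝ) 2,
    max (G (x + ((τ : ℝ) - 1 - y) • u)) (G (x + ((τ : ℝ) + 1 - y) • u))

theorem TT_le (u : E) (y : ℝ) (G : E → ℝ) (hG0 : ∀ x, 0 ≤ G x) (x : E) (τ : ℝ)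
    (hτ : τ ∈ Set.Icc (-2 : ℝ) 2) :
    TT u y G x ≤ max (G (x + (τ - 1 - y) • u)) (G (x + (τ + 1 - y) • u)) := by
  unfold TT
  have hbdd : BddBelow (Set.range fun τ : Set.Icc (-2 : ℝ) 2 =>
      max (G (x + ((τ : ℝ) - 1 - y) • u)) (G (x + ((τ : ℝ) + 1 - y) • u))) := by
    refine ⟨0, ?_⟩
    rintro _ ⟨τ, rfl⟩
    exact le_max_of_le_left (hG0 _)
  exact ciInf_le hbdd ⟨τ, hτ⟩

theorem TT_nonneg (u : E) (y : ℝ) (G : E → ℝ) (hG0 : ∀ x, 0 ≤ G x) (x : E) :
    0 ≤ TT u y G x := by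
  have : Nonempty (Set.Icc (-2 : ℝ) 2) := ⟨⟨0, by norm_num, by norm_num⟩⟩
  exact le_ciInf (fun τ => le_max_of_le_left (hG0 _))

theorem TT_convex (u : E) (y : ℝ) (G : E → ℝ) (hG : ConvexOn ℝ Set.univ G)
    (hG0 : ∀ x, 0 ≤ G x) : ConvexOn ℝ Set.univ (TT u y G) := by
  have : Nonempty (Set.Icc (-2 : ℝ) 2) := ⟨⟨0, by norm_num, by norm_num⟩⟩
  refine ⟨convex_univ, ?_⟩
  intro x _ x' _ a b ha hb hab
  apply le_of_forall_pos_le_add
  intro ε hε
  obtain ⟨τ, hτ⟩ := exists_lt_of_ciInf_lt (show TT u y G x < TT u y G x + ε by linarith only [hε])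
  obtain ⟨τ', hτ'⟩ := exists_lt_of_ciInf_lt (show TT u y G x' < TT u y G x' + ε by linarith only [hε])
  have hmem : a * (τ : ℝ) + b * (τ' : ℝ) ∈ Set.Icc (-2 : ℝ) 2 := by
    obtain ⟨h1, h2⟩ := τ.2
    obtain ⟨h3, h4⟩ := τ'.2
    constructor
    · nlinarith only [ha, hb, hab, h1, h3]
    · nlinarith only [ha, hb, hab, h2, h4]
  refine le_trans (TT_le u y G hG0 _ _ hmem) ?_
  have key : ∀ c : ℝ, G (a • x + b • x' + (a * (τ : ℝ) + b * (τ' : ℝ) + c - y) • u)
      ≤ a * G (x + ((τ : ℝ) + c - y) • u) + b * G (x' + ((τ' : ℝ) + c - y) • u) := by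
    intro c
    have h := hG.2 (Set.mem_univ (x + ((τ : ℝ) + c - y) • u))
      (Set.mem_univ (x' + ((τ' : ℝ) + c - y) • u)) ha hb hab
    simp only [smul_eq_mul] at h
    refine le_trans (le_of_eq ?_) h
    congr 1
    have hab' : b = 1 - a := by linarith only [hab]
    rw [hab']
    module
  have k1 := key (-1)
  have k2 := key 1
  simp only [← sub_eq_add_neg] at k1
  simp only [smul_eq_mul]
  have m1 := le_max_left (G (x + ((τ : ℝ) - 1 - y) • u)) (G (x + ((τ : ℝ) + 1 - y) • u))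
  have m2 := le_max_right (G (x + ((τ : ℝ) - 1 - y) • u)) (G (x + ((τ : ℝ) + 1 - y) • u))
  have m3 := le_max_left (G (x' + ((τ' : ℝ) - 1 - y) • u)) (G (x' + ((τ' : ℝ) + 1 - y) • u))
  have m4 := le_max_right (G (x' + ((τ' : ℝ) - 1 - y) • u)) (G (x' + ((τ' : ℝ) + 1 - y) • u))
  have n1 : G (x + ((τ : ℝ) - 1 - y) • u) ≤ TT u y G x + ε := le_trans m1 hτ.le
  have n2 : G (x + ((τ : ℝ) + 1 - y) • u) ≤ TT u y G x + ε := le_trans m2 hτ.le
  have n3 : G (x' + ((τ' : ℝ) - 1 - y) • u) ≤ TT u y G x' + ε := le_trans m3 hτ'.le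
  have n4 : G (x' + ((τ' : ℝ) + 1 - y) • u) ≤ TT u y G x' + ε := le_trans m4 hτ'.le
  apply max_le
  · refine le_trans k1 ?_
    have := mul_le_mul_of_nonneg_left n1 ha
    have := mul_le_mul_of_nonneg_left n3 hb
    (clear hG hG0 hmem key k2 k1 m2 m4 n2 n4; nlinarith)
  · refine le_trans k2 ?_
    have := mul_le_mul_of_nonneg_left n2 ha
    have := mul_le_mul_of_nonneg_left n4 hb
    (clear hG hG0 hmem key k2 k1 m1 m3 n1 n3; nlinarith)

theorem TT_ge (u : E) (y : ℝ) (G : E → ℝ) (hG : ConvexOn ℝ Set.univ G) (x : E) :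
    ∃ ε : ℝ, (ε = 1 ∨ ε = -1) ∧ G (x + (ε - y) • u) ≤ TT u y G x := by
  have : Nonempty (Set.Icc (-2 : ℝ) 2) := ⟨⟨0, by norm_num, by norm_num⟩⟩
  have hmin : min (G (x + (1 - y) • u)) (G (x + (-1 - y) • u)) ≤ TT u y G x := by
    apply le_ciInf
    intro τ
    obtain ⟨h1, h2⟩ := τ.2
    rcases le_total (τ : ℝ) 0 with h | h
    · refine le_trans (min_le_right _ _) ?_
      have hc := hG.2 (Set.mem_univ (x + ((τ : ℝ) - 1 - y) • u))
        (Set.mem_univ (x + ((τ : ℝ) + 1 - y) • u)) (show (0 : ℝ) ≤ 1 + τ / 2 by linarith only [h1])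
        (show (0 : ℝ) ≤ -(τ / 2) by linarith only [h]) (by ring)
      simp only [smul_eq_mul] at hc
      have he : (1 + (τ : ℝ) / 2) • (x + ((τ : ℝ) - 1 - y) • u)
          + (-((τ : ℝ) / 2)) • (x + ((τ : ℝ) + 1 - y) • u) = x + (-1 - y) • u := by
        module
      rw [he] at hc
      refine le_trans hc ?_
      have m1 := le_max_left (G (x + ((τ : ℝ) - 1 - y) • u)) (G (x + ((τ : ℝ) + 1 - y) • u))
      have m2 := le_max_right (G (x + ((τ : ℝ) - 1 - y) • u)) (G (x + ((τ : ℝ) + 1 - y) • u))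
      have := mul_le_mul_of_nonneg_left m1 (show (0 : ℝ) ≤ 1 + τ / 2 by linarith only [h1])
      have := mul_le_mul_of_nonneg_left m2 (show (0 : ℝ) ≤ -(τ / 2) by linarith only [h])
      (clear hG h2 hc he; linarith)
    · refine le_trans (min_le_left _ _) ?_
      have hc := hG.2 (Set.mem_univ (x + ((τ : ℝ) - 1 - y) • u))
        (Set.mem_univ (x + ((τ : ℝ) + 1 - y) • u)) (show (0 : ℝ) ≤ τ / 2 by linarith only [h])
        (show (0 : ℝ) ≤ 1 - τ / 2 by linarith only [h2]) (by ring)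
      simp only [smul_eq_mul] at hc
      have he : ((τ : ℝ) / 2) • (x + ((τ : ℝ) - 1 - y) • u)
          + (1 - (τ : ℝ) / 2) • (x + ((τ : ℝ) + 1 - y) • u) = x + (1 - y) • u := by
        module
      rw [he] at hc
      refine le_trans hc ?_
      have m1 := le_max_left (G (x + ((τ : ℝ) - 1 - y) • u)) (G (x + ((τ : ℝ) + 1 - y) • u))
      have m2 := le_max_right (G (x + ((τ : ℝ) - 1 - y) • u)) (G (x + ((τ : ℝ) + 1 - y) • u))
      have := mul_le_mul_of_nonneg_left m1 (show (0 : ℝ) ≤ τ / 2 by linarith only [h])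
      have := mul_le_mul_of_nonneg_left m2 (show (0 : ℝ) ≤ 1 - τ / 2 by linarith only [h2])
      (clear hG h1 hc he; linarith)
  rcases min_choice (G (x + (1 - y) • u)) (G (x + (-1 - y) • u)) with h | h
  · exact ⟨1, Or.inl rfl, by rw [h] at hmin; exact hmin⟩
  · exact ⟨-1, Or.inr rfl, by rw [h] at hmin; exact hmin⟩

variable [FiniteDimensional ℝ E]

theorem convex_continuous (G : E → ℝ) (hG : ConvexOn ℝ Set.univ G) : Continuous G :=
  continuousOn_univ.mp (hG.continuousOn isOpen_univ)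

variable [MeasurableSpace E] [BorelSpace E]

theorem TT_lintegral (hO : OneDimProp) (u : E) (hu : ‖u‖ ≤ 3 / 10) (y : ℝ) (hy : |y| ≤ 1 / 2)
    (G : E → ℝ) (hG : ConvexOn ℝ Set.univ G) (hG0 : ∀ x, 0 ≤ G x) :
    ∫⁻ x, ENNReal.ofReal (TT u y G x) ∂(stdGaussian E)
      ≤ ∫⁻ x, ENNReal.ofReal (G x) ∂(stdGaussian E) := by
  have hGc := convex_continuous G hG
  have hTc := convex_continuous _ (TT_convex u y G hG hG0)
  by_cases h0 : u = 0
  · apply lintegral_mono
    intro x
    apply ENNReal.ofReal_le_ofReal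
    have := TT_le u y G hG0 x 0 ⟨by norm_num, by norm_num⟩
    rw [h0, smul_zero, smul_zero, add_zero, max_self] at this
    rw [h0]
    exact this
  · have hpos : 0 < ‖u‖ := norm_pos_iff.mpr h0
    set e : E := (‖u‖)⁻¹ • u with he
    have he1 : ‖e‖ = 1 := by
      rw [he, norm_smul, norm_inv, norm_norm]
      exact inv_mul_cancel₀ hpos.ne'
    have hue : u = ‖u‖ • e := by
      rw [he, smul_smul, mul_inv_cancel₀ hpos.ne', one_smul]
    rw [slice_lintegral e he1 _ (hTc.measurable.ennreal_ofReal),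
      slice_lintegral e he1 _ (hGc.measurable.ennreal_ofReal)]
    apply lintegral_mono
    intro x
    set xp : E := x - (inner ℝ e x : ℝ) • e with hxp
    have h1 := hO (fun s => G (xp + s • e)) (fun s => TT u y G (xp + (s + y * ‖u‖) • e))
      (by
        refine ⟨convex_univ, ?_⟩
        intro s _ s' _ a b ha hb hab
        have h := hG.2 (Set.mem_univ (xp + s • e)) (Set.mem_univ (xp + s' • e)) ha hb hab
        have heq : xp + (a • s + b • s') • e = a • (xp + s • e) + b • (xp + s' • e) := by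
          have hab' : b = 1 - a := by linarith only [hab]
          rw [hab']
          simp only [smul_eq_mul]
          module
        rw [← heq] at h
        exact h)
      (fun s => hG0 _) (fun s => TT_nonneg u y G hG0 _)
      (hTc.measurable.comp (by (clear hO hu hy G hG hG0 hGc hTc h0 hpos he he1 hue hxp; fun_prop))) ‖u‖ y hpos.le hu hy
      (by
        intro s τ hτ
        refine le_trans (TT_le u y G hG0 _ τ hτ) (le_of_eq ?_)
        congr 1
        · congr 1
          conv_lhs => rw [show (τ - 1 - y) • u = ((τ - 1 - y) * ‖u‖) • e by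
            rw [mul_smul, ← hue]]
          module
        · congr 1
          conv_lhs => rw [show (τ + 1 - y) • u = ((τ + 1 - y) * ‖u‖) • e by
            rw [mul_smul, ← hue]]
          module)
    simp only [sub_add_cancel] at h1
    exact h1

end Op

end Vale.Agent.P262.Sqrt
end
end

section

section

/-!
# The functional prefix tool: induction over blocks and transfer
-/

open MeasureTheory ProbabilityTheory
open scoped ENNReal BigOperators NNReal

namespace Vale.Agent.P262.Sqrt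

section Ind

variable {E : Type*} [NormedAddCommGroup E] [InnerProductSpace ℝ E] [FiniteDimensional ℝ E]
  [MeasurableSpace E] [BorelSpace E]

theorem block_lemma (hO : OneDimProp) {ι : Type*} [DecidableEq ι] (z : ι → E) (y : ι → ℝ)
    (hz : ∀ v, ‖z v‖ ≤ 3 / 10) (hy : ∀ v, |y v| ≤ 1 / 2) (G : E → ℝ)
    (hG : ConvexOn ℝ Set.univ G) (hG0 : ∀ x, 0 ≤ G x) (S : Finset ι) :
    ∃ G' : E → ℝ, ConvexOn ℝ Set.univ G' ∧ (∀ x, 0 ≤ G' x) ∧
      (∫⁻ x, ENNReal.ofReal (G' x) ∂(stdGaussian E)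
        ≤ ∫⁻ x, ENNReal.ofReal (G x) ∂(stdGaussian E)) ∧
      ∀ x, ∃ s : ι → ℝ, (∀ v, s v = 1 ∨ s v = -1) ∧
        G (x + ∑ v ∈ S, (s v - y v) • z v) ≤ G' x := by
  induction S using Finset.induction_on with
  | empty =>
    exact ⟨G, hG, hG0, le_refl _, fun x => ⟨fun _ => 1, fun _ => Or.inl rfl, by simp⟩⟩
  | insert a S ha ih =>
    obtain ⟨G1, hG1, hG10, hG1i, hG1s⟩ := ih
    refine ⟨TT (z a) (y a) G1, TT_convex _ _ _ hG1 hG10, TT_nonneg _ _ _ hG10,
      le_trans (TT_lintegral hO _ (hz a) _ (hy a) _ hG1 hG10) hG1i, ?_⟩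
    intro x
    obtain ⟨ε, hε, hx⟩ := TT_ge (z a) (y a) G1 hG1 x
    obtain ⟨s, hs, hsx⟩ := hG1s (x + (ε - y a) • z a)
    refine ⟨Function.update s a ε, ?_, ?_⟩
    · intro v
      by_cases hv : v = a
      · rw [hv, Function.update_self]
        exact hε
      · rw [Function.update_of_ne hv]
        exact hs v
    · rw [Finset.sum_insert ha, Function.update_self]
      have h1 : ∑ v ∈ S, (Function.update s a ε v - y v) • z v = ∑ v ∈ S, (s v - y v) • z v := by
        apply Finset.sum_congr rfl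
        intro v hv
        rw [Function.update_of_ne (fun h => ha (by rw [← h]; exact hv))]
      rw [h1, ← add_assoc]
      exact le_trans hsx hx

theorem tool_ind (hO : OneDimProp) {ι : Type*} [Fintype ι] [DecidableEq ι] (z : ι → E)
    (y : ι → ℝ) (hz : ∀ v, ‖z v‖ ≤ 3 / 10) (hy : ∀ v, |y v| ≤ 1 / 2) (blk : ι → ℕ) (f : E → ℝ)
    (hf : ConvexOn ℝ Set.univ f) (hf0 : ∀ x, 0 ≤ f x)
    (hf1 : ∫⁻ x, ENNReal.ofReal (f x) ∂(stdGaussian E) ≤ 1) (K r : ℕ) (hr : r ≤ K) :
    ∃ G : E → ℝ, ConvexOn ℝ Set.univ G ∧ (∀ x, 0 ≤ G x) ∧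
      (∫⁻ x, ENNReal.ofReal (G x) ∂(stdGaussian E) ≤ (r : ℝ≥0∞)) ∧
      ∀ x, ∃ s : ι → ℝ, (∀ v, s v = 1 ∨ s v = -1) ∧
        ∀ j, K - r ≤ j → j < K →
          f (x + ∑ v with (K - r ≤ blk v ∧ blk v ≤ j), (s v - y v) • z v) ≤ G x := by
  induction r with
  | zero =>
    refine ⟨fun _ => 0, convexOn_const 0 convex_univ, fun _ => le_refl _, by simp only [ENNReal.ofReal_zero, lintegral_const, measure_univ, mul_one, CharP.cast_eq_zero, Std.le_refl], ?_⟩
    intro x
    refine ⟨fun _ => 1, fun _ => Or.inl rfl, ?_⟩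
    intro j hj1 hj2
    omega
  | succ r ih =>
    obtain ⟨G1, hG1, hG10, hG1i, hG1s⟩ := ih (by omega)
    have hH : ConvexOn ℝ Set.univ (fun x => f x + G1 x) := hf.add hG1
    obtain ⟨G', hG', hG'0, hG'i, hG's⟩ := block_lemma hO z y hz hy (fun x => f x + G1 x) hH
      (fun x => add_nonneg (hf0 x) (hG10 x)) (Finset.univ.filter (fun v => blk v = K - (r + 1)))
    refine ⟨G', hG', hG'0, ?_, ?_⟩
    · refine le_trans hG'i ?_
      have h1 : ∫⁻ x, ENNReal.ofReal (f x + G1 x) ∂(stdGaussian E)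
          = ∫⁻ x, ENNReal.ofReal (f x) ∂(stdGaussian E)
            + ∫⁻ x, ENNReal.ofReal (G1 x) ∂(stdGaussian E) := by
        rw [← lintegral_add_left ((convex_continuous f hf).measurable.ennreal_ofReal)]
        apply lintegral_congr
        intro x
        exact ENNReal.ofReal_add (hf0 x) (hG10 x)
      rw [h1]
      push_cast
      rw [add_comm]
      exact add_le_add hG1i hf1
    · intro x
      obtain ⟨s, hs, hsx⟩ := hG's x
      set x' := x + ∑ v with blk v = K - (r + 1), (s v - y v) • z v with hx'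
      obtain ⟨s', hs', hs'x⟩ := hG1s x'
      refine ⟨fun v => if blk v = K - (r + 1) then s v else s' v, ?_, ?_⟩
      · intro v
        simp only
        split_ifs
        · exact hs v
        · exact hs' v
      · intro j hj1 hj2
        have hsplit : ∑ v with (K - (r + 1) ≤ blk v ∧ blk v ≤ j),
            ((if blk v = K - (r + 1) then s v else s' v) - y v) • z v
            = ∑ v with blk v = K - (r + 1), (s v - y v) • z v
              + ∑ v with (K - r ≤ blk v ∧ blk v ≤ j), (s' v - y v) • z v := by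
          rw [Finset.sum_filter, Finset.sum_filter, Finset.sum_filter, ← Finset.sum_add_distrib]
          apply Finset.sum_congr rfl
          intro v _
          by_cases h1 : blk v = K - (r + 1)
          · rw [if_pos h1, if_pos (by omega), if_pos h1, if_neg (by omega), add_zero]
          · by_cases h2 : K - r ≤ blk v ∧ blk v ≤ j
            · rw [if_neg h1, if_pos (by omega), if_neg h1, if_pos h2, zero_add]
            · rw [if_neg h1, if_neg (by omega), if_neg h1, if_neg h2, zero_add]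
        rw [hsplit, ← add_assoc, ← hx']
        rcases Nat.lt_or_ge j (K - r) with hj | hj
        · have h2 : ∑ v with (K - r ≤ blk v ∧ blk v ≤ j), (s' v - y v) • z v = 0 := by
            rw [Finset.sum_filter]
            apply Finset.sum_eq_zero
            intro v _
            rw [if_neg (by omega)]
          rw [h2, add_zero]
          have := hG10 x'
          linarith only [hsx, this]
        · have h3 := hs'x j hj hj2
          have := hf0 x'
          linarith only [hsx, h3, this]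

end Ind

theorem jensen0 {E : Type*} [NormedAddCommGroup E] [InnerProductSpace ℝ E]
    [FiniteDimensional ℝ E] [MeasurableSpace E] [BorelSpace E] (G : E → ℝ)
    (hG : ConvexOn ℝ Set.univ G) (hG0 : ∀ x, 0 ≤ G x) :
    ENNReal.ofReal (G 0) ≤ ∫⁻ x, ENNReal.ofReal (G x) ∂(stdGaussian E) := by
  have hGm : Measurable (fun x => ENNReal.ofReal (G x)) :=
    (convex_continuous G hG).measurable.ennreal_ofReal
  have hneg : ∫⁻ x, ENNReal.ofReal (G (-x)) ∂(stdGaussian E)
      = ∫⁻ x, ENNReal.ofReal (G x) ∂(stdGaussian E) := by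
    have h1 := stdGaussian_map (E := E) (F := E) (LinearIsometryEquiv.neg ℝ)
    conv_rhs => rw [← h1]
    rw [lintegral_map hGm (LinearIsometryEquiv.neg ℝ).continuous.measurable]
    rfl
  have h2 : ENNReal.ofReal (G 0) + ENNReal.ofReal (G 0)
      ≤ ∫⁻ x, ENNReal.ofReal (G x) ∂(stdGaussian E)
        + ∫⁻ x, ENNReal.ofReal (G x) ∂(stdGaussian E) := by
    calc ENNReal.ofReal (G 0) + ENNReal.ofReal (G 0)
        = ∫⁻ _x, (ENNReal.ofReal (G 0) + ENNReal.ofReal (G 0)) ∂(stdGaussian E) := by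
          rw [lintegral_const, measure_univ, mul_one]
      _ ≤ ∫⁻ x, (ENNReal.ofReal (G x) + ENNReal.ofReal (G (-x))) ∂(stdGaussian E) := by
          apply lintegral_mono
          intro x
          simp only
          rw [← ENNReal.ofReal_add (hG0 _) (hG0 _), ← ENNReal.ofReal_add (hG0 _) (hG0 _)]
          apply ENNReal.ofReal_le_ofReal
          have h := hG.2 (Set.mem_univ x) (Set.mem_univ (-x)) (show (0 : ℝ) ≤ 1 / 2 by norm_num)
            (show (0 : ℝ) ≤ 1 / 2 by norm_num) (by norm_num)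
          have e : (1 / 2 : ℝ) • x + (1 / 2 : ℝ) • (-x) = 0 := by module
          rw [e] at h
          simp only [smul_eq_mul] at h
          linarith only [h]
      _ = _ := by rw [lintegral_add_left hGm, hneg]
  by_contra hcon
  push Not at hcon
  exact absurd h2 (not_le.mpr (ENNReal.add_lt_add hcon hcon))

/-- The tool in exactly the form used by the module STAGE. -/
theorem toolProp_of_oneDim (hO : OneDimProp) : ToolProp := by
  intro κ ι _ _ f hf hf0 hf1 z y blk K hz hy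
  classical
  set F : EuclideanSpace ℝ κ → ℝ := fun x => f (fun c => x c) with hF
  have hFc : ConvexOn ℝ Set.univ F := by
    refine ⟨convex_univ, ?_⟩
    intro x _ x' _ a b ha hb hab
    exact hf.2 (Set.mem_univ (fun c => x c)) (Set.mem_univ (fun c => x' c)) ha hb hab
  have hF1 : ∫⁻ x, ENNReal.ofReal (F x) ∂(stdGaussian (EuclideanSpace ℝ κ)) ≤ 1 := by
    rw [← map_pi_eq_stdGaussian, lintegral_map ((convex_continuous F hFc).measurable.ennreal_ofReal)
      (by fun_prop)]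
    exact hf1
  obtain ⟨G, hG, hG0, hGi, hGs⟩ := tool_ind hO (fun v => WithLp.toLp 2 (z v)) y
    (fun v => by
      rw [EuclideanSpace.norm_eq]
      rw [Real.sqrt_le_left (by norm_num)]
      simpa only [Real.norm_eq_abs, sq_abs] using hz v) hy blk F hFc (fun x => hf0 _) hF1 K K le_rfl
  obtain ⟨s, hs, hsj⟩ := hGs 0
  refine ⟨s, hs, ?_⟩
  intro j hj
  have h1 := hsj j (by omega) hj
  have h2 : G 0 ≤ K := by
    have h3 := le_trans (jensen0 G hG hG0) hGi
    have h4 : ((K : ℕ) : ℝ≥0∞) = ENNReal.ofReal (K : ℝ) := by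
      rw [ENNReal.ofReal_natCast]
    rw [h4] at h3
    exact (ENNReal.ofReal_le_ofReal_iff (by (clear * -; positivity))).mp h3
  refine le_trans (le_of_eq ?_) (le_trans h1 h2)
  simp only [hF]
  congr 1
  funext c
  have h5 : (Finset.univ.filter (fun v => blk v ≤ j))
      = Finset.univ.filter (fun v => K - K ≤ blk v ∧ blk v ≤ j) := by
    apply Finset.filter_congr
    intro v _
    omega
  rw [h5]
  simp only [tsub_self, zero_le, true_and, zero_add, WithLp.ofLp_sum, WithLp.ofLp_smul, Finset.sum_apply, Pi.smul_apply, smul_eq_mul]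

end Vale.Agent.P262.Sqrt
end
end

section

section

/-!
# The one dimensional inequality behind the functional prefix rounding (P262)

For `f` convex and nonnegative on the line and a step `δ ≤ 3/10`, every function `g` with
`g s ≤ max (f (s + (τ-1) δ)) (f (s + (τ+1) δ))` for all `|τ| ≤ 2` satisfies
`∫ g (s - y δ) dγ ≤ ∫ f dγ` for the standard Gaussian `γ` and `|y| ≤ 1/2`.
-/

open MeasureTheory ProbabilityTheory Set
open scoped ENNReal

namespace Vale.Agent.P262.Sqrt

namespace OneD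

/-- a subgradient -/
lemma exists_subgrad {f : ℝ → ℝ} (hf : ConvexOn ℝ univ f) (q : ℝ) :
    ∃ α : ℝ, ∀ x, f q + α * (x - q) ≤ f x := by
  set S : Set ℝ := {r | ∃ x, q < x ∧ r = (f x - f q) / (x - q)} with hS
  have hbd : ∀ x, x < q → ∀ r ∈ S, (f q - f x) / (q - x) ≤ r := by
    rintro x hx r ⟨x', hx', rfl⟩
    exact hf.slope_mono_adjacent (mem_univ _) (mem_univ _) hx hx'
  have hne : S.Nonempty := ⟨_, q + 1, by linarith only [], rfl⟩
  have hbb : BddBelow S := ⟨_, fun r hr => hbd (q - 1) (by linarith only []) r hr⟩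
  refine ⟨sInf S, fun x => ?_⟩
  rcases lt_trichotomy x q with h | h | h
  · have h1 : (f q - f x) / (q - x) ≤ sInf S := le_csInf hne (hbd x h)
    rw [div_le_iff₀ (by linarith only [h])] at h1
    linarith only [h1]
  · subst h; simp only [sub_self, mul_zero, add_zero, Std.le_refl]
  · have h1 : sInf S ≤ (f x - f q) / (x - q) := csInf_le hbb ⟨x, h, rfl⟩
    rw [le_div_iff₀ (by linarith only [h])] at h1
    linarith only [h1]

/-- increments to the right of `q` -/
lemma incr_right {f : ℝ → ℝ} (hf : ConvexOn ℝ univ f) {q α : ℝ}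
    (hα : ∀ x, f q + α * (x - q) ≤ f x) {x x' : ℝ} (h1 : q ≤ x) (h2 : x ≤ x') :
    f x + α * (x' - x) ≤ f x' := by
  rcases eq_or_lt_of_le h1 with rfl | h1
  · exact hα x'
  · obtain ⟨γ, hγ⟩ := exists_subgrad hf x
    have h3 := hγ q
    have h4 := hα x
    have h5 := hγ x'
    have h6 : α ≤ γ := by nlinarith only [h1, h3, h4]
    nlinarith only [h2, h5, h6]

/-- increments to the left of `p` -/
lemma incr_left {f : ℝ → ℝ} (hf : ConvexOn ℝ univ f) {p β : ℝ}
    (hβ : ∀ x, f p + β * (p - x) ≤ f x) {x x' : ℝ} (h1 : x' ≤ p) (h2 : x ≤ x') :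
    f x' + β * (x' - x) ≤ f x := by
  rcases eq_or_lt_of_le h1 with rfl | h1
  · exact hβ x
  · obtain ⟨γ, hγ⟩ := exists_subgrad hf x'
    have h3 := hγ p
    have h4 := hβ x'
    have h5 := hγ x
    have h6 : β ≤ -γ := by nlinarith only [h1, h3, h4]
    nlinarith only [h2, h5, h6]

/-- monotone differences -/
lemma diff_mono {f : ℝ → ℝ} (hf : ConvexOn ℝ univ f) {s s' e : ℝ} (he : 0 ≤ e) (hs : s ≤ s') :
    f (s + e) - f s ≤ f (s' + e) - f s' := by
  rcases eq_or_lt_of_le hs with rfl | hs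
  · exact le_rfl
  rcases eq_or_lt_of_le he with rfl | he
  · simp
  have hD : 0 < s' - s + e := by linarith only [hs, he]
  have hA : 0 ≤ e / (s' - s + e) := by positivity
  have hB : 0 ≤ (s' - s) / (s' - s + e) := div_nonneg (by linarith only [hs]) hD.le
  have hAB : e / (s' - s + e) + (s' - s) / (s' - s + e) = 1 := by
    rw [← add_div, add_comm]; exact div_self hD.ne'
  have h1 := hf.2 (mem_univ s) (mem_univ (s' + e)) hA hB hAB
  have h2 := hf.2 (mem_univ s) (mem_univ (s' + e)) hB hA (by rw [add_comm]; exact hAB)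
  simp only [smul_eq_mul] at h1 h2
  have e1 : e / (s' - s + e) * s + (s' - s) / (s' - s + e) * (s' + e) = s' := by
    field_simp; ring
  have e2 : (s' - s) / (s' - s + e) * s + e / (s' - s + e) * (s' + e) = s + e := by
    field_simp; ring
  rw [e1] at h1
  rw [e2] at h2
  set A := e / (s' - s + e)
  set B := (s' - s) / (s' - s + e)
  have h3 : f s' + f (s + e) ≤ (A + B) * f s + (A + B) * f (s' + e) := by linarith only [h1, h2]
  rw [hAB] at h3
  linarith only [h3]

lemma gauss_le : gaussianReal 0 1 ≤ ENNReal.ofReal (2 / 5) • (volume : Measure ℝ) := by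
  rw [gaussianReal_of_var_ne_zero 0 one_ne_zero, ← withDensity_const]
  refine withDensity_mono (Filter.Eventually.of_forall fun x => ?_)
  unfold gaussianPDF
  refine ENNReal.ofReal_le_ofReal ?_
  unfold gaussianPDFReal
  have h1 : Real.exp (-(x - 0) ^ 2 / (2 * ((1 : NNReal) : ℝ))) ≤ 1 := by
    refine Real.exp_le_one_iff.2 ?_
    have : 0 ≤ (x - 0) ^ 2 := sq_nonneg _
    simp only [NNReal.coe_one, mul_one]
    linarith only [this]
  have h2 : (5 / 2 : ℝ) ≤ Real.sqrt (2 * Real.pi * ((1 : NNReal) : ℝ)) := by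
    refine Real.le_sqrt_of_sq_le ?_
    have := Real.pi_gt_d2
    norm_num
    linarith only [this]
  have h3 : (Real.sqrt (2 * Real.pi * ((1 : NNReal) : ℝ)))⁻¹ ≤ 2 / 5 := by
    rw [inv_le_comm₀ (by linarith only [h2]) (by norm_num)]
    norm_num
    norm_num at h2
    exact h2
  calc _ ≤ (Real.sqrt (2 * Real.pi * ((1 : NNReal) : ℝ)))⁻¹ * 1 :=
        mul_le_mul_of_nonneg_left h1 (by positivity)
    _ ≤ _ := by linarith only [h3]

lemma lint_le {h : ℝ → ℝ≥0∞} :
    ∫⁻ s, h s ∂(gaussianReal 0 1) ≤ ENNReal.ofReal (2 / 5) * ∫⁻ s, h s := by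
  calc _ ≤ ∫⁻ s, h s ∂(ENNReal.ofReal (2 / 5) • (volume : Measure ℝ)) :=
        lintegral_mono' gauss_le le_rfl
    _ = _ := by rw [lintegral_smul_measure, smul_eq_mul]

lemma tri_right {c p q : ℝ} (hc : 0 ≤ c) (hpq : p ≤ q) :
    ∫⁻ s in Icc p q, ENNReal.ofReal (c * (q - s)) = ENNReal.ofReal (c * (q - p) ^ 2 / 2) := by
  rw [← ofReal_integral_eq_lintegral_ofReal]
  · congr 1
    rw [integral_Icc_eq_integral_Ioc, ← intervalIntegral.integral_of_le hpq]
    rw [intervalIntegral.integral_const_mul, intervalIntegral.integral_sub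
      (by simp) (by simp)]
    simp only [intervalIntegral.integral_const, smul_eq_mul, integral_id]
    ring
  · exact (by fun_prop : Continuous fun s : ℝ => c * (q - s)).continuousOn.integrableOn_Icc
  · refine (ae_restrict_iff' measurableSet_Icc).2 (Filter.Eventually.of_forall fun s hs => ?_)
    exact mul_nonneg hc (by linarith [hs.2])

lemma tri_left {c p q : ℝ} (hc : 0 ≤ c) (hpq : p ≤ q) :
    ∫⁻ s in Icc p q, ENNReal.ofReal (c * (s - p)) = ENNReal.ofReal (c * (q - p) ^ 2 / 2) := by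
  rw [← ofReal_integral_eq_lintegral_ofReal]
  · congr 1
    rw [integral_Icc_eq_integral_Ioc, ← intervalIntegral.integral_of_le hpq]
    rw [intervalIntegral.integral_const_mul, intervalIntegral.integral_sub
      (by simp) (by simp)]
    simp only [integral_id, intervalIntegral.integral_const, smul_eq_mul]
    ring
  · exact (by fun_prop : Continuous fun s : ℝ => c * (s - p)).continuousOn.integrableOn_Icc
  · refine (ae_restrict_iff' measurableSet_Icc).2 (Filter.Eventually.of_forall fun s hs => ?_)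
    exact mul_nonneg hc (by linarith only [hs.1])

/-- the comparison of loss and gain -/
lemma gain_ge {c δ a : ℝ} (hc : 0 ≤ c) (hδ : 0 ≤ δ) (hδ1 : δ ≤ 3 / 10) :
    ENNReal.ofReal (2 / 5 * (c * (2 * δ) ^ 2 / 2))
      ≤ ∫⁻ s, (Icc a (a + 4 * δ))ᶜ.indicator (fun _ => ENNReal.ofReal (c * δ / 2)) s
          ∂(gaussianReal 0 1) := by
  rw [lintegral_indicator_const measurableSet_Icc.compl]
  have h1 : gaussianReal 0 1 (Icc a (a + 4 * δ)) ≤ ENNReal.ofReal (8 / 5 * δ) := by
    calc _ ≤ (ENNReal.ofReal (2 / 5) • (volume : Measure ℝ)) (Icc a (a + 4 * δ)) := gauss_le _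
      _ = ENNReal.ofReal (2 / 5) * ENNReal.ofReal (4 * δ) := by
          rw [Measure.smul_apply, Real.volume_Icc, smul_eq_mul]
          congr 2; ring
      _ = _ := by rw [← ENNReal.ofReal_mul (by norm_num)]; congr 1; ring
  have h2 : ENNReal.ofReal (1 - 8 / 5 * δ) ≤ gaussianReal 0 1 (Icc a (a + 4 * δ))ᶜ := by
    rw [prob_compl_eq_one_sub measurableSet_Icc, ENNReal.ofReal_sub _ (by positivity),
      ENNReal.ofReal_one]
    exact tsub_le_tsub_left h1 1
  calc _ ≤ ENNReal.ofReal (c * δ / 2 * (1 - 8 / 5 * δ)) := by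
        refine ENNReal.ofReal_le_ofReal ?_
        have : 0 ≤ c * δ := mul_nonneg hc hδ
        nlinarith only [hδ1, this]
    _ = ENNReal.ofReal (c * δ / 2) * ENNReal.ofReal (1 - 8 / 5 * δ) := by
        rw [ENNReal.ofReal_mul (by positivity)]
    _ ≤ _ := by gcongr

/-- abstract comparison -/
lemma compare {f g : ℝ → ℝ} {δ c p k : ℝ} (hδ : 0 ≤ δ) (hδ1 : δ ≤ 3 / 10) (hc : 0 ≤ c)
    {ℓ : ℝ → ℝ}
    (hℓ : ∫⁻ s in Icc p (p + 2 * δ), ENNReal.ofReal (ℓ s) = ENNReal.ofReal (c * (2 * δ) ^ 2 / 2))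
    (hℓm : Measurable ℓ)
    (hg0 : ∀ s, s ∉ Icc (p - δ + k) (p - δ + k + 4 * δ) →
      ∃ z, 0 ≤ z ∧ g s ≤ z ∧ z + c * δ / 2 ≤ f s)
    (hg1 : ∀ s, s ∈ Icc (p - δ + k) (p - δ + k + 4 * δ) → s ∉ Icc p (p + 2 * δ) → g s ≤ f s)
    (hg2 : ∀ s, s ∈ Icc (p - δ + k) (p - δ + k + 4 * δ) → s ∈ Icc p (p + 2 * δ) →
      g s ≤ f s + ℓ s) :
    ∫⁻ s, ENNReal.ofReal (g s) ∂(gaussianReal 0 1)
      ≤ ∫⁻ s, ENNReal.ofReal (f s) ∂(gaussianReal 0 1) := by
  set G : ℝ → ℝ≥0∞ := (Icc (p - δ + k) (p - δ + k + 4 * δ))ᶜ.indicator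
    (fun _ => ENNReal.ofReal (c * δ / 2)) with hG
  set L : ℝ → ℝ≥0∞ := (Icc p (p + 2 * δ)).indicator (fun s => ENNReal.ofReal (ℓ s)) with hL
  have hGm : Measurable G := measurable_const.indicator measurableSet_Icc.compl
  have hLm : Measurable L := hℓm.ennreal_ofReal.indicator measurableSet_Icc
  have hpt : ∀ s, ENNReal.ofReal (g s) + G s ≤ ENNReal.ofReal (f s) + L s := by
    intro s
    by_cases hs : s ∈ Icc (p - δ + k) (p - δ + k + 4 * δ)
    · have hGs : G s = 0 := by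
        rw [hG, indicator_of_notMem (by simpa only [mem_compl_iff, mem_Icc, not_and, not_le, Classical.not_imp, not_lt] using hs)]
      rw [hGs, add_zero]
      by_cases hs' : s ∈ Icc p (p + 2 * δ)
      · rw [hL, indicator_of_mem hs']
        exact (ENNReal.ofReal_le_ofReal (hg2 s hs hs')).trans ENNReal.ofReal_add_le
      · exact (ENNReal.ofReal_le_ofReal (hg1 s hs hs')).trans le_self_add
    · obtain ⟨z, hz, hz1, hz2⟩ := hg0 s hs
      have hGs : G s = ENNReal.ofReal (c * δ / 2) := by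
        rw [hG, indicator_of_mem (by simpa only [mem_compl_iff, mem_Icc, not_and, not_le] using hs)]
      rw [hGs]
      calc _ ≤ ENNReal.ofReal z + ENNReal.ofReal (c * δ / 2) := by
            (clear * - hz1; gcongr)
        _ = ENNReal.ofReal (z + c * δ / 2) := by
            rw [← ENNReal.ofReal_add hz (by (clear * - hc hδ; positivity))]
        _ ≤ ENNReal.ofReal (f s) := ENNReal.ofReal_le_ofReal hz2
        _ ≤ _ := le_self_add
  have hint : ∫⁻ s, ENNReal.ofReal (g s) ∂(gaussianReal 0 1) + ∫⁻ s, G s ∂(gaussianReal 0 1)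
      ≤ ∫⁻ s, ENNReal.ofReal (f s) ∂(gaussianReal 0 1) + ∫⁻ s, L s ∂(gaussianReal 0 1) := by
    rw [← lintegral_add_right _ hGm, ← lintegral_add_right _ hLm]
    exact lintegral_mono hpt
  have hLle : ∫⁻ s, L s ∂(gaussianReal 0 1) ≤ ENNReal.ofReal (2 / 5 * (c * (2 * δ) ^ 2 / 2)) := by
    refine lint_le.trans ?_
    rw [hL, lintegral_indicator measurableSet_Icc, hℓ, ← ENNReal.ofReal_mul (by norm_num)]
  have hLG : ∫⁻ s, L s ∂(gaussianReal 0 1) ≤ ∫⁻ s, G s ∂(gaussianReal 0 1) :=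
    hLle.trans (gain_ge hc hδ hδ1)
  have hGfin : ∫⁻ s, G s ∂(gaussianReal 0 1) ≠ ∞ := by
    rw [hG, lintegral_indicator_const measurableSet_Icc.compl]
    exact ENNReal.mul_ne_top ENNReal.ofReal_ne_top (measure_ne_top _ _)
  have := hint.trans (add_le_add_right hLG _)
  exact ENNReal.le_of_add_le_add_right hGfin this

end OneD

open OneD in
/-- **The one dimensional inequality.** -/
theorem one_dim {f g : ℝ → ℝ} (hf : ConvexOn ℝ Set.univ f) (hf0 : ∀ x, 0 ≤ f x) {δ y : ℝ}
    (hδ : 0 ≤ δ) (hδ1 : δ ≤ 3 / 10) (hy : |y| ≤ 1 / 2)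
    (hg : ∀ s, ∀ τ ∈ Set.Icc (-2 : ℝ) 2,
      g s ≤ max (f (s + (τ - 1) * δ)) (f (s + (τ + 1) * δ))) :
    ∫⁻ s, ENNReal.ofReal (g (s - y * δ)) ∂(gaussianReal 0 1)
      ≤ ∫⁻ s, ENNReal.ofReal (f s) ∂(gaussianReal 0 1) := by
  obtain ⟨hy1, hy2⟩ := abs_le.1 hy
  rcases eq_or_lt_of_le hδ with rfl | hδpos
  · refine lintegral_mono fun s => ENNReal.ofReal_le_ofReal ?_
    have := hg s 0 ⟨by norm_num, by norm_num⟩
    simpa only [mul_zero, sub_zero, ge_iff_le, zero_sub, add_zero, zero_add, max_self] using this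
  by_cases hb : ∀ s, f s < f (s + 2 * δ)
  · refine lintegral_mono fun s => ENNReal.ofReal_le_ofReal ?_
    have h1 := hg (s - y * δ) (y - 1) ⟨by linarith only [hy1], by linarith only [hy2]⟩
    have h2 := hb (s - 2 * δ)
    have e1 : s - y * δ + (y - 1 - 1) * δ = s - 2 * δ := by ring
    have e2 : s - y * δ + (y - 1 + 1) * δ = s := by ring
    have e3 : s - 2 * δ + 2 * δ = s := by ring
    rw [e1, e2] at h1
    rw [e3] at h2
    exact h1.trans (max_le h2.le le_rfl)
  by_cases hb' : ∀ s, f (s + 2 * δ) < f s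
  · refine lintegral_mono fun s => ENNReal.ofReal_le_ofReal ?_
    have h1 := hg (s - y * δ) (y + 1) ⟨by linarith only [hy1], by linarith only [hy2]⟩
    have h2 := hb' s
    have e1 : s - y * δ + (y + 1 - 1) * δ = s := by ring
    have e2 : s - y * δ + (y + 1 + 1) * δ = s + 2 * δ := by ring
    rw [e1, e2] at h1
    exact h1.trans (max_le le_rfl h2.le)
  have hcont : Continuous f := by
    rw [← continuousOn_univ]
    exact hf.continuousOn isOpen_univ
  simp only [not_forall, not_lt] at hb hb'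
  obtain ⟨s1, hs1⟩ := hb
  obtain ⟨s2, hs2⟩ := hb'
  obtain ⟨p, hp⟩ : (0 : ℝ) ∈ Set.range (fun s => f (s + 2 * δ) - f s) :=
    mem_range_of_exists_le_of_exists_ge (by fun_prop) ⟨s1, by linarith only [hs1]⟩ ⟨s2, by linarith only [hs2]⟩
  have hpq : f (p + 2 * δ) = f p := by simp only at hp; linarith only [hp]
  set q := p + 2 * δ with hq
  obtain ⟨α, hα⟩ := exists_subgrad hf q
  obtain ⟨β', hβ'⟩ := exists_subgrad hf p
  obtain ⟨β, rfl⟩ : ∃ β, β' = -β := ⟨-β', by ring⟩
  have hβ : ∀ x, f p + β * (p - x) ≤ f x := fun x => by linarith only [hβ' x]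
  have hα0 : 0 ≤ α := by
    have := hα p
    nlinarith only [hδpos, hp, this]
  have hβ0 : 0 ≤ β := by
    have := hβ q
    nlinarith only [hδpos, hp, this]
  -- outside [p, q] the function is at least `f p`
  have hout : ∀ s, s ∉ Icc p q → f p ≤ f s := by
    intro s hs
    rcases lt_or_ge s p with h | h
    · have := hβ s
      nlinarith only [hβ0, h, this]
    · have h' : q < s := by
        by_contra hcon
        exact hs ⟨h, by linarith only [hcon]⟩
      have := hα s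
      nlinarith only [hp, hα0, h', this]
  -- the middle region
  have hmid : ∀ s, s ∈ Icc (p - δ + y * δ) (p - δ + y * δ + 4 * δ) → g (s - y * δ) ≤ f p := by
    intro s hs
    have h1 := hg (s - y * δ) ((p - (s - y * δ)) / δ + 1) (by
      constructor
      · rw [← sub_le_iff_le_add, le_div_iff₀ hδpos]; linarith only [hs.2]
      · rw [← le_sub_iff_add_le, div_le_iff₀ hδpos]; linarith only [hs.1])
    have e1 : s - y * δ + ((p - (s - y * δ)) / δ + 1 - 1) * δ = p := by
      field_simp; ring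
    have e2 : s - y * δ + ((p - (s - y * δ)) / δ + 1 + 1) * δ = q := by
      rw [hq]; field_simp; ring
    rw [e1, e2, hpq, max_self] at h1
    exact h1
  -- the outer region
  have houter : ∀ c, c ≤ α → c ≤ β → 0 ≤ c →
      ∀ s, s ∉ Icc (p - δ + y * δ) (p - δ + y * δ + 4 * δ) →
      ∃ z, 0 ≤ z ∧ g (s - y * δ) ≤ z ∧ z + c * δ / 2 ≤ f s := by
    intro c hcα hcβ hc0 s hs
    rcases lt_or_ge s (p - δ + y * δ) with h | h
    · refine ⟨f (s - y * δ + δ), hf0 _, ?_, ?_⟩
      · have h1 := hg (s - y * δ) 2 ⟨by norm_num, le_rfl⟩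
        have e1 : s - y * δ + (2 - 1) * δ = s - y * δ + δ := by ring
        have e2 : s - y * δ + (2 + 1) * δ = s - y * δ + δ + 2 * δ := by ring
        rw [e1, e2] at h1
        have h2 := diff_mono hf (s := s - y * δ + δ) (s' := p) (e := 2 * δ) (by linarith only [hδpos])
          (by linarith only [h])
        refine h1.trans (max_le le_rfl ?_)
        rw [← hq, hpq] at h2
        linarith only [h2]
      · have h2 := incr_left hf hβ (x := s) (x' := s - y * δ + δ) (by linarith only [h]) (by nlinarith only [hy2, hδpos])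
        have h3 : c * δ / 2 ≤ β * (s - y * δ + δ - s) := by
          have h4 : δ / 2 ≤ s - y * δ + δ - s := by nlinarith only [hδ, hy2]
          calc c * δ / 2 = c * (δ / 2) := by ring
            _ ≤ β * (s - y * δ + δ - s) := by
              refine mul_le_mul hcβ h4 (by linarith only [hδpos]) hβ0
        linarith only [h2, h3]
    · have h' : p - δ + y * δ + 4 * δ < s := by
        by_contra hcon
        exact hs ⟨h, by linarith only [hcon]⟩
      refine ⟨f (s - y * δ - δ), hf0 _, ?_, ?_⟩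
      · have h1 := hg (s - y * δ) (-2) ⟨le_rfl, by norm_num⟩
        have e1 : s - y * δ + (-2 - 1) * δ = s - y * δ - 3 * δ := by ring
        have e2 : s - y * δ + (-2 + 1) * δ = s - y * δ - δ := by ring
        rw [e1, e2] at h1
        have h2 := diff_mono hf (s := p) (s' := s - y * δ - 3 * δ) (e := 2 * δ) (by linarith only [hδpos])
          (by linarith only [h'])
        refine h1.trans (max_le ?_ le_rfl)
        have e3 : s - y * δ - 3 * δ + 2 * δ = s - y * δ - δ := by ring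
        rw [← hq, hpq, e3] at h2
        linarith only [h2]
      · have h2 := incr_right hf hα (x := s - y * δ - δ) (x' := s) (by rw [hq]; linarith only [h'])
          (by nlinarith only [hy1, hδpos])
        have h3 : c * δ / 2 ≤ α * (s - (s - y * δ - δ)) := by
          have h4 : δ / 2 ≤ s - (s - y * δ - δ) := by nlinarith only [hδ, hy1]
          calc c * δ / 2 = c * (δ / 2) := by ring
            _ ≤ α * (s - (s - y * δ - δ)) := by
              refine mul_le_mul hcα h4 (by linarith only [hδpos]) hα0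
        linarith only [h2, h3]
  rcases le_total α β with hαβ | hαβ
  · have htri := tri_right (c := α) (p := p) (q := p + 2 * δ) hα0 (by linarith only [hδpos])
    rw [show p + 2 * δ - p = 2 * δ by ring] at htri
    refine compare (f := f) (g := fun s => g (s - y * δ)) (c := α) (p := p) (k := y * δ)
      hδ hδ1 hα0 (ℓ := fun s => α * (p + 2 * δ - s)) htri (by fun_prop)
      (houter α le_rfl hαβ hα0) (fun s hs hs' => (hmid s hs).trans (hout s hs'))
      (fun s hs _ => (hmid s hs).trans ?_)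
    have := hα s
    rw [hpq] at this
    rw [← hq]
    linarith only [this]
  · have htri := tri_left (c := β) (p := p) (q := p + 2 * δ) hβ0 (by linarith only [hδpos])
    rw [show p + 2 * δ - p = 2 * δ by ring] at htri
    refine compare (f := f) (g := fun s => g (s - y * δ)) (c := β) (p := p) (k := y * δ)
      hδ hδ1 hβ0 (ℓ := fun s => β * (s - p)) htri (by fun_prop)
      (houter β hαβ le_rfl hβ0) (fun s hs hs' => (hmid s hs).trans (hout s hs'))
      (fun s hs _ => (hmid s hs).trans ?_)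
    have := hβ s
    linarith only [this]

end Vale.Agent.P262.Sqrt
end
end

section

section

namespace Vale.Agent.P262.Sqrt

/-- **TOOL**. -/
theorem toolProp : ToolProp :=
  toolProp_of_oneDim (fun _ _ hf hf0 _ _ _ _ hδ hδ1 hy hg => one_dim hf hf0 hδ hδ1 hy hg)

end Vale.Agent.P262.Sqrt
end
end

section

section

open scoped ENNReal BigOperators

namespace Vale.Agent.P262

theorem partialSum_eq_take {d N : ℕ} (v : Fin N → EuclideanSpace ℝ (Fin d)) (k : ℕ) :
    partialSum v k = ((List.ofFn v).take k).sum := by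
  unfold partialSum
  rw [List.sum_take_ofFn]

theorem steinitz_le_of_lists (d : ℕ) (R : ℝ)
    (h : ∀ (N : ℕ) (v : Fin N → EuclideanSpace ℝ (Fin d)), (∀ i, ‖v i‖ ≤ 1) → ∑ i, v i = 0 →
      ∃ l : List (Fin N), l.Nodup ∧ (∀ i, i ∈ l) ∧ ∀ k, ‖((l.take k).map v).sum‖ ≤ R) :
    steinitzConst d ≤ ENNReal.ofReal R := by
  unfold steinitzConst
  refine iSup_le fun N => iSup_le fun v => iSup_le fun hv => iSup_le fun h0 => ?_
  obtain ⟨l, hnd, hmem, hk⟩ := h N v hv h0
  have hlen : l.length = N := by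
    have h1 := List.toFinset_card_of_nodup hnd
    have h2 : l.toFinset = Finset.univ := by
      ext i; simp only [List.mem_toFinset, hmem i, Finset.mem_univ]
    rw [h2] at h1
    simpa only [Finset.card_univ, Fintype.card_fin] using h1.symm
  let e : Equiv.Perm (Fin N) :=
    (finCongr hlen.symm).trans (List.Nodup.getEquivOfForallMemList l hnd hmem)
  have he : ∀ i : Fin N, e i = l.get (Fin.cast hlen.symm i) := fun i => rfl
  unfold beta
  refine (iInf_le _ e).trans (iSup_le fun k => ?_)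
  rw [partialSum_eq_take]
  have h3 : List.ofFn (fun i => v (e i)) = l.map v := by
    apply List.ext_getElem
    · simp [hlen]
    · intro i h1 h2
      simp [he]
  rw [h3, ← List.map_take]
  rw [← ofReal_norm]
  exact ENNReal.ofReal_le_ofReal (hk k.val)

end Vale.Agent.P262
end
end

section

section

open scoped ENNReal BigOperators

namespace Vale.Agent.P262

theorem inner_sum_map {E ι : Type*} [NormedAddCommGroup E] [InnerProductSpace ℝ E]
    (v : ι → E) (u : E) (l : List ι) :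
    inner ℝ u (l.map v).sum = (l.map (fun k => inner ℝ u (v k))).sum := by
  induction l with
  | nil => simp
  | cons a l ih => simp only [List.map_cons, List.sum_cons, inner_add_right, ih]

/-- Coordinates form of an ordering statement implies the norm form. -/
theorem norm_take_le_of_coords {n : ℕ} {ι : Type} (v : ι → EuclideanSpace ℝ (Fin n))
    (u : OrthonormalBasis (Fin n) ℝ (EuclideanSpace ℝ (Fin n))) (B : ℝ) (l : List ι)
    (h : ∑ i, ((l.map (fun k => inner ℝ (u i) (v k))).sum) ^ 2 ≤ B) :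
    ‖(l.map v).sum‖ ≤ Real.sqrt B := by
  apply Real.le_sqrt_of_sq_le
  have h1 : ‖(l.map v).sum‖ ^ 2 = ∑ i, (inner ℝ (u i) (l.map v).sum) ^ 2 := by
    rw [← u.sum_sq_norm_inner_right]
    simp only [Real.norm_eq_abs, sq_abs]
  rw [h1]
  refine le_trans (le_of_eq ?_) h
  refine Finset.sum_congr rfl fun i _ => ?_
  rw [inner_sum_map]

end Vale.Agent.P262
end
end

section

section

/-! Final assembly of the proof of `S_2(d) = O(√d)`. -/

open scoped BigOperators ENNReal

namespace Vale.Agent.P262.Sqrt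

open Vale.Agent.P262

/-- The coordinate core and the eigenbasis give the bound on the Steinitz constant. -/
theorem final_of_core (hE : EigenProp) (hC : CoreProp) :
    ∃ C : ℝ, 0 ≤ C ∧ ∀ n : ℕ, 1 ≤ n →
      steinitzConst n ≤ ENNReal.ofReal (C * Real.sqrt n) := by
  obtain ⟨C, hC0, hC⟩ := hC
  refine ⟨Real.sqrt C, Real.sqrt_nonneg _, fun n hn => ?_⟩
  apply steinitz_le_of_lists
  intro N v hv h0
  obtain ⟨u, lam, hmono, hlam, horth⟩ := hE n (Fin N) v
  obtain ⟨l, h1, h2, h3⟩ := hC n hn (Fin N) (fun k i => inner ℝ (u i) (v k)) lam hmono hlam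
    (by
      intro k
      have h1 : ∑ i, (inner ℝ (u i) (v k)) ^ 2 = ‖v k‖ ^ 2 := by
        rw [← u.sum_sq_norm_inner_right]
        simp only [Real.norm_eq_abs, sq_abs]
      rw [h1]
      have := hv k
      have h2 := norm_nonneg (v k)
      nlinarith only [this, h2])
    (by
      intro i
      rw [← inner_sum, h0, inner_zero_right])
    (by
      intro i i'
      rw [← horth i i']
      refine Finset.sum_congr rfl fun k _ => ?_
      rw [real_inner_comm (v k) (u i), real_inner_comm (v k) (u i')])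
  refine ⟨l, h1, h2, fun m => ?_⟩
  rw [← Real.sqrt_mul hC0]
  exact norm_take_le_of_coords v u _ _ (h3 m)

end Vale.Agent.P262.Sqrt
end
end

section

section

/-!
# Module NODE: one super-split, from STAGE, TILT and UPDATE
-/

namespace Vale.Agent.P262.Sqrt

open Finset

/-! ### Folding -/

section Fold

variable {ι : Type} [DecidableEq ι]

/-- New positions after a fold: the positive part keeps its place, the negative part is
reversed behind. -/
noncomputable def fpos (K : ℕ) (pos : ι → ℕ) (s : ι → ℝ) (v : ι) : ℕ :=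
  if s v = 1 then pos v else 2 * K - 1 - pos v

theorem fpos_lt (K : ℕ) (pos : ι → ℕ) (s : ι → ℝ) (v : ι) (h : pos v < K) :
    fpos K pos s v < 2 * K := by
  unfold fpos
  split_ifs <;> omega

theorem fold_low (D : Finset ι) (K : ℕ) (pos : ι → ℕ) (s : ι → ℝ)
    (hs : ∀ v, s v = 1 ∨ s v = -1) (hpos : ∀ v ∈ D, pos v < K) (f : ι → ℝ) (j : ℕ) (hj : j ≤ K) :
    ∑ v ∈ D with fpos K pos s v < j, f v
      = (∑ v ∈ D with pos v < j, f v + ∑ v ∈ D with pos v < j, s v * f v) / 2 := by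
  rw [Finset.sum_filter, Finset.sum_filter, Finset.sum_filter, ← Finset.sum_add_distrib,
    Finset.sum_div]
  apply Finset.sum_congr rfl
  intro v hv
  have hp := hpos v hv
  rcases hs v with h | h
  · have e1 : fpos K pos s v = pos v := by simp [fpos, h]
    rw [e1]
    split_ifs
    · rw [h]; ring
    · ring
  · have hne : ¬ s v = 1 := by rw [h]; norm_num
    have e1 : fpos K pos s v = 2 * K - 1 - pos v := by simp only [fpos, if_neg hne]
    rw [e1, if_neg (by omega)]
    split_ifs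
    · rw [h]; ring
    · ring

theorem fold_high (D : Finset ι) (K : ℕ) (pos : ι → ℕ) (s : ι → ℝ)
    (hs : ∀ v, s v = 1 ∨ s v = -1) (hpos : ∀ v ∈ D, pos v < K) (f : ι → ℝ) (j : ℕ) (hj : j ≤ K) :
    ∑ v ∈ D with fpos K pos s v < 2 * K - j, f v
      = ∑ v ∈ D, f v
        - (∑ v ∈ D with pos v < j, f v - ∑ v ∈ D with pos v < j, s v * f v) / 2 := by
  rw [Finset.sum_filter, Finset.sum_filter, Finset.sum_filter, ← Finset.sum_sub_distrib,
    Finset.sum_div, ← Finset.sum_sub_distrib]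
  apply Finset.sum_congr rfl
  intro v hv
  have hp := hpos v hv
  rcases hs v with h | h
  · have e1 : fpos K pos s v = pos v := by simp [fpos, h]
    rw [e1, if_pos (by omega)]
    split_ifs
    · rw [h]; ring
    · ring
  · have hne : ¬ s v = 1 := by rw [h]; norm_num
    have e1 : fpos K pos s v = 2 * K - 1 - pos v := by simp only [fpos, if_neg hne]
    rw [e1]
    by_cases hj2 : pos v < j
    · rw [if_neg (by omega), if_pos hj2, if_pos hj2, h]
      ring
    · rw [if_pos (by omega), if_neg hj2, if_neg hj2]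
      ring

theorem block_low (D : Finset ι) (K : ℕ) (pos : ι → ℕ) (s : ι → ℝ)
    (hs : ∀ v, s v = 1 ∨ s v = -1) (hpos : ∀ v ∈ D, pos v < K) (j : ℕ) (hj : j < K) :
    D.filter (fun v => fpos K pos s v = j)
      = (D.filter (fun v => pos v = j)).filter (fun v => s v = 1) := by
  ext v
  simp only [Finset.mem_filter, and_assoc]
  constructor
  · rintro ⟨hv, h⟩
    have hp := hpos v hv
    unfold fpos at h
    split_ifs at h with h1
    · exact ⟨hv, h, h1⟩
    · omega
  · rintro ⟨hv, h, h1⟩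
    refine ⟨hv, ?_⟩
    unfold fpos
    rw [if_pos h1, h]

theorem block_high (D : Finset ι) (K : ℕ) (pos : ι → ℕ) (s : ι → ℝ)
    (hs : ∀ v, s v = 1 ∨ s v = -1) (hpos : ∀ v ∈ D, pos v < K) (j : ℕ) (hj : K ≤ j)
    (hj2 : j < 2 * K) :
    D.filter (fun v => fpos K pos s v = j)
      = (D.filter (fun v => pos v = 2 * K - 1 - j)).filter (fun v => s v = -1) := by
  ext v
  simp only [Finset.mem_filter, and_assoc]
  constructor
  · rintro ⟨hv, h⟩
    have hp := hpos v hv
    unfold fpos at h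
    split_ifs at h with h1
    · omega
    · refine ⟨hv, by omega, ?_⟩
      rcases hs v with h2 | h2
      · exact absurd h2 h1
      · exact h2
  · rintro ⟨hv, h, h1⟩
    have hp := hpos v hv
    refine ⟨hv, ?_⟩
    unfold fpos
    rw [if_neg (by rw [h1]; norm_num), h]
    omega

theorem half_block (U : Finset ι) (s x f : ι → ℝ) (hs : ∀ v, s v = 1 ∨ s v = -1) (g : ℝ)
    (hg : g = 1 ∨ g = -1) :
    ∑ v ∈ U.filter (fun v => s v = g), f v
      = (∑ v ∈ U, f v + g * (∑ v ∈ U, (s v - x v) * f v + ∑ v ∈ U, x v * f v)) / 2 := by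
  rw [Finset.sum_filter, ← Finset.sum_add_distrib, Finset.mul_sum, ← Finset.sum_add_distrib,
    Finset.sum_div]
  apply Finset.sum_congr rfl
  intro v _
  rcases hs v with h | h <;> rcases hg with h' | h' <;> rw [h, h']
  · rw [if_pos rfl]; ring
  · rw [if_neg (by norm_num)]; ring
  · rw [if_neg (by norm_num)]; ring
  · rw [if_pos rfl]; ring

theorem block_diff (D : Finset ι) (pos : ι → ℕ) (f : ι → ℝ) (j : ℕ) :
    ∑ v ∈ D with pos v = j, f v
      = ∑ v ∈ D with pos v ≤ j, f v - (if j = 0 then 0 else ∑ v ∈ D with pos v ≤ j - 1, f v) := by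
  rcases Nat.eq_zero_or_pos j with h | h
  · subst h
    rw [if_pos rfl, sub_zero]
    apply Finset.sum_congr _ (fun _ _ => rfl)
    ext v
    simp
  · rw [if_neg (by omega)]
    rw [Finset.sum_filter, Finset.sum_filter, Finset.sum_filter, ← Finset.sum_sub_distrib]
    apply Finset.sum_congr rfl
    intro v _
    by_cases h1 : pos v = j
    · rw [if_pos h1, if_pos (by omega), if_neg (by omega), sub_zero]
    · by_cases h2 : pos v ≤ j - 1
      · rw [if_neg h1, if_pos (by omega), if_pos h2, sub_self]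
      · rw [if_neg h1, if_neg (by omega), if_neg h2, sub_self]

end Fold

/-! ### Context -/

/-- The data and hypotheses of the node step. -/
structure NC (n : ℕ) (ι : Type) [Fintype ι] [DecidableEq ι] where
  w : ι → Fin n → ℝ
  D : Finset ι
  J : ℕ
  J' : ℕ
  R : ℕ
  wd : ℕ
  E : Fin n → ℝ
  Om : Fin n → ℝ
  a : Fin n → ℝ
  b : Fin n → ℝ
  N : ℝ
  N' : ℝ
  Q : ℝ
  hw : ∀ v ∈ D, ∑ i, (w v i) ^ 2 ≤ 1
  hJJ : J ≤ J'
  hJR : J' ≤ R
  hRn : R ≤ n
  hwd : 1 ≤ wd
  hN : 1 ≤ N
  hE : Monotone E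
  hE0 : ∀ i, 0 ≤ E i
  hOm : ∀ i, 0 ≤ Om i
  hQ : 0 ≤ Q
  hrich : ∀ i : Fin n, R ≤ i.val → (2 : ℝ) ^ 100 * (max N wd * rk J i) ^ 8 ≤ E i / 2 ^ wd
  hwin : (∑ i ∈ mid n J J', (2 * E i + N * (rk J i) ^ 2 + 2)) * (0.55 : ℝ) ^ wd ≤ 1
  hN' : ((J' : ℝ) - J + 1) ^ 2 * ((0.55 : ℝ) ^ wd * (N + 1000) + 150 * Real.sqrt wd) ≤ N'
  hbal : Bal J w E N D
  hq : ∑ v ∈ D, qv J Om w v ≤ Q
  hcard : 1000 ≤ D.card
  hb : ∀ i, b i = a i + ∑ v ∈ D, w v i

namespace NC

variable {n : ℕ} {ι : Type} [Fintype ι] [DecidableEq ι] (C : NC n ι)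

theorem qv_nonneg (v : ι) : 0 ≤ qv C.J C.Om C.w v :=
  Finset.sum_nonneg (fun i _ => mul_nonneg (C.hOm i) (sq_nonneg _))

theorem tv_nonneg (v : ι) : 0 ≤ tv C.J C.J' C.w v :=
  Finset.sum_nonneg (fun i _ => sq_nonneg _)

/-- heavy vectors -/
noncomputable def H : Finset ι := C.D.filter (fun v => C.Q / 1000 < qv C.J C.Om C.w v)

/-- light vectors -/
noncomputable def L : Finset ι := C.D \ C.H

theorem H_sub : C.H ⊆ C.D := Finset.filter_subset _ _

theorem L_sub : C.L ⊆ C.D := Finset.sdiff_subset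

theorem L_light (v : ι) (hv : v ∈ C.L) : qv C.J C.Om C.w v ≤ C.Q / 1000 := by
  unfold L H at hv
  simp only [Finset.mem_sdiff, Finset.mem_filter, not_and, not_lt] at hv
  exact hv.2 hv.1

theorem sum_HL (f : ι → ℝ) : ∑ v ∈ C.D, f v = ∑ v ∈ C.L, f v + ∑ v ∈ C.H, f v := by
  unfold L
  rw [Finset.sum_sdiff C.H_sub]

theorem sum_H_qv : ∑ v ∈ C.H, qv C.J C.Om C.w v ≤ C.Q := by
  refine le_trans ?_ C.hq
  exact Finset.sum_le_sum_of_subset_of_nonneg C.H_sub (fun v _ _ => C.qv_nonneg v)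

theorem sum_L_qv : ∑ v ∈ C.L, qv C.J C.Om C.w v ≤ C.Q := by
  refine le_trans ?_ C.hq
  exact Finset.sum_le_sum_of_subset_of_nonneg C.L_sub (fun v _ _ => C.qv_nonneg v)

theorem H_card : C.H.card ≤ 1000 := by
  by_contra hcon
  push Not at hcon
  have h1 : (C.H.card : ℝ) * (C.Q / 1000) ≤ ∑ v ∈ C.H, qv C.J C.Om C.w v := by
    have : ∑ _v ∈ C.H, (C.Q / 1000) = (C.H.card : ℝ) * (C.Q / 1000) := by simp only [sum_const, nsmul_eq_mul]
    rw [← this]
    apply Finset.sum_le_sum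
    intro v hv
    unfold H at hv
    simp only [Finset.mem_filter] at hv
    exact hv.2.le
  have h2 := C.sum_H_qv
  have h3 : (1001 : ℝ) ≤ C.H.card := by exact_mod_cast hcon
  have hQ := C.hQ
  rcases eq_or_lt_of_le hQ with h | h
  · -- Q = 0
    obtain ⟨v, hv⟩ := Finset.card_pos.mp (by omega : 0 < C.H.card)
    have h4 : qv C.J C.Om C.w v ≤ ∑ v ∈ C.H, qv C.J C.Om C.w v :=
      Finset.single_le_sum (f := fun v => qv C.J C.Om C.w v) (fun v _ => C.qv_nonneg v) hv
    unfold H at hv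
    simp only [Finset.mem_filter] at hv
    rw [← h] at hv h2
    linarith only [h2, h4, hv.2]
  · nlinarith only [h1, h2, h3, h]

theorem H_cardr : (C.H.card : ℝ) ≤ 1000 := by exact_mod_cast C.H_card

/-- the coefficient of the balance at stage `t` -/
noncomputable def at_ (t : ℕ) : ℝ := (0.55 : ℝ) ^ t * (C.N + 1000) + 150 * Real.sqrt C.wd

theorem sqrt_wd : 1 ≤ Real.sqrt C.wd := by
  rw [Real.one_le_sqrt]
  exact_mod_cast C.hwd

theorem at_nonneg (t : ℕ) : 0 ≤ C.at_ t := by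
  unfold at_
  have := C.hN
  have := C.sqrt_wd
  positivity

/-- Cauchy-Schwarz for one coordinate of a sum of vectors -/
theorem sum_sq_le (U : Finset ι) (f : ι → ℝ) : (∑ v ∈ U, f v) ^ 2 ≤ U.card * ∑ v ∈ U, (f v) ^ 2 :=
  sq_sum_le_card_mul_sum_sq

theorem rk_ge_one {J : ℕ} (i : Fin n) (hi : J ≤ i.val) : 1 ≤ rk J i := by
  unfold rk
  have : (J : ℝ) ≤ i.val := by exact_mod_cast hi
  linarith only [this]

theorem supp_sq (J : ℕ) (y : Fin n → ℝ) (hy : ∀ i : Fin n, i.val < J → y i = 0) :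
    ∑ i, (y i) ^ 2 ≤ ∑ i, (rk J i) ^ 2 * (y i) ^ 2 := by
  apply Finset.sum_le_sum
  intro i _
  by_cases h : i.val < J
  · rw [hy i h]
    simp
  · have h1 := rk_ge_one (J := J) i (not_lt.mp h)
    nlinarith only [h1, mul_nonneg (sub_nonneg.mpr h1) (sq_nonneg (y i))]

theorem bal_L : Bal C.J C.w C.E (C.N + 1000) C.L := by
  intro y hy
  have h1 := C.hbal y hy
  have h2 : MQ C.w C.D y = MQ C.w C.L y + MQ C.w C.H y := C.sum_HL _
  have h3 : 0 ≤ MQ C.w C.H y := Finset.sum_nonneg (fun v _ => sq_nonneg _)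
  have h4 : MQ C.w C.H y ≤ 1000 * ∑ i, (y i) ^ 2 := by
    have hcs : ∀ v ∈ C.H, (∑ i, C.w v i * y i) ^ 2 ≤ ∑ i, (y i) ^ 2 := by
      intro v hv
      refine le_trans (Finset.sum_mul_sq_le_sq_mul_sq _ _ _) ?_
      have h5 := C.hw v (C.H_sub hv)
      have h6 : 0 ≤ ∑ i, (y i) ^ 2 := Finset.sum_nonneg (fun i _ => sq_nonneg _)
      nlinarith only [h5, h6]
    calc MQ C.w C.H y ≤ ∑ _v ∈ C.H, ∑ i, (y i) ^ 2 := Finset.sum_le_sum hcs
      _ = C.H.card * ∑ i, (y i) ^ 2 := by simp only [sum_const, nsmul_eq_mul]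
      _ ≤ 1000 * ∑ i, (y i) ^ 2 := by
        apply mul_le_mul_of_nonneg_right C.H_cardr
        exact Finset.sum_nonneg (fun i _ => sq_nonneg _)
  have h5 := supp_sq C.J y hy
  rw [abs_le] at h1 ⊢
  constructor
  · nlinarith only [h2, h4, h5, h1.1]
  · nlinarith only [h2, h3, h4, h5, h1.2]

theorem rich_big (i : Fin n) (hi : C.R ≤ i.val) :
    1 ≤ rk C.J i ∧ (2 : ℝ) ^ 50 * (max C.N C.wd * rk C.J i) ^ 4 ≤ Real.sqrt (C.E i / 2 ^ C.wd) := by
  have h1 : 1 ≤ rk C.J i := rk_ge_one i (le_trans (le_trans C.hJJ C.hJR) hi)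
  refine ⟨h1, ?_⟩
  apply Real.le_sqrt_of_sq_le
  have h2 := C.hrich i hi
  calc ((2 : ℝ) ^ 50 * (max C.N C.wd * rk C.J i) ^ 4) ^ 2
      = (2 : ℝ) ^ 100 * (max C.N C.wd * rk C.J i) ^ 8 := by ring
    _ ≤ _ := h2

/-- total content of the coordinates that leave -/
noncomputable def T0 : ℝ := ∑ i ∈ mid n C.J C.J', (2 * C.E i + C.N * (rk C.J i) ^ 2 + 2)

theorem T0_nonneg : 0 ≤ C.T0 := by
  apply Finset.sum_nonneg
  intro i _
  have := C.hE0 i
  have := C.hN
  have : 0 ≤ C.N * (rk C.J i) ^ 2 := by positivity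
  linarith

theorem trace_L : ∑ v ∈ C.L, tv C.J C.J' C.w v ≤ C.T0 := by
  have h0 : ∑ v ∈ C.L, tv C.J C.J' C.w v ≤ ∑ v ∈ C.D, tv C.J C.J' C.w v :=
    Finset.sum_le_sum_of_subset_of_nonneg C.L_sub (fun v _ _ => C.tv_nonneg v)
  refine le_trans h0 ?_
  unfold tv T0
  rw [Finset.sum_comm]
  apply Finset.sum_le_sum
  intro i hi
  simp only [mid, Finset.mem_filter, Finset.mem_univ, true_and] at hi
  have h1 := C.hbal (Pi.single i 1) (by
    intro i' hi'
    rw [Pi.single_apply, if_neg]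
    intro h
    rw [h] at hi'
    omega)
  have h2 : MQ C.w C.D (Pi.single i 1) = ∑ v ∈ C.D, (C.w v i) ^ 2 := by
    unfold MQ
    apply Finset.sum_congr rfl
    intro v _
    congr 1
    simp only [Pi.single_apply, mul_ite, mul_one, mul_zero, sum_ite_eq', mem_univ, ↓reduceIte]
  have h3 : EQ C.E (Pi.single i 1) = C.E i := by
    unfold EQ
    simp only [Pi.single_apply, ite_pow, one_pow, ne_eq, OfNat.ofNat_ne_zero, not_false_eq_true, zero_pow, mul_ite, mul_one, mul_zero, sum_ite_eq', mem_univ, ↓reduceIte]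
  have h4 : ∑ i', (rk C.J i') ^ 2 * ((Pi.single i 1 : Fin n → ℝ) i') ^ 2 = (rk C.J i) ^ 2 := by
    simp only [Pi.single_apply, ite_pow, one_pow, ne_eq, OfNat.ofNat_ne_zero, not_false_eq_true, zero_pow, mul_ite, mul_one, mul_zero, sum_ite_eq', mem_univ, ↓reduceIte]
  have h5 : ∑ i', ((Pi.single i 1 : Fin n → ℝ) i') ^ 2 = 1 := by
    simp only [Pi.single_apply, ite_pow, one_pow, ne_eq, OfNat.ofNat_ne_zero, not_false_eq_true, zero_pow, sum_ite_eq', mem_univ, ↓reduceIte]
  rw [h2, h3, h4, h5, Real.sqrt_one, one_mul, abs_le] at h1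
  have h6 : Real.sqrt (C.E i) ≤ C.E i + 1 := by
    rw [Real.sqrt_le_left (by linarith only [C.hE0 i])]
    nlinarith only []
  linarith only [h6, h1.2]

/-- Invariants of the blocks at stage `t`. -/
structure BI (t : ℕ) (pos : ι → ℕ) : Prop where
  hpos : ∀ v ∈ C.L, pos v < 2 ^ t
  bal : ∀ j, j < 2 ^ t → Bal C.J C.w (fun i => C.E i / 2 ^ t) (C.at_ t)
    (C.L.filter (fun v => pos v = j))
  trace : ∀ j, j < 2 ^ t → ∑ v ∈ C.L.filter (fun v => pos v = j), tv C.J C.J' C.w v
    ≤ (0.55 : ℝ) ^ t * C.T0 + 150 * Real.sqrt C.wd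
  q : 1 ≤ t → ∀ j, j < 2 ^ t → ∑ v ∈ C.L.filter (fun v => pos v = j), qv C.J C.Om C.w v
    ≤ 0.57 * C.Q
  card : 1 ≤ t → ∀ j, j < 2 ^ t → (C.L.filter (fun v => pos v = j)).card < C.D.card

theorem BI_zero : C.BI 0 (fun _ => 0) := by
  have hf : ∀ j, j < 2 ^ 0 → C.L.filter (fun _ => 0 = j) = C.L := by
    intro j hj
    have : j = 0 := by simpa using hj
    subst this
    simp
  refine ⟨?_, ?_, ?_, ?_, ?_⟩
  · intro v _
    simp
  · intro j hj
    rw [hf j hj]
    have h1 : (fun i => C.E i / 2 ^ 0) = C.E := by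
      funext i
      simp
    rw [h1]
    intro y hy
    refine le_trans (C.bal_L y hy) ?_
    apply add_le_add_left
    apply mul_le_mul_of_nonneg_right
    · unfold at_
      have := C.sqrt_wd
      simp only [pow_zero, one_mul]
      linarith only [this]
    · apply Finset.sum_nonneg
      intro i _
      (clear * -; positivity)
  · intro j hj
    rw [hf j hj]
    have := C.trace_L
    have := C.sqrt_wd
    simp only [pow_zero, one_mul]
    (clear hf j hj; linarith)
  · intro h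
    omega
  · intro h
    omega

end NC

end Vale.Agent.P262.Sqrt
end
end

section

section

namespace Vale.Agent.P262.Sqrt

open Finset

theorem sum_inv_sq_aux (J m : ℕ) :
    ∑ k ∈ Finset.range m, (if J ≤ k then 1 / ((k : ℝ) - J + 1) ^ 2 else 0)
      ≤ if J ≤ m then 2 - 2 / ((m : ℝ) - J + 1) else 0 := by
  induction m with
  | zero =>
    simp only [Finset.range_zero, Finset.sum_empty]
    split_ifs with h
    · have : J = 0 := by omega
      subst this
      norm_num
    · exact le_refl _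
  | succ m ih =>
    rw [Finset.sum_range_succ]
    by_cases h : J ≤ m
    · rw [if_pos h] at ih ⊢
      rw [if_pos (by omega)]
      have h1 : (J : ℝ) ≤ m := by exact_mod_cast h
      have h2 : (0 : ℝ) < (m : ℝ) - J + 1 := by linarith only [h1]
      have h3 : (0 : ℝ) < ((m + 1 : ℕ) : ℝ) - J + 1 := by
        push_cast
        linarith only [h1]
      have h4 : 1 / ((m : ℝ) - J + 1) ^ 2 ≤ 2 / ((m : ℝ) - J + 1)
          - 2 / (((m + 1 : ℕ) : ℝ) - J + 1) := by
        push_cast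
        push_cast at h3
        rw [div_sub_div _ _ h2.ne' h3.ne', div_le_div_iff₀ (by positivity) (by positivity)]
        nlinarith only [h1]
      linarith only [ih, h4]
    · by_cases h' : J ≤ m + 1
      · have hJ : J = m + 1 := by omega
        rw [if_neg h] at ih ⊢
        rw [if_pos h']
        have e : ((m + 1 : ℕ) : ℝ) - J + 1 = 1 := by
          rw [hJ]
          ring
        rw [e]
        linarith only [ih]
      · rw [if_neg h] at ih ⊢
        rw [if_neg h']
        linarith only [ih]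

theorem sum_inv_sq (n J R : ℕ) (hJR : J ≤ R) :
    ∑ i ∈ hi n R, 1 / (rk J i) ^ 2 ≤ 2 := by
  have h0 : ∑ i ∈ hi n R, 1 / (rk J i) ^ 2 ≤ ∑ i ∈ hi n J, 1 / (rk J i) ^ 2 := by
    apply Finset.sum_le_sum_of_subset_of_nonneg
    · intro i hi'
      simp only [hi, Finset.mem_filter, Finset.mem_univ, true_and] at hi' ⊢
      omega
    · intro i _ _
      (clear * -; positivity)
  refine le_trans h0 ?_
  have h1 : ∑ i ∈ hi n J, 1 / (rk J i) ^ 2
      = ∑ k ∈ Finset.range n, (if J ≤ k then 1 / ((k : ℝ) - J + 1) ^ 2 else 0) := by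
    rw [← Fin.sum_univ_eq_sum_range (fun k => if J ≤ k then 1 / ((k : ℝ) - J + 1) ^ 2 else 0) n]
    unfold hi rk
    rw [Finset.sum_filter]
  rw [h1]
  refine le_trans (sum_inv_sq_aux J n) ?_
  split_ifs with h
  · have : (J : ℝ) ≤ n := by exact_mod_cast h
    have : (0 : ℝ) ≤ 2 / ((n : ℝ) - J + 1) := by
      apply div_nonneg (by norm_num)
      linarith only [this]
    linarith only [this]
  · norm_num

namespace NC

variable {n : ℕ} {ι : Type} [Fintype ι] [DecidableEq ι] (C : NC n ι)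

theorem hJR' : C.J ≤ C.R := le_trans C.hJJ C.hJR

theorem at_le (t : ℕ) : C.at_ t ≤ 1151 * max C.N C.wd := by
  unfold at_
  have h1 : (0.55 : ℝ) ^ t ≤ 1 := pow_le_one₀ (by norm_num) (by norm_num)
  have hN := C.hN
  have hwd : (1 : ℝ) ≤ C.wd := by exact_mod_cast C.hwd
  have h2 : Real.sqrt C.wd ≤ C.wd := by
    rw [Real.sqrt_le_left (by linarith only [hwd])]
    nlinarith only [hwd]
  have h3 := le_max_left C.N (C.wd : ℝ)
  have h4 := le_max_right C.N (C.wd : ℝ)
  have h5 : (0.55 : ℝ) ^ t * (C.N + 1000) ≤ 1 * (C.N + 1000) :=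
    mul_le_mul_of_nonneg_right h1 (by linarith only [hN])
  nlinarith only [hN, h2, h3, h4, h5]

theorem rich_conditions (t : ℕ) (ht : t ≤ C.wd) (i : Fin n) (hi : C.R ≤ i.val) :
    1000000 ≤ C.E i / 2 ^ t ∧ C.at_ t * (rk C.J i) ^ 2 ≤ Real.sqrt (C.E i / 2 ^ t) := by
  obtain ⟨hr1, hbig⟩ := C.rich_big i hi
  have hN := C.hN
  set M := max C.N (C.wd : ℝ) with hM
  have hM1 : 1 ≤ M := le_trans hN (le_max_left _ _)
  set r := rk C.J i with hr
  have hmono : C.E i / 2 ^ C.wd ≤ C.E i / 2 ^ t := by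
    apply div_le_div_of_nonneg_left (C.hE0 i) (by positivity)
    exact pow_le_pow_right₀ (by norm_num) ht
  have hsq : Real.sqrt (C.E i / 2 ^ C.wd) ≤ Real.sqrt (C.E i / 2 ^ t) := Real.sqrt_le_sqrt hmono
  have hMr : 1 ≤ M * r := one_le_mul_of_one_le_of_one_le hM1 hr1
  constructor
  · have h1 := C.hrich i hi
    have h2 : (1 : ℝ) ≤ (M * r) ^ 8 := one_le_pow₀ hMr
    have h3 : (2 : ℝ) ^ 100 * 1 ≤ 2 ^ 100 * (M * r) ^ 8 :=
      mul_le_mul_of_nonneg_left h2 (by positivity)
    have h4 : (1000000 : ℝ) ≤ 2 ^ 100 * 1 := by norm_num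
    linarith only [hmono, h1, h2]
  · refine le_trans ?_ (le_trans hbig hsq)
    have h1 := C.at_le t
    have h2 : M * r ^ 2 ≤ (M * r) ^ 4 := by
      have e1 : (M * r) ^ 4 = (M * r ^ 2) * (M ^ 3 * r ^ 2) := by ring
      rw [e1]
      have e2 : 1 ≤ M ^ 3 * r ^ 2 :=
        one_le_mul_of_one_le_of_one_le (one_le_pow₀ hM1) (one_le_pow₀ hr1)
      have e3 : 0 ≤ M * r ^ 2 := by positivity
      nlinarith only [e2, e3]
    have h3 : C.at_ t * r ^ 2 ≤ 1151 * M * r ^ 2 :=
      mul_le_mul_of_nonneg_right h1 (sq_nonneg _)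
    have h4 : (0 : ℝ) ≤ (M * r) ^ 4 := by positivity
    calc C.at_ t * r ^ 2 ≤ 1151 * M * r ^ 2 := h3
      _ = 1151 * (M * r ^ 2) := by ring
      _ ≤ 1151 * (M * r) ^ 4 := by linarith only [h2]
      _ ≤ 2 ^ 50 * (M * r) ^ 4 := by
        apply mul_le_mul_of_nonneg_right _ h4
        norm_num

theorem xi_cond (t : ℕ) (ht : t < C.wd) (ξ : Fin n → ℝ)
    (hξ : ∀ i : Fin n, C.R ≤ i.val → |ξ i| ≤ 2 * Del C.J C.wd C.E i) :
    ∑ i ∈ hi n C.R, (ξ i) ^ 2 / (C.E i / 2 ^ t) ≤ 1 / 128 := by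
  have h1 : ∑ i ∈ hi n C.R, (ξ i) ^ 2 / (C.E i / 2 ^ t)
      ≤ ∑ i ∈ hi n C.R, 1 / 512 * (1 / (rk C.J i) ^ 2) := by
    apply Finset.sum_le_sum
    intro i hi'
    simp only [hi, Finset.mem_filter, Finset.mem_univ, true_and] at hi'
    obtain ⟨hr1, -⟩ := C.rich_big i hi'
    obtain ⟨hE1, -⟩ := C.rich_conditions t ht.le i hi'
    have hx := hξ i hi'
    unfold Del at hx
    set r := rk C.J i with hr
    have hE2 : 0 ≤ C.E i / 2 ^ C.wd := div_nonneg (C.hE0 i) (by positivity)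
    have h2 : (ξ i) ^ 2 ≤ (2 * (Real.sqrt (C.E i / 2 ^ C.wd) / (32 * r))) ^ 2 := by
      rw [← sq_abs]
      exact pow_le_pow_left₀ (abs_nonneg _) hx 2
    have h3 : (2 * (Real.sqrt (C.E i / 2 ^ C.wd) / (32 * r))) ^ 2
        = (C.E i / 2 ^ C.wd) / (256 * r ^ 2) := by
      rw [mul_pow, div_pow, Real.sq_sqrt hE2]
      field_simp
      ring
    have h4 : C.E i / 2 ^ C.wd ≤ (C.E i / 2 ^ t) / 2 := by
      rw [div_div, ← pow_succ]
      apply div_le_div_of_nonneg_left (C.hE0 i) (by positivity)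
      exact pow_le_pow_right₀ (by norm_num) ht
    rw [div_le_iff₀ (by linarith only [hE1])]
    rw [h3] at h2
    refine le_trans h2 ?_
    rw [div_le_iff₀ (by positivity)]
    have h5 : 1 / 512 * (1 / r ^ 2) * (C.E i / 2 ^ t) * (256 * r ^ 2) = (C.E i / 2 ^ t) / 2 := by
      have : r ≠ 0 := by linarith only [hr1]
      field_simp
      ring
    rw [h5]
    exact h4
  refine le_trans h1 ?_
  rw [← Finset.mul_sum]
  have := sum_inv_sq n C.J C.R C.hJR'
  linarith only [this]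

/-- Bounds for one half of a block. -/
theorem half_bounds (hU : UpdateProp) (t : ℕ) (ht : t < C.wd) (U : Finset ι) (hUL : U ⊆ C.L)
    (hbal : Bal C.J C.w (fun i => C.E i / 2 ^ t) (C.at_ t) U)
    (htr : ∑ v ∈ U, tv C.J C.J' C.w v ≤ (0.55 : ℝ) ^ t * C.T0 + 150 * Real.sqrt C.wd)
    (s x : ι → ℝ) (hs : ∀ v, s v = 1 ∨ s v = -1) (hx2 : ∑ v ∈ U, (x v) ^ 2 ≤ 1 / 100)
    (hx : ∀ v ∈ U, |x v| ≤ 1 / 16)
    (hmat : ∑ i ∈ hi n C.J, ∑ i' ∈ hi n C.J,
        (∑ v ∈ U, (s v - x v) * (C.w v i * C.w v i')) ^ 2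
          / ((rk C.J i) ^ 2 * (rk C.J i') ^ 2) ≤ 16000 * C.wd)
    (htn : |∑ v ∈ U, (s v - x v) * tv C.J C.J' C.w v| ≤ 2 * Real.sqrt (4000 * C.wd))
    (g : ℝ) (hg : g = 1 ∨ g = -1) :
    Bal C.J C.w (fun i => C.E i / 2 ^ (t + 1)) (C.at_ (t + 1)) (U.filter (fun v => s v = g)) ∧
    ∑ v ∈ U.filter (fun v => s v = g), tv C.J C.J' C.w v
      ≤ (0.55 : ℝ) ^ (t + 1) * C.T0 + 150 * Real.sqrt C.wd := by
  have hwd : (1 : ℝ) ≤ C.wd := by exact_mod_cast C.hwd
  have hsw := C.sqrt_wd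
  have hm : Real.sqrt (4000 * C.wd) ≤ 63.25 * Real.sqrt C.wd := by
    rw [Real.sqrt_mul (by norm_num)]
    apply mul_le_mul_of_nonneg_right _ (Real.sqrt_nonneg _)
    rw [Real.sqrt_le_left (by norm_num)]
    norm_num
  have hm0 : 0 ≤ Real.sqrt (4000 * C.wd) := Real.sqrt_nonneg _
  constructor
  · have h1 := hU n ι C.w U C.J (fun i => C.E i / 2 ^ t) (C.at_ t) (Real.sqrt (4000 * C.wd)) s x
      (fun v hv => C.hw v (C.L_sub (hUL hv)))
      (fun i => div_nonneg (C.hE0 i) (by positivity)) (C.at_nonneg t) hm0 hbal hs hx2 (by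
        refine le_trans hmat (le_of_eq ?_)
        rw [mul_pow, Real.sq_sqrt (by (clear * - hwd; positivity))]
        ring) g hg
    have h2 : (fun i => C.E i / 2 ^ t / 2) = (fun i => C.E i / 2 ^ (t + 1)) := by
      funext i
      rw [pow_succ, div_div]
    rw [h2] at h1
    intro y hy
    refine le_trans (h1 y hy) ?_
    apply add_le_add_left
    apply mul_le_mul_of_nonneg_right
    · have h3 : C.at_ (t + 1) = 0.55 * ((0.55 : ℝ) ^ t * (C.N + 1000)) + 150 * Real.sqrt C.wd := by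
        unfold at_
        rw [pow_succ]
        ring
      have h4 : C.at_ t = (0.55 : ℝ) ^ t * (C.N + 1000) + 150 * Real.sqrt C.wd := rfl
      have h5 : 0 ≤ (0.55 : ℝ) ^ t * (C.N + 1000) := by
        have := C.hN
        positivity
      rw [h3, h4]
      linarith only [hsw, hm, h5]
    · apply Finset.sum_nonneg
      intro i _
      (clear * -; positivity)
  · rw [half_block U s x _ hs g hg]
    have h1 : |∑ v ∈ U, x v * tv C.J C.J' C.w v| ≤ 1 / 16 * ∑ v ∈ U, tv C.J C.J' C.w v := by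
      refine le_trans (Finset.abs_sum_le_sum_abs _ _) ?_
      rw [Finset.mul_sum]
      apply Finset.sum_le_sum
      intro v hv
      rw [abs_mul, abs_of_nonneg (C.tv_nonneg v)]
      exact mul_le_mul_of_nonneg_right (hx v hv) (C.tv_nonneg v)
    have h2 : g * (∑ v ∈ U, (s v - x v) * tv C.J C.J' C.w v + ∑ v ∈ U, x v * tv C.J C.J' C.w v)
        ≤ |∑ v ∈ U, (s v - x v) * tv C.J C.J' C.w v| + |∑ v ∈ U, x v * tv C.J C.J' C.w v| := by
      refine le_trans (le_abs_self _) ?_
      rw [abs_mul]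
      have : |g| = 1 := by rcases hg with h | h <;> rw [h] <;> norm_num
      rw [this, one_mul]
      exact abs_add_le _ _
    have h3 : (0.55 : ℝ) ^ (t + 1) = 0.55 * (0.55 : ℝ) ^ t := by rw [pow_succ]; ring
    have h4 : 0 ≤ (0.55 : ℝ) ^ t * C.T0 := mul_nonneg (by positivity) C.T0_nonneg
    rw [h3]
    linarith only [htr, htn, hsw, hm, h1, h2, h4]

end NC

end Vale.Agent.P262.Sqrt
end
end

section

section

namespace Vale.Agent.P262.Sqrt

open Finset

theorem filter_le_eq_lt {ι : Type} [DecidableEq ι] (L : Finset ι) (pos : ι → ℕ) (j : ℕ) :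
    L.filter (fun v => pos v < j + 1) = L.filter (fun v => pos v ≤ j) := by
  apply Finset.filter_congr
  intro v _
  omega

namespace NC

variable {n : ℕ} {ι : Type} [Fintype ι] [DecidableEq ι] (C : NC n ι)

theorem step (hS : StageProp) (hT : TiltProp) (hU : UpdateProp) (t : ℕ) (ht : t < C.wd)
    (pos : ι → ℕ) (hB : C.BI t pos) (ξ : Fin n → ℝ)
    (hξ : ∀ i : Fin n, C.R ≤ i.val → |ξ i| ≤ 2 * Del C.J C.wd C.E i) :
    ∃ s : ι → ℝ, (∀ v, s v = 1 ∨ s v = -1) ∧ C.BI (t + 1) (fpos (2 ^ t) pos s) ∧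
      ∀ j, j ≤ 2 ^ t → ∃ g : Fin n → ℝ,
        (∀ i : Fin n, ∑ v ∈ C.L with pos v < j, s v * C.w v i
          = (if C.R ≤ i.val ∧ 1 ≤ j then ξ i else 0) + g i) ∧
        (∑ i ∈ lo n C.J, C.Om i * (g i) ^ 2 ≤ 8001 * C.Q * C.wd) ∧
        (∀ k : ℕ, C.J < k → k ≤ n →
          ∑ i ∈ mid n C.J k, (g i) ^ 2 ≤ 8002 * ((k : ℝ) - C.J + C.wd)) := by
  have hwd1 : (1 : ℝ) ≤ C.wd := by exact_mod_cast C.hwd
  have htr1 : (t : ℝ) + 1 ≤ C.wd := by
    have : t + 1 ≤ C.wd := ht
    exact_mod_cast this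
  have hQ := C.hQ
  -- the tilt on the first block
  set U0 := C.L.filter (fun v => pos v = 0) with hU0
  have hU0L : U0 ⊆ C.L := Finset.filter_subset _ _
  obtain ⟨x0, hx01, hx02, hx03, hx04⟩ := hT n ι C.w U0 C.J C.R (fun i => C.E i / 2 ^ t) (C.at_ t) ξ
    (fun v hv => C.hw v (C.L_sub (hU0L hv))) C.hJR'
    (fun i i' h => div_le_div_of_nonneg_right (C.hE h) (by positivity))
    (fun i => div_nonneg (C.hE0 i) (by positivity)) (C.at_nonneg t)
    (hB.bal 0 (by positivity)) (fun i hi' => C.rich_conditions t ht.le i hi')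
    (C.xi_cond t ht ξ hξ)
  set x : ι → ℝ := fun v => if v ∈ U0 then x0 v else 0 with hx
  have hxabs : ∀ v, |x v| ≤ 1 / 16 := by
    intro v
    simp only [hx]
    split_ifs with h
    · exact hx01 v h
    · norm_num
  -- the signs
  have hcardr : (1000 : ℝ) ≤ C.D.card := by exact_mod_cast C.hcard
  obtain ⟨s, hs, hst⟩ := hS n ι C.w C.L C.J C.J' t C.Om pos x C.Q C.D.card
    (fun v hv => C.hw v (C.L_sub hv)) C.hOm (fun v _ => by linarith only [hxabs v]) hQ C.sum_L_qv
    C.L_light hcardr (by exact_mod_cast Finset.card_le_card C.L_sub)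
  have hK : 0 < 2 ^ t := by positivity
  -- x on blocks
  have hxU : ∀ j, ∀ f : ι → ℝ, 1 ≤ j → ∑ v ∈ C.L with pos v < j, x v * f v
      = ∑ v ∈ U0, x0 v * f v := by
    intro j f hj
    have hsub : U0 ⊆ C.L.filter (fun v => pos v < j) := by
      intro v hv
      simp only [hU0, Finset.mem_filter] at hv ⊢
      exact ⟨hv.1, by omega⟩
    rw [← Finset.sum_subset hsub]
    · apply Finset.sum_congr rfl
      intro v hv
      simp only [hx, if_pos hv]
    · intro v _ hv
      simp only [hx, if_neg hv, zero_mul]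
  have hx2 : ∀ j, ∑ v ∈ C.L with pos v = j, (x v) ^ 2 ≤ 1 / 100 := by
    intro j
    by_cases hj : j = 0
    · subst hj
      refine le_trans (le_of_eq ?_) hx02
      apply Finset.sum_congr rfl
      intro v hv
      simp only [hx]
      rw [if_pos hv]
    · have : ∑ v ∈ C.L with pos v = j, (x v) ^ 2 = 0 := by
        apply Finset.sum_eq_zero
        intro v hv
        have h1 : v ∉ U0 := by
          simp only [hU0, Finset.mem_filter] at hv ⊢
          omega
        simp only [hx, if_neg h1]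
        norm_num
      rw [this]
      norm_num
  -- block noises
  have hmat : ∀ j, j < 2 ^ t → ∑ i ∈ hi n C.J, ∑ i' ∈ hi n C.J,
        (∑ v ∈ C.L with pos v = j, (s v - x v) * (C.w v i * C.w v i')) ^ 2
          / ((rk C.J i) ^ 2 * (rk C.J i') ^ 2) ≤ 16000 * C.wd := by
    intro j hj
    obtain ⟨-, -, h3, -, -, -⟩ := hst j hj
    have hprev : ∑ i ∈ hi n C.J, ∑ i' ∈ hi n C.J,
        ((if j = 0 then 0 else ∑ v ∈ C.L with pos v ≤ j - 1,
          (s v - x v) * (C.w v i * C.w v i')) : ℝ) ^ 2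
          / ((rk C.J i) ^ 2 * (rk C.J i') ^ 2) ≤ 4000 * (t + 1) := by
      by_cases hj0 : j = 0
      · simp only [if_pos hj0]
        simp only [ne_eq, OfNat.ofNat_ne_zero, not_false_eq_true, zero_pow, zero_div,
          Finset.sum_const_zero]
        (clear * -; positivity)
      · simp only [if_neg hj0]
        exact (hst (j - 1) (by omega)).2.2.1
    calc ∑ i ∈ hi n C.J, ∑ i' ∈ hi n C.J,
        (∑ v ∈ C.L with pos v = j, (s v - x v) * (C.w v i * C.w v i')) ^ 2
          / ((rk C.J i) ^ 2 * (rk C.J i') ^ 2)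
        ≤ ∑ i ∈ hi n C.J, ∑ i' ∈ hi n C.J,
          (2 * ((∑ v ∈ C.L with pos v ≤ j, (s v - x v) * (C.w v i * C.w v i')) ^ 2
            / ((rk C.J i) ^ 2 * (rk C.J i') ^ 2))
          + 2 * (((if j = 0 then 0 else ∑ v ∈ C.L with pos v ≤ j - 1,
            (s v - x v) * (C.w v i * C.w v i')) : ℝ) ^ 2
            / ((rk C.J i) ^ 2 * (rk C.J i') ^ 2))) := by
          apply Finset.sum_le_sum
          intro i _
          apply Finset.sum_le_sum
          intro i' _
          rw [block_diff, ← mul_div_assoc, ← mul_div_assoc, ← add_div]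
          apply div_le_div_of_nonneg_right _ (by (clear * -; positivity))
          set p := ∑ v ∈ C.L with pos v ≤ j, (s v - x v) * (C.w v i * C.w v i')
          set q : ℝ := if j = 0 then 0 else ∑ v ∈ C.L with pos v ≤ j - 1,
            (s v - x v) * (C.w v i * C.w v i')
          nlinarith only [sq_nonneg (p + q)]
      _ = 2 * (∑ i ∈ hi n C.J, ∑ i' ∈ hi n C.J,
            (∑ v ∈ C.L with pos v ≤ j, (s v - x v) * (C.w v i * C.w v i')) ^ 2
            / ((rk C.J i) ^ 2 * (rk C.J i') ^ 2))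
          + 2 * (∑ i ∈ hi n C.J, ∑ i' ∈ hi n C.J,
            ((if j = 0 then 0 else ∑ v ∈ C.L with pos v ≤ j - 1,
            (s v - x v) * (C.w v i * C.w v i')) : ℝ) ^ 2
            / ((rk C.J i) ^ 2 * (rk C.J i') ^ 2)) := by
          simp only [sum_add_distrib, mul_sum]
      _ ≤ 16000 * C.wd := by linarith only [htr1, h3, hprev]
  have htn : ∀ j, j < 2 ^ t → |∑ v ∈ C.L with pos v = j, (s v - x v) * tv C.J C.J' C.w v|
      ≤ 2 * Real.sqrt (4000 * C.wd) := by
    intro j hj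
    have hone : ∀ j', j' < 2 ^ t → |∑ v ∈ C.L with pos v ≤ j', (s v - x v) * tv C.J C.J' C.w v|
        ≤ Real.sqrt (4000 * C.wd) := by
      intro j' hj'
      obtain ⟨-, -, -, h4, -, -⟩ := hst j' hj'
      apply Real.abs_le_sqrt
      linarith only [htr1, h4]
    rw [block_diff]
    refine le_trans (abs_sub _ _) ?_
    have h1 := hone j hj
    have h2 : |(if j = 0 then 0 else ∑ v ∈ C.L with pos v ≤ j - 1,
        (s v - x v) * tv C.J C.J' C.w v : ℝ)| ≤ Real.sqrt (4000 * C.wd) := by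
      by_cases hj0 : j = 0
      · rw [if_pos hj0, abs_zero]
        exact Real.sqrt_nonneg _
      · rw [if_neg hj0]
        exact hone (j - 1) (by omega)
    linarith only [h1, h2]
  -- half of a block
  have hhalf : ∀ j, j < 2 ^ t → ∀ g : ℝ, g = 1 ∨ g = -1 →
      Bal C.J C.w (fun i => C.E i / 2 ^ (t + 1)) (C.at_ (t + 1))
        ((C.L.filter (fun v => pos v = j)).filter (fun v => s v = g)) ∧
      ∑ v ∈ (C.L.filter (fun v => pos v = j)).filter (fun v => s v = g), tv C.J C.J' C.w v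
        ≤ (0.55 : ℝ) ^ (t + 1) * C.T0 + 150 * Real.sqrt C.wd := by
    intro j hj g hg
    exact C.half_bounds hU t ht (C.L.filter (fun v => pos v = j)) (Finset.filter_subset _ _)
      (hB.bal j hj) (hB.trace j hj) s x hs (hx2 j) (fun v _ => hxabs v) (hmat j hj) (htn j hj) g hg
  have hqhalf : ∀ j, j < 2 ^ t → ∀ g : ℝ, g = 1 ∨ g = -1 →
      ∑ v ∈ (C.L.filter (fun v => pos v = j)).filter (fun v => s v = g), qv C.J C.Om C.w v
        ≤ 0.57 * C.Q := by
    intro j hj g hg
    rcases Nat.eq_zero_or_pos t with h0 | h0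
    · subst h0
      have hj0 : j = 0 := by simpa using hj
      subst hj0
      rw [half_block (C.L.filter (fun v => pos v = 0)) s x _ hs g hg]
      obtain ⟨-, -, -, -, h5, -⟩ := hst 0 hj
      have e1 : ∀ f : ι → ℝ, ∑ v ∈ C.L with pos v = 0, f v = ∑ v ∈ C.L with pos v ≤ 0, f v := by
        intro f
        apply Finset.sum_congr _ (fun _ _ => rfl)
        apply Finset.filter_congr
        intro v _
        omega
      rw [e1 (fun v => (s v - x v) * qv C.J C.Om C.w v)]
      have h6 : ∑ v ∈ C.L with pos v = 0, qv C.J C.Om C.w v ≤ C.Q := by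
        refine le_trans ?_ C.sum_L_qv
        exact Finset.sum_le_sum_of_subset_of_nonneg (Finset.filter_subset _ _)
          (fun v _ _ => C.qv_nonneg v)
      have h7 : |∑ v ∈ C.L with pos v = 0, x v * qv C.J C.Om C.w v| ≤ 1 / 16 * C.Q := by
        refine le_trans (Finset.abs_sum_le_sum_abs _ _) ?_
        refine le_trans ?_ (mul_le_mul_of_nonneg_left h6 (by norm_num))
        rw [Finset.mul_sum]
        apply Finset.sum_le_sum
        intro v _
        rw [abs_mul, abs_of_nonneg (C.qv_nonneg v)]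
        exact mul_le_mul_of_nonneg_right (hxabs v) (C.qv_nonneg v)
      have h8 : g * (∑ v ∈ C.L with pos v ≤ 0, (s v - x v) * qv C.J C.Om C.w v
          + ∑ v ∈ C.L with pos v = 0, x v * qv C.J C.Om C.w v)
          ≤ |∑ v ∈ C.L with pos v ≤ 0, (s v - x v) * qv C.J C.Om C.w v|
            + |∑ v ∈ C.L with pos v = 0, x v * qv C.J C.Om C.w v| := by
        refine le_trans (le_abs_self _) ?_
        rw [abs_mul]
        have : |g| = 1 := by rcases hg with h | h <;> rw [h] <;> norm_num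
        rw [this, one_mul]
        exact abs_add_le _ _
      rw [Nat.cast_zero, zero_add, mul_one] at h5
      linarith only [hQ, h5, h6, h7, h8]
    · refine le_trans ?_ (hB.q h0 j hj)
      exact Finset.sum_le_sum_of_subset_of_nonneg (Finset.filter_subset _ _)
        (fun v _ _ => C.qv_nonneg v)
  have hchalf : ∀ j, j < 2 ^ t → ∀ g : ℝ, g = 1 ∨ g = -1 →
      ((C.L.filter (fun v => pos v = j)).filter (fun v => s v = g)).card < C.D.card := by
    intro j hj g hg
    rcases Nat.eq_zero_or_pos t with h0 | h0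
    · subst h0
      have hj0 : j = 0 := by simpa using hj
      subst hj0
      have h1 := half_block (C.L.filter (fun v => pos v = 0)) s x (fun _ => (1 : ℝ)) hs g hg
      simp only [Finset.sum_const, nsmul_eq_mul, mul_one] at h1
      obtain ⟨-, -, -, -, -, h6⟩ := hst 0 hj
      have e1 : ∀ f : ι → ℝ, ∑ v ∈ C.L with pos v = 0, f v = ∑ v ∈ C.L with pos v ≤ 0, f v := by
        intro f
        apply Finset.sum_congr _ (fun _ _ => rfl)
        apply Finset.filter_congr
        intro v _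
        omega
      rw [e1 (fun v => (s v - x v))] at h1
      have h7 : ((C.L.filter (fun v => pos v = 0)).card : ℝ) ≤ C.D.card := by
        exact_mod_cast Finset.card_le_card
          (le_trans (Finset.filter_subset _ _) C.L_sub)
      have h8 : |∑ v ∈ C.L with pos v = 0, x v| ≤ 1 / 16 * C.D.card := by
        refine le_trans (Finset.abs_sum_le_sum_abs _ _) ?_
        refine le_trans ?_ (mul_le_mul_of_nonneg_left h7 (by norm_num))
        calc ∑ v ∈ C.L with pos v = 0, |x v| ≤ ∑ _v ∈ C.L with pos _v = 0, (1 / 16 : ℝ) :=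
              Finset.sum_le_sum (fun v _ => hxabs v)
          _ = 1 / 16 * ((C.L.filter (fun v => pos v = 0)).card : ℝ) := by
              rw [Finset.sum_const, nsmul_eq_mul, mul_comm]
      have h9 : g * (∑ v ∈ C.L with pos v ≤ 0, (s v - x v) + ∑ v ∈ C.L with pos v = 0, x v)
          ≤ |∑ v ∈ C.L with pos v ≤ 0, (s v - x v)| + |∑ v ∈ C.L with pos v = 0, x v| := by
        refine le_trans (le_abs_self _) ?_
        rw [abs_mul]
        have : |g| = 1 := by rcases hg with h | h <;> rw [h] <;> norm_num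
        rw [this, one_mul]
        exact abs_add_le _ _
      rw [Nat.cast_zero, zero_add, mul_one] at h6
      have h10 : (((C.L.filter (fun v => pos v = 0)).filter (fun v => s v = g)).card : ℝ)
          < C.D.card := by
        rw [h1]
        linarith only [hcardr, h6, h7, h8, h9]
      exact_mod_cast h10
    · refine lt_of_le_of_lt ?_ (hB.card h0 j hj)
      exact Finset.card_le_card (Finset.filter_subset _ _)
  have h2K : 2 * 2 ^ t = 2 ^ (t + 1) := by rw [pow_succ]; ring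
  refine ⟨s, hs, ?_, ?_⟩
  · -- invariants
    have hblk : ∀ j, j < 2 ^ (t + 1) → ∃ j0, j0 < 2 ^ t ∧ ∃ g : ℝ, (g = 1 ∨ g = -1) ∧
        C.L.filter (fun v => fpos (2 ^ t) pos s v = j)
          = (C.L.filter (fun v => pos v = j0)).filter (fun v => s v = g) := by
      intro j hj
      rcases lt_or_ge j (2 ^ t) with h | h
      · exact ⟨j, h, 1, Or.inl rfl, block_low C.L (2 ^ t) pos s hs hB.hpos j h⟩
      · refine ⟨2 * 2 ^ t - 1 - j, by omega, -1, Or.inr rfl, ?_⟩
        exact block_high C.L (2 ^ t) pos s hs hB.hpos j h (by omega)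
    refine ⟨?_, ?_, ?_, ?_, ?_⟩
    · intro v hv
      have := fpos_lt (2 ^ t) pos s v (hB.hpos v hv)
      omega
    · intro j hj
      obtain ⟨j0, hj0, g, hg, he⟩ := hblk j hj
      rw [he]
      exact (hhalf j0 hj0 g hg).1
    · intro j hj
      obtain ⟨j0, hj0, g, hg, he⟩ := hblk j hj
      rw [he]
      exact (hhalf j0 hj0 g hg).2
    · intro _ j hj
      obtain ⟨j0, hj0, g, hg, he⟩ := hblk j hj
      rw [he]
      exact hqhalf j0 hj0 g hg
    · intro _ j hj
      obtain ⟨j0, hj0, g, hg, he⟩ := hblk j hj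
      rw [he]
      exact hchalf j0 hj0 g hg
  · -- noise of initial segments
    intro j hj
    rcases Nat.eq_zero_or_pos j with h0 | h0
    · subst h0
      refine ⟨fun _ => 0, ?_, ?_, ?_⟩
      · intro i
        simp only [not_lt_zero, filter_false, sum_empty, nonpos_iff_eq_zero, one_ne_zero, and_false, ↓reduceIte, add_zero]
      · simp only [ne_eq, OfNat.ofNat_ne_zero, not_false_eq_true, zero_pow, mul_zero,
          Finset.sum_const_zero]
        (clear * - hQ hwd1; positivity)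
      · intro k hk _
        simp only [ne_eq, OfNat.ofNat_ne_zero, not_false_eq_true, zero_pow,
          Finset.sum_const_zero]
        have : (C.J : ℝ) < k := by exact_mod_cast hk
        have : (0 : ℝ) ≤ (k : ℝ) - C.J + C.wd := by linarith only [this]
        (clear hS hT hU t ht pos hB ξ hξ htr1 hQ U0 hU0 hU0L x0 hx01 hx02 hx03 hx04 x hx hxabs hcardr s hs hst hK hxU hx2 hmat htn hhalf hqhalf hchalf h2K hj this; positivity)
    · obtain ⟨j', rfl⟩ : ∃ j', j = j' + 1 := ⟨j - 1, by omega⟩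
      obtain ⟨h1, h2, -, -, -, -⟩ := hst j' (by omega)
      set χ : Fin n → ℝ := fun i => if i.val < C.R then ∑ v ∈ U0, x0 v * C.w v i else 0 with hχ
      refine ⟨fun i => ∑ v ∈ C.L with pos v ≤ j', (s v - x v) * C.w v i + χ i, ?_, ?_, ?_⟩
      · intro i
        have e1 : ∑ v ∈ C.L with pos v < j' + 1, s v * C.w v i
            = ∑ v ∈ C.L with pos v < j' + 1, (s v - x v) * C.w v i
              + ∑ v ∈ C.L with pos v < j' + 1, x v * C.w v i := by
          rw [← Finset.sum_add_distrib]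
          apply Finset.sum_congr rfl
          intro v _
          ring
        rw [e1, hxU (j' + 1) (fun v => C.w v i) (by omega), filter_le_eq_lt]
        by_cases hi' : C.R ≤ i.val
        · rw [if_pos ⟨hi', by omega⟩]
          simp only [hχ, if_neg (not_lt.mpr hi')]
          rw [hx03 i hi']
          ring
        · rw [if_neg (fun h => hi' h.1)]
          simp only [hχ, if_pos (not_le.mp hi')]
          ring
      · -- poor coordinates
        have hχ2 : ∑ i ∈ lo n C.J, C.Om i * (χ i) ^ 2 ≤ C.Q / 100 := by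
          have hb : ∀ i ∈ lo n C.J, C.Om i * (χ i) ^ 2
              ≤ 1 / 100 * ∑ v ∈ U0, C.Om i * (C.w v i) ^ 2 := by
            intro i hi'
            simp only [lo, Finset.mem_filter, Finset.mem_univ, true_and] at hi'
            have hlt : i.val < C.R := lt_of_lt_of_le hi' C.hJR'
            simp only [hχ, if_pos hlt]
            have hcs : (∑ v ∈ U0, x0 v * C.w v i) ^ 2
                ≤ (∑ v ∈ U0, (x0 v) ^ 2) * ∑ v ∈ U0, (C.w v i) ^ 2 :=
              Finset.sum_mul_sq_le_sq_mul_sq _ _ _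
            have h3 : 0 ≤ ∑ v ∈ U0, (C.w v i) ^ 2 := Finset.sum_nonneg (fun v _ => sq_nonneg _)
            have h4 : (∑ v ∈ U0, x0 v * C.w v i) ^ 2 ≤ 1 / 100 * ∑ v ∈ U0, (C.w v i) ^ 2 :=
              le_trans hcs (mul_le_mul_of_nonneg_right hx02 h3)
            rw [← Finset.mul_sum]
            have := mul_le_mul_of_nonneg_left h4 (C.hOm i)
            linarith only [this]
          refine le_trans (Finset.sum_le_sum hb) ?_
          rw [← Finset.mul_sum, Finset.sum_comm]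
          have h5 : ∑ v ∈ U0, ∑ i ∈ lo n C.J, C.Om i * (C.w v i) ^ 2 ≤ C.Q := by
            refine le_trans ?_ C.sum_L_qv
            exact Finset.sum_le_sum_of_subset_of_nonneg hU0L (fun v _ _ => C.qv_nonneg v)
          linarith only [h5]
        calc ∑ i ∈ lo n C.J, C.Om i
              * (∑ v ∈ C.L with pos v ≤ j', (s v - x v) * C.w v i + χ i) ^ 2
            ≤ ∑ i ∈ lo n C.J, (2 * (C.Om i
                * (∑ v ∈ C.L with pos v ≤ j', (s v - x v) * C.w v i) ^ 2)
              + 2 * (C.Om i * (χ i) ^ 2)) := by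
              apply Finset.sum_le_sum
              intro i _
              have h3 := C.hOm i
              have h4 : (∑ v ∈ C.L with pos v ≤ j', (s v - x v) * C.w v i + χ i) ^ 2
                  ≤ 2 * (∑ v ∈ C.L with pos v ≤ j', (s v - x v) * C.w v i) ^ 2
                    + 2 * (χ i) ^ 2 := by
                nlinarith only [sq_nonneg (∑ v ∈ C.L with pos v ≤ j',                       (s v - x v) * C.w v i - χ i)]
              have := mul_le_mul_of_nonneg_left h4 h3
              linarith only [this]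
          _ = 2 * ∑ i ∈ lo n C.J, C.Om i
                * (∑ v ∈ C.L with pos v ≤ j', (s v - x v) * C.w v i) ^ 2
              + 2 * ∑ i ∈ lo n C.J, C.Om i * (χ i) ^ 2 := by
              rw [Finset.sum_add_distrib, Finset.mul_sum, Finset.mul_sum]
          _ ≤ 8001 * C.Q * C.wd := by
              have h3 : 4000 * C.Q * ((t : ℝ) + 1) ≤ 4000 * C.Q * C.wd :=
                mul_le_mul_of_nonneg_left htr1 (by (clear * - hQ; positivity))
              have h4 : C.Q * 1 ≤ C.Q * C.wd := mul_le_mul_of_nonneg_left hwd1 hQ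
              linarith only [hQ, h2, hχ2, h3, h4]
      · -- the other coordinates
        intro k hk hkn
        have hkr : (C.J : ℝ) + 1 ≤ k := by exact_mod_cast hk
        have hχ2 : ∑ i ∈ mid n C.J k, (χ i) ^ 2 ≤ 1 := by
          have hb : ∑ i ∈ mid n C.J k, (χ i) ^ 2
              ≤ ∑ i ∈ mid n C.J C.R, (∑ v ∈ U0, x0 v * C.w v i) ^ 2 := by
            have hb1 : ∑ i ∈ mid n C.J k, (χ i) ^ 2
                = ∑ i ∈ (mid n C.J k).filter (fun i => i.val < C.R),
                  (∑ v ∈ U0, x0 v * C.w v i) ^ 2 := by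
              rw [Finset.sum_filter]
              apply Finset.sum_congr rfl
              intro i _
              simp only [hχ]
              split_ifs <;> simp
            rw [hb1]
            apply Finset.sum_le_sum_of_subset_of_nonneg
            · intro i hi'
              simp only [mid, mem_filter, mem_univ, true_and] at hi' ⊢
              exact ⟨hi'.1.1, hi'.2⟩
            · intro i _ _
              exact sq_nonneg _
          exact le_trans hb hx04
        have h1k := h1 k hk hkn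
        calc ∑ i ∈ mid n C.J k, (∑ v ∈ C.L with pos v ≤ j', (s v - x v) * C.w v i + χ i) ^ 2
            ≤ ∑ i ∈ mid n C.J k, (2 * (∑ v ∈ C.L with pos v ≤ j', (s v - x v) * C.w v i) ^ 2
              + 2 * (χ i) ^ 2) := by
              apply Finset.sum_le_sum
              intro i _
              nlinarith only [sq_nonneg (∑ v ∈ C.L with pos v ≤ j', (s v - x v) * C.w v i - χ i)]
          _ = 2 * ∑ i ∈ mid n C.J k, (∑ v ∈ C.L with pos v ≤ j', (s v - x v) * C.w v i) ^ 2
              + 2 * ∑ i ∈ mid n C.J k, (χ i) ^ 2 := by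
              rw [Finset.sum_add_distrib, Finset.mul_sum, Finset.mul_sum]
          _ ≤ 8002 * ((k : ℝ) - C.J + C.wd) := by linarith only [hwd1, htr1, hkr, hχ2, h1k]

end NC

end Vale.Agent.P262.Sqrt
end
end

section

section

namespace Vale.Agent.P262.Sqrt

open Finset

theorem shr_sub_le (Δ a : ℝ) (hΔ : 0 ≤ Δ) : |shr Δ a - a| ≤ Δ := by
  unfold shr
  rw [abs_le]
  split_ifs with h1 h2
  · constructor <;> linarith only [hΔ]
  · constructor <;> linarith only [hΔ]
  · push Not at h1 h2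
    constructor <;> linarith only [h1, h2]

namespace NC

variable {n : ℕ} {ι : Type} [Fintype ι] [DecidableEq ι] (C : NC n ι)

noncomputable def u (i : Fin n) : ℝ := shr (Del C.J C.wd C.E i) (C.a i)

noncomputable def z (i : Fin n) : ℝ := shr (Del C.J C.wd C.E i) (C.b i)

noncomputable def sg (i : Fin n) : ℝ := ∑ v ∈ C.L, C.w v i

noncomputable def hh (i : Fin n) : ℝ := ∑ v ∈ C.H, C.w v i

noncomputable def xi0 (i : Fin n) : ℝ := (C.b i - C.z i) - (C.a i - C.u i)

noncomputable def xil (i : Fin n) : ℝ := (C.u i - C.a i) + (C.z i - C.b i)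

theorem b_eq (i : Fin n) : C.b i = C.a i + C.sg i + C.hh i := by
  rw [C.hb i, C.sum_HL]
  unfold sg hh
  ring

theorem del_nonneg (i : Fin n) (hi : C.R ≤ i.val) : 0 ≤ Del C.J C.wd C.E i := by
  unfold Del
  have := (C.rich_big i hi).1
  positivity

theorem xi0_le (i : Fin n) (hi : C.R ≤ i.val) : |C.xi0 i| ≤ 2 * Del C.J C.wd C.E i := by
  have h1 := shr_sub_le (Del C.J C.wd C.E i) (C.a i) (C.del_nonneg i hi)
  have h2 := shr_sub_le (Del C.J C.wd C.E i) (C.b i) (C.del_nonneg i hi)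
  unfold xi0 u z
  rw [abs_le] at h1 h2 ⊢
  constructor <;> linarith only [h1.1, h2.2, h1.2, h2.1]

theorem xil_le (i : Fin n) (hi : C.R ≤ i.val) : |C.xil i| ≤ 2 * Del C.J C.wd C.E i := by
  have h1 := shr_sub_le (Del C.J C.wd C.E i) (C.a i) (C.del_nonneg i hi)
  have h2 := shr_sub_le (Del C.J C.wd C.E i) (C.b i) (C.del_nonneg i hi)
  unfold xil u z
  rw [abs_le] at h1 h2 ⊢
  constructor <;> linarith only [h1.1, h2.1, h1.2, h2.2]

/-- Bound of the noise. -/
def NB (G : Fin n → ℝ) : Prop :=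
  (∑ i ∈ lo n C.J, C.Om i * (G i) ^ 2 ≤ 8001 * C.Q * C.wd) ∧
  (∀ k : ℕ, C.J < k → k ≤ n → ∑ i ∈ mid n C.J k, (G i) ^ 2 ≤ 8002 * ((k : ℝ) - C.J + C.wd))

theorem NB_zero : C.NB (fun _ => 0) := by
  have hQ := C.hQ
  constructor
  · simp only [ne_eq, OfNat.ofNat_ne_zero, not_false_eq_true, zero_pow, mul_zero,
      Finset.sum_const_zero]
    positivity
  · intro k hk _
    simp only [ne_eq, OfNat.ofNat_ne_zero, not_false_eq_true, zero_pow,
      Finset.sum_const_zero]
    have : (C.J : ℝ) < k := by exact_mod_cast hk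
    have : (0 : ℝ) ≤ C.wd := by positivity
    linarith

theorem NB_avg (F G G' : Fin n → ℝ) (h : ∀ i, (G' i) ^ 2 ≤ ((F i) ^ 2 + (G i) ^ 2) / 2)
    (hF : C.NB F) (hG : C.NB G) : C.NB G' := by
  constructor
  · have h1 : ∑ i ∈ lo n C.J, C.Om i * (G' i) ^ 2
        ≤ ∑ i ∈ lo n C.J, (C.Om i * (F i) ^ 2 + C.Om i * (G i) ^ 2) / 2 := by
      apply Finset.sum_le_sum
      intro i _
      have := mul_le_mul_of_nonneg_left (h i) (C.hOm i)
      linarith only [this]
    rw [← Finset.sum_div, Finset.sum_add_distrib] at h1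
    linarith only [h1, hF.1, hG.1]
  · intro k hk hkn
    have h1 : ∑ i ∈ mid n C.J k, (G' i) ^ 2
        ≤ ∑ i ∈ mid n C.J k, ((F i) ^ 2 + (G i) ^ 2) / 2 :=
      Finset.sum_le_sum (fun i _ => h i)
    rw [← Finset.sum_div, Finset.sum_add_distrib] at h1
    linarith only [h1, hF.2 k hk hkn, hG.2 k hk hkn]

theorem main_ind (hS : StageProp) (hT : TiltProp) (hU : UpdateProp) (t : ℕ) (ht : t < C.wd) :
    ∃ pos : ι → ℕ, C.BI t pos ∧ ∀ j, j ≤ 2 ^ t → ∃ F : Fin n → ℝ,
      (∀ i : Fin n, ∑ v ∈ C.L with pos v < j, C.w v i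
        = (if C.R ≤ i.val then (if 1 ≤ j then C.xi0 i else 0)
              + (j : ℝ) / 2 ^ t * (C.sg i - C.xi0 i)
            else (j : ℝ) / 2 ^ t * C.sg i) + F i) ∧ C.NB F := by
  induction t with
  | zero =>
    refine ⟨fun _ => 0, C.BI_zero, ?_⟩
    intro j hj
    refine ⟨fun _ => 0, ?_, C.NB_zero⟩
    intro i
    rcases Nat.eq_zero_or_pos j with h | h
    · subst h
      simp only [lt_self_iff_false, filter_false, sum_empty, nonpos_iff_eq_zero, one_ne_zero, ↓reduceIte, CharP.cast_eq_zero, pow_zero, div_one, zero_mul, add_zero, ite_self]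
    · have hj1 : j = 1 := by
        simp only [pow_zero] at hj
        omega
      subst hj1
      have e1 : C.L.filter (fun _ => 0 < 1) = C.L := by simp
      rw [e1]
      change C.sg i = _
      simp only [le_refl, if_true, Nat.cast_one, pow_zero, div_one, one_mul, add_zero]
      split_ifs <;> ring
  | succ t ih =>
    obtain ⟨pos, hB, hD⟩ := ih (by omega)
    obtain ⟨s, hs, hB', hg⟩ := C.step hS hT hU t (by omega) pos hB C.xi0 C.xi0_le
    refine ⟨fpos (2 ^ t) pos s, hB', ?_⟩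
    intro j hj
    have h2K : 2 * 2 ^ t = 2 ^ (t + 1) := by rw [pow_succ]; ring
    have hp : (0 : ℝ) < 2 ^ t := by positivity
    rcases Nat.lt_or_ge (2 ^ t) j with hlt | hle
    · -- second half
      obtain ⟨j0, hj0, rfl⟩ : ∃ j0, j0 < 2 ^ t ∧ j = 2 * 2 ^ t - j0 :=
        ⟨2 * 2 ^ t - j, by omega, by omega⟩
      obtain ⟨F, hF, hFN⟩ := hD j0 hj0.le
      obtain ⟨g, hg1, hg2, hg3⟩ := hg j0 hj0.le
      refine ⟨fun i => -(F i - g i) / 2, ?_, C.NB_avg F g _ ?_ hFN ⟨hg2, hg3⟩⟩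
      · intro i
        rw [fold_high C.L (2 ^ t) pos s hs hB.hpos (fun v => C.w v i) j0 hj0.le, hF i, hg1 i]
        have e1 : ∑ v ∈ C.L, C.w v i = C.sg i := rfl
        rw [e1]
        have e2 : ((2 * 2 ^ t - j0 : ℕ) : ℝ) = 2 * 2 ^ t - (j0 : ℝ) := by
          rw [Nat.cast_sub (by omega)]
          push_cast
          ring
        have e3 : 1 ≤ 2 * 2 ^ t - j0 := by omega
        rw [e2, pow_succ]
        rw [if_pos e3]
        by_cases hi : C.R ≤ i.val
        · rw [if_pos hi, if_pos hi]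
          by_cases hj1 : 1 ≤ j0
          · rw [if_pos hj1, if_pos ⟨hi, hj1⟩]
            field_simp
            ring
          · have : j0 = 0 := by omega
            subst this
            rw [if_neg hj1, if_neg (fun h => hj1 h.2)]
            simp only [Nat.cast_zero, zero_div, zero_mul, sub_zero]
            field_simp
            ring
        · rw [if_neg hi, if_neg hi, if_neg (fun h => hi h.1)]
          field_simp
          ring
      · intro i
        nlinarith only [sq_nonneg (F i + g i)]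
    · -- first half
      obtain ⟨F, hF, hFN⟩ := hD j hle
      obtain ⟨g, hg1, hg2, hg3⟩ := hg j hle
      refine ⟨fun i => (F i + g i) / 2, ?_, C.NB_avg F g _ ?_ hFN ⟨hg2, hg3⟩⟩
      · intro i
        rw [fold_low C.L (2 ^ t) pos s hs hB.hpos (fun v => C.w v i) j hle, hF i, hg1 i]
        rw [pow_succ]
        by_cases hi : C.R ≤ i.val
        · rw [if_pos hi, if_pos hi]
          by_cases hj1 : 1 ≤ j
          · rw [if_pos hj1, if_pos ⟨hi, hj1⟩]
            field_simp
            ring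
          · have : j = 0 := by omega
            subst this
            rw [if_neg hj1, if_neg (fun h => hj1 h.2)]
            simp only [Nat.cast_zero, zero_div, zero_mul]
            ring
        · rw [if_neg hi, if_neg hi, if_neg (fun h => hi h.1)]
          field_simp
          ring
      · intro i
        nlinarith only [sq_nonneg (F i - g i)]

/-- The last stage. -/
theorem last_stage (hS : StageProp) (hT : TiltProp) (hU : UpdateProp) :
    ∃ pos : ι → ℕ, C.BI C.wd pos ∧ ∀ j, 0 < j → j < 2 ^ C.wd → ∃ F : Fin n → ℝ,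
      (∀ i : Fin n, ∑ v ∈ C.L with pos v < j, C.w v i
        = (if C.R ≤ i.val then (C.u i - C.a i) + (j : ℝ) / 2 ^ C.wd * (C.sg i - C.xi0 i)
            else (j : ℝ) / 2 ^ C.wd * C.sg i) + F i) ∧ C.NB F := by
  obtain ⟨t, ht⟩ : ∃ t, C.wd = t + 1 := ⟨C.wd - 1, by have := C.hwd; omega⟩
  obtain ⟨pos, hB, hD⟩ := C.main_ind hS hT hU t (by omega)
  obtain ⟨s, hs, hB', hg⟩ := C.step hS hT hU t (by omega) pos hB C.xil C.xil_le
  refine ⟨fpos (2 ^ t) pos s, by rw [ht]; exact hB', ?_⟩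
  rw [ht]
  intro j hj0' hj
  have h2K : 2 * 2 ^ t = 2 ^ (t + 1) := by rw [pow_succ]; ring
  have hp : (0 : ℝ) < 2 ^ t := by positivity
  have ex : ∀ i, C.xi0 i = (C.b i - C.z i) - (C.a i - C.u i) := fun i => rfl
  have el : ∀ i, C.xil i = (C.u i - C.a i) + (C.z i - C.b i) := fun i => rfl
  rcases Nat.lt_or_ge (2 ^ t) j with hlt | hle
  · -- second half
    obtain ⟨j0, hj0, hj01, rfl⟩ : ∃ j0, j0 < 2 ^ t ∧ 1 ≤ j0 ∧ j = 2 * 2 ^ t - j0 :=
      ⟨2 * 2 ^ t - j, by omega, by omega, by omega⟩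
    obtain ⟨F, hF, hFN⟩ := hD j0 hj0.le
    obtain ⟨g, hg1, hg2, hg3⟩ := hg j0 hj0.le
    refine ⟨fun i => -(F i - g i) / 2, ?_, C.NB_avg F g _ ?_ hFN ⟨hg2, hg3⟩⟩
    · intro i
      rw [fold_high C.L (2 ^ t) pos s hs hB.hpos (fun v => C.w v i) j0 hj0.le, hF i, hg1 i]
      have e1 : ∑ v ∈ C.L, C.w v i = C.sg i := rfl
      rw [e1]
      have e2 : ((2 * 2 ^ t - j0 : ℕ) : ℝ) = 2 * 2 ^ t - (j0 : ℝ) := by
        rw [Nat.cast_sub (by omega)]
        push_cast
        ring
      rw [e2, pow_succ]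
      by_cases hi : C.R ≤ i.val
      · rw [if_pos hi, if_pos hi, if_pos hj01, if_pos ⟨hi, hj01⟩]
        have hx := ex i
        have hl := el i
        rw [hl]
        have hx' : C.b i = C.xi0 i + C.z i + (C.a i - C.u i) := by rw [hx]; ring
        rw [hx']
        field_simp
        ring
      · rw [if_neg hi, if_neg hi, if_neg (fun h => hi h.1)]
        field_simp
        ring
    · intro i
      nlinarith only [sq_nonneg (F i + g i)]
  · -- first half
    obtain ⟨F, hF, hFN⟩ := hD j hle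
    obtain ⟨g, hg1, hg2, hg3⟩ := hg j hle
    refine ⟨fun i => (F i + g i) / 2, ?_, C.NB_avg F g _ ?_ hFN ⟨hg2, hg3⟩⟩
    · intro i
      rw [fold_low C.L (2 ^ t) pos s hs hB.hpos (fun v => C.w v i) j hle, hF i, hg1 i]
      rw [pow_succ]
      by_cases hi : C.R ≤ i.val
      · rw [if_pos hi, if_pos hi, if_pos (show 1 ≤ j by omega), if_pos ⟨hi, by omega⟩]
        have hx := ex i
        have hl := el i
        rw [hl]
        have hx' : C.b i = C.xi0 i + C.z i + (C.a i - C.u i) := by rw [hx]; ring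
        rw [hx']
        field_simp
        ring
      · rw [if_neg hi, if_neg hi, if_neg (fun h => hi h.1)]
        field_simp
        ring
    · intro i
      nlinarith only [sq_nonneg (F i - g i)]

theorem hh_lo : ∑ i ∈ lo n C.J, C.Om i * (C.hh i) ^ 2 ≤ 1000 * C.Q := by
  have h1 : ∑ i ∈ lo n C.J, C.Om i * (C.hh i) ^ 2
      ≤ ∑ i ∈ lo n C.J, C.Om i * (1000 * ∑ v ∈ C.H, (C.w v i) ^ 2) := by
    apply Finset.sum_le_sum
    intro i _
    apply mul_le_mul_of_nonneg_left _ (C.hOm i)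
    refine le_trans (sum_sq_le C.H (fun v => C.w v i)) ?_
    apply mul_le_mul_of_nonneg_right C.H_cardr
    exact Finset.sum_nonneg (fun v _ => sq_nonneg _)
  have h2 : ∑ i ∈ lo n C.J, C.Om i * (1000 * ∑ v ∈ C.H, (C.w v i) ^ 2)
      = 1000 * ∑ v ∈ C.H, qv C.J C.Om C.w v := by
    unfold qv
    rw [Finset.sum_comm, Finset.mul_sum]
    apply Finset.sum_congr rfl
    intro i _
    rw [Finset.mul_sum, Finset.mul_sum, Finset.mul_sum]
    apply Finset.sum_congr rfl
    intro v _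
    ring
  have h3 := C.sum_H_qv
  linarith only [h1, h2, h3]

theorem hh_mid (k : ℕ) : ∑ i ∈ mid n C.J k, (C.hh i) ^ 2 ≤ 1000000 := by
  have h1 : ∑ i ∈ mid n C.J k, (C.hh i) ^ 2
      ≤ ∑ i ∈ mid n C.J k, (1000 * ∑ v ∈ C.H, (C.w v i) ^ 2) := by
    apply Finset.sum_le_sum
    intro i _
    refine le_trans (sum_sq_le C.H (fun v => C.w v i)) ?_
    apply mul_le_mul_of_nonneg_right C.H_cardr
    exact Finset.sum_nonneg (fun v _ => sq_nonneg _)
  have h2 : ∑ i ∈ mid n C.J k, (1000 * ∑ v ∈ C.H, (C.w v i) ^ 2)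
      = 1000 * ∑ v ∈ C.H, ∑ i ∈ mid n C.J k, (C.w v i) ^ 2 := by
    rw [← Finset.mul_sum, Finset.sum_comm]
  have h3 : ∑ v ∈ C.H, ∑ i ∈ mid n C.J k, (C.w v i) ^ 2 ≤ ∑ _v ∈ C.H, (1 : ℝ) := by
    apply Finset.sum_le_sum
    intro v hv
    refine le_trans ?_ (C.hw v (C.H_sub hv))
    exact Finset.sum_le_sum_of_subset_of_nonneg (Finset.subset_univ _) (fun i _ _ => sq_nonneg _)
  have h4 : ∑ _v ∈ C.H, (1 : ℝ) = C.H.card := by simp
  have h5 := C.H_cardr
  linarith only [h1, h2, h3, h4, h5]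

theorem bal_final (U : Finset ι) (hB : Bal C.J C.w (fun i => C.E i / 2 ^ C.wd) (C.at_ C.wd) U) :
    Bal C.J' C.w (fun i => C.E i / 2 ^ C.wd) C.N' U := by
  intro y hy
  refine le_trans (hB y (fun i hi => hy i (lt_of_lt_of_le hi C.hJJ))) ?_
  apply add_le_add_left
  have hp : (0 : ℝ) ≤ (C.J' : ℝ) - C.J := by
    have : (C.J : ℝ) ≤ C.J' := by exact_mod_cast C.hJJ
    linarith only [this]
  have h1 : ∑ i, (rk C.J i) ^ 2 * (y i) ^ 2
      ≤ ((C.J' : ℝ) - C.J + 1) ^ 2 * ∑ i, (rk C.J' i) ^ 2 * (y i) ^ 2 := by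
    rw [Finset.mul_sum]
    apply Finset.sum_le_sum
    intro i _
    by_cases hi : i.val < C.J'
    · rw [hy i hi]
      simp
    · have hr := rk_ge_one (J := C.J') i (not_lt.mp hi)
      have e1 : rk C.J i = rk C.J' i + ((C.J' : ℝ) - C.J) := by
        unfold rk
        ring
      have h2 : rk C.J i ≤ ((C.J' : ℝ) - C.J + 1) * rk C.J' i := by
        rw [e1]
        nlinarith only [hp, hr]
      have h3 : 0 ≤ rk C.J i := by rw [e1]; linarith only [hp, hr]
      have h4 : (rk C.J i) ^ 2 ≤ (((C.J' : ℝ) - C.J + 1) * rk C.J' i) ^ 2 :=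
        pow_le_pow_left₀ h3 h2 2
      have h5 := mul_le_mul_of_nonneg_right h4 (sq_nonneg (y i))
      calc (rk C.J i) ^ 2 * (y i) ^ 2 ≤ (((C.J' : ℝ) - C.J + 1) * rk C.J' i) ^ 2 * (y i) ^ 2 := h5
        _ = ((C.J' : ℝ) - C.J + 1) ^ 2 * ((rk C.J' i) ^ 2 * (y i) ^ 2) := by ring
  have h0 : 0 ≤ ∑ i, (rk C.J' i) ^ 2 * (y i) ^ 2 :=
    Finset.sum_nonneg (fun i _ => by (clear * -; positivity))
  calc C.at_ C.wd * ∑ i, (rk C.J i) ^ 2 * (y i) ^ 2
      ≤ C.at_ C.wd * (((C.J' : ℝ) - C.J + 1) ^ 2 * ∑ i, (rk C.J' i) ^ 2 * (y i) ^ 2) :=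
        mul_le_mul_of_nonneg_left h1 (C.at_nonneg _)
    _ = (((C.J' : ℝ) - C.J + 1) ^ 2 * C.at_ C.wd) * ∑ i, (rk C.J' i) ^ 2 * (y i) ^ 2 := by ring
    _ ≤ C.N' * ∑ i, (rk C.J' i) ^ 2 * (y i) ^ 2 := by
        apply mul_le_mul_of_nonneg_right _ h0
        exact C.hN'

theorem cost_final (U : Finset ι)
    (hq : ∑ v ∈ U, qv C.J C.Om C.w v ≤ 0.57 * C.Q)
    (htr : ∑ v ∈ U, tv C.J C.J' C.w v ≤ (0.55 : ℝ) ^ C.wd * C.T0 + 150 * Real.sqrt C.wd) :
    3 / 2 * ∑ v ∈ U, qv C.J C.Om C.w v + ∑ v ∈ U, tv C.J C.J' C.w v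
      ≤ 0.855 * C.Q + if C.J < C.J' then 200 * (C.wd : ℝ) else 0 := by
  by_cases h : C.J < C.J'
  · rw [if_pos h]
    have hwd : (1 : ℝ) ≤ C.wd := by exact_mod_cast C.hwd
    have h2 : Real.sqrt C.wd ≤ C.wd := by
      rw [Real.sqrt_le_left (by linarith only [hwd])]
      nlinarith only [hwd]
    have h3 : (0.55 : ℝ) ^ C.wd * C.T0 ≤ 1 := by
      have := C.hwin
      unfold T0
      rw [mul_comm]
      exact this
    linarith only [hq, htr, hwd, h2, h3]
  · rw [if_neg h]
    have h1 : ∑ v ∈ U, tv C.J C.J' C.w v = 0 := by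
      apply Finset.sum_eq_zero
      intro v _
      unfold tv
      have : mid n C.J C.J' = ∅ := by
        unfold mid
        rw [Finset.filter_eq_empty_iff]
        intro i _
        omega
      rw [this, Finset.sum_empty]
    rw [h1]
    linarith only [hq]

end NC

/-- **Module NODE**. -/
theorem nodeProp (hS : StageProp) (hT : TiltProp) (hU : UpdateProp) : NodeProp := by
  intro n ι _ _ w D J J' R wd E Om a b N N' Q hw hJJ hJR hRn hwd _ hN hE hE0 hOm hQ hrich hwin hN'
    hbal hq hcard hb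
  let C : NC n ι := ⟨w, D, J, J', R, wd, E, Om, a, b, N, N', Q, hw, hJJ, hJR, hRn, hwd, hN, hE,
    hE0, hOm, hQ, hrich, hwin, hN', hbal, hq, hcard, hb⟩
  obtain ⟨pos, hB, hF⟩ := C.last_stage hS hT hU
  have hwd1 : (1 : ℝ) ≤ wd := by exact_mod_cast hwd
  refine ⟨C.H, pos, C.H_sub, C.H_card, fun v hv => hB.hpos v hv, ?_, ?_⟩
  · intro j hj
    exact ⟨C.bal_final _ (hB.bal j hj), C.cost_final _ (hB.q hwd j hj) (hB.trace j hj),
      hB.card hwd j hj⟩
  · intro j c hj0 hj hc
    obtain ⟨F, hF1, hF2⟩ := hF j hj0 hj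
    set θ : ℝ := (j : ℝ) / 2 ^ wd with hθ
    have hcθ : (c - θ) ^ 2 ≤ 1 / 4 := by
      obtain ⟨t, ht⟩ : ∃ t, wd = t + 1 := ⟨wd - 1, by omega⟩
      have hp : (0 : ℝ) < 2 ^ t := by positivity
      have hθ0 : 0 ≤ θ := by positivity
      have hjlt : (j : ℝ) < 2 ^ wd := by exact_mod_cast hj
      have hθ1 : θ ≤ 1 := by
        rw [hθ, div_le_one (by positivity)]
        exact hjlt.le
      rcases hc with ⟨hc, hj1⟩ | ⟨hc, hj1⟩
      · have h1 : (j : ℝ) ≤ 2 ^ t := by
          have : j ≤ 2 ^ t := by rw [ht] at hj1; simpa only [add_tsub_cancel_right] using hj1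
          exact_mod_cast this
        have h2 : θ ≤ 1 / 2 := by
          rw [hθ, ht, pow_succ, div_le_iff₀ (by positivity)]
          linarith only [h1]
        rw [hc]
        nlinarith only [hθ0, h2]
      · have h1 : (2 : ℝ) ^ t ≤ j := by
          have : 2 ^ t ≤ j := by rw [ht] at hj1; simpa only [add_tsub_cancel_right] using hj1
          exact_mod_cast this
        have h2 : 1 / 2 ≤ θ := by
          rw [hθ, ht, pow_succ, le_div_iff₀ (by positivity)]
          linarith only [h1]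
        rw [hc]
        nlinarith only [hθ1, h2]
    have he2 : ∀ i, (F i + (c - θ) * C.hh i) ^ 2 ≤ 2 * (F i) ^ 2 + 1 / 2 * (C.hh i) ^ 2 := by
      intro i
      have h1 : (F i + (c - θ) * C.hh i) ^ 2 ≤ 2 * (F i) ^ 2 + 2 * ((c - θ) * C.hh i) ^ 2 := by
        nlinarith only [sq_nonneg (F i - (c - θ) * C.hh i)]
      have h2 : ((c - θ) * C.hh i) ^ 2 ≤ 1 / 4 * (C.hh i) ^ 2 := by
        rw [mul_pow]
        exact mul_le_mul_of_nonneg_right hcθ (sq_nonneg _)
      linarith only [h1, h2]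
    refine ⟨fun i => F i + (c - θ) * C.hh i, ?_, ?_, ?_⟩
    · intro i
      have e1 : ∑ v ∈ (D \ C.H).filter (fun v => pos v < j), w v i
          = ∑ v ∈ C.L with pos v < j, C.w v i := rfl
      rw [e1, hF1 i]
      have e2 : ∑ v ∈ C.H, w v i = C.hh i := rfl
      rw [e2]
      have hb' : b i = a i + C.sg i + C.hh i := C.b_eq i
      have hx : C.xi0 i = (b i - C.z i) - (a i - C.u i) := rfl
      unfold tgt
      by_cases hi : R ≤ i.val
      · have e3 : (if C.R ≤ i.val then (C.u i - C.a i) + (j : ℝ) / 2 ^ C.wd * (C.sg i - C.xi0 i)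
            else (j : ℝ) / 2 ^ C.wd * C.sg i)
            = (C.u i - a i) + θ * (C.sg i - C.xi0 i) := if_pos hi
        rw [e3, if_neg (not_lt.mpr hi)]
        change _ = (1 - θ) * C.u i + θ * C.z i + _
        rw [hx, hb']
        ring
      · have e3 : (if C.R ≤ i.val then (C.u i - C.a i) + (j : ℝ) / 2 ^ C.wd * (C.sg i - C.xi0 i)
            else (j : ℝ) / 2 ^ C.wd * C.sg i)
            = θ * C.sg i := if_neg hi
        rw [e3, if_pos (not_le.mp hi), hb']
        ring
    · have h1 : ∑ i ∈ lo n J, Om i * (F i + (c - θ) * C.hh i) ^ 2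
          ≤ ∑ i ∈ lo n J, (2 * (Om i * (F i) ^ 2) + 1 / 2 * (Om i * (C.hh i) ^ 2)) := by
        apply Finset.sum_le_sum
        intro i _
        have := mul_le_mul_of_nonneg_left (he2 i) (hOm i)
        linarith only [this]
      rw [Finset.sum_add_distrib, ← Finset.mul_sum, ← Finset.mul_sum] at h1
      have h2 : ∑ i ∈ lo n J, Om i * (F i) ^ 2 ≤ 8001 * Q * wd := hF2.1
      have h3 : ∑ i ∈ lo n J, Om i * (C.hh i) ^ 2 ≤ 1000 * Q := C.hh_lo
      have h4 : Q * 1 ≤ Q * wd := mul_le_mul_of_nonneg_left hwd1 hQ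
      refine le_trans h1 ?_
      linarith only [hQ, h2, h3, h4]
    · intro k hk hkn
      have hkr : (J : ℝ) + 1 ≤ k := by exact_mod_cast hk
      have h1 : ∑ i ∈ mid n J k, (F i + (c - θ) * C.hh i) ^ 2
          ≤ ∑ i ∈ mid n J k, (2 * (F i) ^ 2 + 1 / 2 * (C.hh i) ^ 2) :=
        Finset.sum_le_sum (fun i _ => he2 i)
      rw [Finset.sum_add_distrib, ← Finset.mul_sum, ← Finset.mul_sum] at h1
      have h2 : ∑ i ∈ mid n J k, (F i) ^ 2 ≤ 8002 * ((k : ℝ) - J + wd) := hF2.2 k hk hkn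
      have h3 : ∑ i ∈ mid n J k, (C.hh i) ^ 2 ≤ 1000000 := C.hh_mid k
      refine le_trans h1 ?_
      linarith only [hwd1, hkr, h2, h3]

end Vale.Agent.P262.Sqrt
end
end

section

section

/-!
# Module TILT
-/

open scoped BigOperators

namespace Vale.Agent.P262.Sqrt

section Tilt

variable {n : ℕ} {ι : Type}

private theorem tmem_hi {J : ℕ} {i : Fin n} : i ∈ hi n J ↔ J ≤ i.val := by simp only [hi, Finset.mem_filter, Finset.mem_univ, true_and]

/-- inner product of the vector `v` with `y`. -/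
private noncomputable def ip (w : ι → Fin n → ℝ) (v : ι) (y : Fin n → ℝ) : ℝ := ∑ i, w v i * y i

private theorem ip_add (w : ι → Fin n → ℝ) (v : ι) (y z : Fin n → ℝ) :
    ip w v (fun i => y i + z i) = ip w v y + ip w v z := by
  unfold ip; rw [← Finset.sum_add_distrib]
  exact Finset.sum_congr rfl fun i _ => by ring

private theorem ip_smul (w : ι → Fin n → ℝ) (v : ι) (c : ℝ) (y : Fin n → ℝ) :
    ip w v (fun i => c * y i) = c * ip w v y := by
  unfold ip; rw [Finset.mul_sum]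
  exact Finset.sum_congr rfl fun i _ => by ring

private theorem MQ_eq (w : ι → Fin n → ℝ) (U : Finset ι) (y : Fin n → ℝ) :
    MQ w U y = ∑ v ∈ U, (ip w v y) ^ 2 := rfl

private theorem sum_ip_mul (w : ι → Fin n → ℝ) (U : Finset ι) (x : ι → ℝ) (y : Fin n → ℝ) :
    ∑ v ∈ U, x v * ip w v y = ∑ i, y i * ∑ v ∈ U, x v * w v i := by
  unfold ip
  simp_rw [Finset.mul_sum]
  rw [Finset.sum_comm]
  exact Finset.sum_congr rfl fun i _ => Finset.sum_congr rfl fun v _ => by ring

/-- coercivity on the rich coordinates -/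
private theorem coercive {w : ι → Fin n → ℝ} {U : Finset ι} {J R : ℕ} {E : Fin n → ℝ} {a : ℝ}
    (hJR : J ≤ R) (hE0 : ∀ i, 0 ≤ E i) (hbal : Bal J w E a U)
    (hrich : ∀ i : Fin n, R ≤ i.val → 1000000 ≤ E i ∧ a * (rk J i) ^ 2 ≤ Real.sqrt (E i))
    {y : Fin n → ℝ} (hy : ∀ i : Fin n, i.val < R → y i = 0) :
    |MQ w U y - EQ E y| ≤ EQ E y / 500 := by
  have h1 := hbal y (fun i hi => hy i (lt_of_lt_of_le hi hJR))
  have hEQ0 : 0 ≤ EQ E y := Finset.sum_nonneg fun i _ => mul_nonneg (hE0 i) (sq_nonneg _)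
  have h2 : a * ∑ i, (rk J i) ^ 2 * (y i) ^ 2 ≤ EQ E y / 1000 := by
    rw [Finset.mul_sum]
    unfold EQ
    rw [Finset.sum_div]
    refine Finset.sum_le_sum fun i _ => ?_
    rcases lt_or_ge i.val R with hi | hi
    · rw [hy i hi]; simp
    · obtain ⟨h3, h4⟩ := hrich i hi
      have h5 : 1000 ≤ Real.sqrt (E i) := by
        apply Real.le_sqrt_of_sq_le; norm_num; exact h3
      have h6 : Real.sqrt (E i) * Real.sqrt (E i) = E i := Real.mul_self_sqrt (hE0 i)
      have h7 : Real.sqrt (E i) ≤ E i / 1000 := by nlinarith only [h3, h6]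
      calc a * (rk J i ^ 2 * y i ^ 2) = (a * (rk J i) ^ 2) * (y i) ^ 2 := by ring
        _ ≤ (E i / 1000) * (y i) ^ 2 := mul_le_mul_of_nonneg_right (le_trans h4 h7) (sq_nonneg _)
        _ = _ := by ring
  have h3 : ∑ i, (y i) ^ 2 ≤ EQ E y / 1000000 := by
    unfold EQ
    rw [Finset.sum_div]
    refine Finset.sum_le_sum fun i _ => ?_
    rcases lt_or_ge i.val R with hi | hi
    · rw [hy i hi]; simp
    · have := (hrich i hi).1
      have h8 : 0 ≤ (y i) ^ 2 := sq_nonneg _
      rw [le_div_iff₀ (by norm_num)]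
      nlinarith only [this]
  have h4 : Real.sqrt (∑ i, (y i) ^ 2) ≤ Real.sqrt (EQ E y) / 1000 := by
    rw [show (1000 : ℝ) = Real.sqrt (1000000) by
      rw [show (1000000 : ℝ) = 1000 ^ 2 by norm_num, Real.sqrt_sq (by norm_num)]]
    rw [← Real.sqrt_div hEQ0]
    exact Real.sqrt_le_sqrt h3
  have h5 : Real.sqrt (∑ i, (y i) ^ 2) * Real.sqrt (EQ E y) ≤ EQ E y / 1000 := by
    calc Real.sqrt (∑ i, (y i) ^ 2) * Real.sqrt (EQ E y)
        ≤ (Real.sqrt (EQ E y) / 1000) * Real.sqrt (EQ E y) :=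
          mul_le_mul_of_nonneg_right h4 (Real.sqrt_nonneg _)
      _ = (Real.sqrt (EQ E y) * Real.sqrt (EQ E y)) / 1000 := by ring
      _ = EQ E y / 1000 := by rw [Real.mul_self_sqrt hEQ0]
  linarith only [h1, h2, h5]

private theorem crosstalk {w : ι → Fin n → ℝ} {U : Finset ι} {J R : ℕ} {E : Fin n → ℝ} {a : ℝ}
    (hJR : J ≤ R) (hmono : Monotone E) (hE0 : ∀ i, 0 ≤ E i) (ha : 0 ≤ a) (hbal : Bal J w E a U)
    (hrich : ∀ i : Fin n, R ≤ i.val → 1000000 ≤ E i ∧ a * (rk J i) ^ 2 ≤ Real.sqrt (E i))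
    (hRn : R < n) {η : Fin n → ℝ} (hη0 : ∀ i : Fin n, i.val < R → η i = 0)
    (hEle : EQ E η ≤ 1 / 98) :
    ∑ i ∈ mid n J R, (∑ v ∈ U, ip w v η * w v i) ^ 2 ≤ 1 := by
  have hEnn : 0 ≤ EQ E η := Finset.sum_nonneg fun i _ => mul_nonneg (hE0 i) (sq_nonneg _)
  set χ : Fin n → ℝ := fun i => ∑ v ∈ U, ip w v η * w v i with hχ
  set y : Fin n → ℝ := fun i => if J ≤ i.val ∧ i.val < R then χ i else 0 with hy
  show ∑ i ∈ mid n J R, (χ i) ^ 2 ≤ 1
  have hS : ∑ i ∈ mid n J R, (χ i) ^ 2 = ∑ i, (y i) ^ 2 := by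
    unfold mid
    rw [Finset.sum_filter]
    refine Finset.sum_congr rfl fun i _ => ?_
    by_cases hc : J ≤ i.val ∧ i.val < R
    · simp only [hy, if_pos hc]
    · simp only [hy, if_neg hc]; simp
  rw [hS]
  set Y2 := ∑ i, (y i) ^ 2 with hY2
  have hY2nn : 0 ≤ Y2 := Finset.sum_nonneg fun i _ => sq_nonneg _
  rcases eq_or_lt_of_le hY2nn with hY0 | hYpos
  · rw [← hY0]; norm_num
  set h2 := ∑ i, (η i) ^ 2 with hh2
  have hh2nn : 0 ≤ h2 := Finset.sum_nonneg fun i _ => sq_nonneg _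
  -- B(η,y) = Y2
  have hB : ∑ v ∈ U, ip w v η * ip w v y = Y2 := by
    rw [sum_ip_mul, hY2]
    refine Finset.sum_congr rfl fun i _ => ?_
    simp only [hy]
    split_ifs
    · show χ i * χ i = χ i ^ 2
      ring
    · simp
  have hh2pos : 0 < h2 := by
    rcases eq_or_lt_of_le hh2nn with h0 | h0
    · exfalso
      have hz : ∀ i, η i = 0 := by
        intro i
        have := (Finset.sum_eq_zero_iff_of_nonneg (fun i _ => sq_nonneg (η i))).1 h0.symm i
          (Finset.mem_univ i)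
        simpa using this
      have : ∀ v, ip w v η = 0 := by
        intro v; unfold ip; simp only [hz, mul_zero, Finset.sum_const_zero]
      rw [show ∑ v ∈ U, ip w v η * ip w v y = 0 by simp [this]] at hB
      linarith only [hYpos, hB]
    · exact h0
  -- pointwise disjointness
  have hdisj : ∀ i, y i * η i = 0 := by
    intro i
    rcases lt_or_ge i.val R with hi | hi
    · rw [hη0 i hi, mul_zero]
    · simp only [hy]
      rw [if_neg (by omega), zero_mul]
  set i0 : Fin n := ⟨R, hRn⟩ with hi0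
  obtain ⟨hER, haR⟩ := hrich i0 (le_refl R)
  set ER := E i0 with hERdef
  -- window bounds
  have hwin : a * ∑ i, (rk J i) ^ 2 * (y i) ^ 2 ≤ Real.sqrt ER * Y2 := by
    rw [Finset.mul_sum, hY2, Finset.mul_sum]
    refine Finset.sum_le_sum fun i _ => ?_
    by_cases hc : J ≤ i.val ∧ i.val < R
    · have hr0 : 0 ≤ rk J i := by
        unfold rk
        have : (J : ℝ) ≤ (i.val : ℝ) := by exact_mod_cast hc.1
        linarith only [this]
      have hr1 : rk J i ≤ rk J i0 := by
        unfold rk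
        have : (i.val : ℝ) ≤ (i0.val : ℝ) := by
          rw [hi0]; exact_mod_cast hc.2.le
        linarith only [this]
      have : a * (rk J i) ^ 2 ≤ Real.sqrt ER :=
        le_trans (mul_le_mul_of_nonneg_left (pow_le_pow_left₀ hr0 hr1 2) ha) haR
      calc a * (rk J i ^ 2 * y i ^ 2) = (a * (rk J i) ^ 2) * (y i) ^ 2 := by ring
        _ ≤ _ := mul_le_mul_of_nonneg_right this (sq_nonneg _)
    · simp only [hy, if_neg hc]; simp
  have hwinE : EQ E y ≤ ER * Y2 := by
    unfold EQ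
    rw [hY2, Finset.mul_sum]
    refine Finset.sum_le_sum fun i _ => ?_
    by_cases hc : J ≤ i.val ∧ i.val < R
    · have : E i ≤ ER := hmono (by rw [hi0]; exact hc.2.le)
      exact mul_le_mul_of_nonneg_right this (sq_nonneg _)
    · simp only [hy, if_neg hc]; simp
  set G2 := EQ E η with hG2
  have hηE : ER * h2 ≤ G2 := by
    rw [hG2, hh2, Finset.mul_sum]
    unfold EQ
    refine Finset.sum_le_sum fun i _ => ?_
    rcases lt_or_ge i.val R with hi | hi
    · rw [hη0 i hi]; simp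
    · have : ER ≤ E i := hmono (by rw [hi0]; exact hi)
      exact mul_le_mul_of_nonneg_right this (sq_nonneg _)
  have hrichη : a * ∑ i, (rk J i) ^ 2 * (η i) ^ 2 ≤ Real.sqrt h2 * Real.sqrt G2 := by
    have h1 : a * ∑ i, (rk J i) ^ 2 * (η i) ^ 2 ≤ ∑ i, (|η i|) * (Real.sqrt (E i) * |η i|) := by
      rw [Finset.mul_sum]
      refine Finset.sum_le_sum fun i _ => ?_
      rcases lt_or_ge i.val R with hi | hi
      · rw [hη0 i hi]; simp
      · have := (hrich i hi).2
        calc a * (rk J i ^ 2 * η i ^ 2) = (a * (rk J i) ^ 2) * (η i) ^ 2 := by ring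
          _ ≤ Real.sqrt (E i) * (η i) ^ 2 := mul_le_mul_of_nonneg_right this (sq_nonneg _)
          _ = |η i| * (Real.sqrt (E i) * |η i|) := by
              rw [← sq_abs (η i)]; ring
    refine le_trans h1 ?_
    have h3 : (∑ i, (|η i|) * (Real.sqrt (E i) * |η i|)) ^ 2 ≤ h2 * G2 := by
      refine le_trans (Finset.sum_mul_sq_le_sq_mul_sq _ _ _) ?_
      refine le_of_eq ?_
      congr 1
      · rw [hh2]; exact Finset.sum_congr rfl fun i _ => sq_abs _
      · rw [hG2]; unfold EQ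
        refine Finset.sum_congr rfl fun i _ => ?_
        rw [mul_pow, Real.sq_sqrt (hE0 i), sq_abs]
    rw [← Real.sqrt_mul hh2nn]
    exact Real.le_sqrt_of_sq_le h3
  -- the scale
  set Y := Real.sqrt Y2 with hYdef
  set h := Real.sqrt h2 with hhdef
  set G := Real.sqrt G2 with hGdef
  have hYY : Y * Y = Y2 := Real.mul_self_sqrt hY2nn
  have hhh : h * h = h2 := Real.mul_self_sqrt hh2nn
  have hGG : G * G = G2 := Real.mul_self_sqrt hEnn
  have hYp : 0 < Y := Real.sqrt_pos.2 hYpos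
  have hhp : 0 < h := Real.sqrt_pos.2 hh2pos
  have hG0 : 0 ≤ G := Real.sqrt_nonneg _
  set c := Y / h with hc
  have hcp : 0 < c := div_pos hYp hhp
  have hch : c * h = Y := by rw [hc]; (clear * - hhp hYp; field_simp)
  have hERh : Real.sqrt ER * h ≤ G := by
    rw [hhdef, hGdef, ← Real.sqrt_mul (by linarith only [hER] : (0 : ℝ) ≤ ER)]
    exact Real.sqrt_le_sqrt hηE
  have hER0 : 0 ≤ ER := by linarith only [hER]
  -- bound for z = y ± c η
  have hz : ∀ g : ℝ, g = 1 ∨ g = -1 →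
      |MQ w U (fun i => y i + g * c * η i) - EQ E (fun i => y i + g * c * η i)| ≤ 4 * c * Y * G ∧
      EQ E (fun i => y i + g * c * η i) = EQ E y + c ^ 2 * G2 := by
    intro g hg
    have hg2 : g ^ 2 = 1 := by rcases hg with rfl | rfl <;> norm_num
    have hsq : ∀ i, (y i + g * c * η i) ^ 2 = (y i) ^ 2 + c ^ 2 * (η i) ^ 2 := by
      intro i
      have := hdisj i
      have e : (y i + g * c * η i) ^ 2
          = (y i) ^ 2 + g ^ 2 * (c ^ 2 * (η i) ^ 2) + 2 * g * c * (y i * η i) := by ring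
      rw [e, this, hg2]; ring
    have e1 : ∑ i, (rk J i) ^ 2 * (y i + g * c * η i) ^ 2
        = ∑ i, (rk J i) ^ 2 * (y i) ^ 2 + c ^ 2 * ∑ i, (rk J i) ^ 2 * (η i) ^ 2 := by
      rw [Finset.mul_sum, ← Finset.sum_add_distrib]
      refine Finset.sum_congr rfl fun i _ => ?_
      rw [hsq]; ring
    have e2 : ∑ i, (y i + g * c * η i) ^ 2 = 2 * Y2 := by
      have : ∑ i, (y i + g * c * η i) ^ 2 = Y2 + c ^ 2 * h2 := by
        rw [hY2, hh2, Finset.mul_sum, ← Finset.sum_add_distrib]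
        exact Finset.sum_congr rfl fun i _ => hsq i
      rw [this]
      have : c ^ 2 * h2 = Y2 := by
        rw [← hhh, ← hYY, ← hch]; ring
      rw [this]; ring
    have e3 : EQ E (fun i => y i + g * c * η i) = EQ E y + c ^ 2 * G2 := by
      rw [hG2]
      unfold EQ
      rw [Finset.mul_sum, ← Finset.sum_add_distrib]
      refine Finset.sum_congr rfl fun i _ => ?_
      rw [hsq]; ring
    refine ⟨?_, e3⟩
    have hb := hbal (fun i => y i + g * c * η i) (by
      intro i hi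
      have h1 : y i = 0 := by
        simp only [hy]; rw [if_neg (by omega)]
      have h2 : η i = 0 := hη0 i (by omega)
      simp [h1, h2])
    refine le_trans hb ?_
    rw [e1, e2, e3, mul_add]
    have t1 : a * ∑ i, (rk J i) ^ 2 * (y i) ^ 2 ≤ c * Y * G := by
      refine le_trans hwin ?_
      calc Real.sqrt ER * Y2 = (Real.sqrt ER * h) * (c * Y) := by
            rw [← hYY]; nth_rewrite 1 [← hch]; ring
        _ ≤ G * (c * Y) := mul_le_mul_of_nonneg_right hERh (by (clear * - hYpos hh2pos; positivity))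
        _ = _ := by ring
    have t2 : a * (c ^ 2 * ∑ i, (rk J i) ^ 2 * (η i) ^ 2) ≤ c * Y * G := by
      calc a * (c ^ 2 * ∑ i, (rk J i) ^ 2 * (η i) ^ 2)
          = c ^ 2 * (a * ∑ i, (rk J i) ^ 2 * (η i) ^ 2) := by ring
        _ ≤ c ^ 2 * (h * G) := mul_le_mul_of_nonneg_left hrichη (by (clear * - hYpos hh2pos; positivity))
        _ = c * (c * h) * G := by ring
        _ = c * Y * G := by rw [hch]
    have t3 : Real.sqrt (2 * Y2) * Real.sqrt (EQ E y + c ^ 2 * G2) ≤ 2 * (c * Y * G) := by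
      rw [← Real.sqrt_mul (by (clear * - hYpos; positivity))]
      rw [show 2 * (c * Y * G) = Real.sqrt ((2 * (c * Y * G)) ^ 2) by
        rw [Real.sqrt_sq (by (clear * - hYpos hh2pos; positivity))]]
      apply Real.sqrt_le_sqrt
      have t4 : EQ E y ≤ c ^ 2 * G2 := by
        refine le_trans hwinE ?_
        calc ER * Y2 = c ^ 2 * (ER * h2) := by
              rw [← hYY, ← hhh]; nth_rewrite 1 [← hch]; nth_rewrite 1 [← hch]; ring
          _ ≤ c ^ 2 * G2 := mul_le_mul_of_nonneg_left hηE (by (clear * - hYpos hh2pos; positivity))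
      calc 2 * Y2 * (EQ E y + c ^ 2 * G2) ≤ 2 * Y2 * (c ^ 2 * G2 + c ^ 2 * G2) :=
            mul_le_mul_of_nonneg_left (by linarith only [t4]) (by (clear * - hYpos; positivity))
        _ = (2 * (c * Y * G)) ^ 2 := by rw [← hYY, ← hGG]; ring
    linarith only [t1, t2, t3]
  obtain ⟨hz1, hz2⟩ := hz 1 (Or.inl rfl)
  obtain ⟨hz3, hz4⟩ := hz (-1) (Or.inr rfl)
  have hMz : ∀ g : ℝ, MQ w U (fun i => y i + g * c * η i)
      = MQ w U y + 2 * (g * c) * Y2 + (g * c) ^ 2 * MQ w U η := by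
    intro g
    rw [MQ_eq, MQ_eq, MQ_eq, ← hB, Finset.mul_sum, Finset.mul_sum, ← Finset.sum_add_distrib,
      ← Finset.sum_add_distrib]
    refine Finset.sum_congr rfl fun v _ => ?_
    rw [ip_add, ip_smul]
    ring
  rw [hz2, hMz] at hz1
  rw [hz4, hMz] at hz3
  have h5 := (abs_le.1 hz1).2
  have h6 := (abs_le.1 hz3).1
  have h7 : 4 * c * Y2 ≤ 8 * c * Y * G := by linarith only [h5, h6]
  have h8 : Y ≤ 2 * G := by
    have h9 : 0 < 4 * c * Y := by (clear * - hYpos hh2pos; positivity)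
    have h11 : 4 * c * Y * Y ≤ 4 * c * Y * (2 * G) := by
      have e1 : 4 * c * Y * Y = 4 * c * Y2 := by rw [← hYY]; ring
      have e2 : 4 * c * Y * (2 * G) = 8 * c * Y * G := by ring
      rw [e1, e2]; exact h7
    exact le_of_mul_le_mul_left h11 h9
  have h10 : G2 ≤ 1 / 98 := hEle
  have h12 : Y * Y ≤ (2 * G) * (2 * G) := mul_self_le_mul_self hYp.le h8
  have h13 : (2 * G) * (2 * G) = 4 * G2 := by rw [← hGG]; ring
  rw [h13, hYY] at h12
  linarith only [hEle, h12]


theorem tiltProp : TiltProp := by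
  intro n ι _ _ w U J R E a ξ hw hJR hmono hE0 ha hbal hrich hξ
  rcases lt_or_ge R n with hRn | hRn
  swap
  · refine ⟨fun _ => 0, ?_, ?_, ?_, ?_⟩
    · intro v _; norm_num
    · simp only [ne_eq, OfNat.ofNat_ne_zero, not_false_eq_true, zero_pow, Finset.sum_const_zero, one_div, inv_nonneg, Nat.ofNat_nonneg]
    · intro i hi; exact absurd i.isLt (by omega)
    · simp only [zero_mul, Finset.sum_const_zero, ne_eq, OfNat.ofNat_ne_zero, not_false_eq_true, zero_pow, zero_le_one]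
  -- the linear system
  let L : (Fin n → ℝ) →ₗ[ℝ] (Fin n → ℝ) :=
    { toFun := fun η i => if R ≤ i.val then ∑ v ∈ U, ip w v η * w v i else η i
      map_add' := by
        intro y z
        funext i
        by_cases h : R ≤ i.val
        · simp only [Pi.add_apply, h, if_true]
          rw [← Finset.sum_add_distrib]
          refine Finset.sum_congr rfl fun v _ => ?_
          have := ip_add w v y z
          have h2 : ip w v (y + z) = ip w v y + ip w v z := this
          rw [h2]; ring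
        · simp only [h, ↓reduceIte, Pi.add_apply]
      map_smul' := by
        intro c y
        funext i
        by_cases h : R ≤ i.val
        · simp only [RingHom.id_apply, Pi.smul_apply, smul_eq_mul, h, if_true]
          rw [Finset.mul_sum]
          refine Finset.sum_congr rfl fun v _ => ?_
          have h2 : ip w v (c • y) = c * ip w v y := ip_smul w v c y
          rw [h2]; ring
        · simp only [h, ↓reduceIte, Pi.smul_apply, smul_eq_mul, Real.ringHom_apply] }
  have hLapp : ∀ η i, L η i = if R ≤ i.val then ∑ v ∈ U, ip w v η * w v i else η i :=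
    fun η i => rfl
  have hquad : ∀ η : Fin n → ℝ, (∀ i : Fin n, i.val < R → η i = 0) →
      MQ w U η = ∑ i ∈ hi n R, η i * ∑ v ∈ U, ip w v η * w v i := by
    intro η hη
    rw [MQ_eq]
    have h1 : ∑ v ∈ U, (ip w v η) ^ 2 = ∑ v ∈ U, ip w v η * ip w v η :=
      Finset.sum_congr rfl fun v _ => by ring
    rw [h1, sum_ip_mul]
    symm
    apply Finset.sum_subset (Finset.subset_univ _)
    intro i _ hi
    rw [tmem_hi] at hi
    rw [hη i (by omega), zero_mul]
  have hinj : Function.Injective L := by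
    rw [injective_iff_map_eq_zero]
    intro η h0
    have hη : ∀ i : Fin n, i.val < R → η i = 0 := by
      intro i hi
      have := congrFun h0 i
      rw [hLapp, if_neg (by omega)] at this
      exact this
    have hM : MQ w U η = 0 := by
      rw [hquad η hη]
      refine Finset.sum_eq_zero fun i hi => ?_
      rw [tmem_hi] at hi
      have := congrFun h0 i
      rw [hLapp, if_pos hi] at this
      rw [this]; simp
    have hc := coercive hJR hE0 hbal hrich hη
    rw [hM, zero_sub, abs_neg] at hc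
    have hE' : 0 ≤ EQ E η := Finset.sum_nonneg fun i _ => mul_nonneg (hE0 i) (sq_nonneg _)
    rw [abs_of_nonneg hE'] at hc
    have hEQ : EQ E η = 0 := by linarith only [hc, hE']
    unfold EQ at hEQ
    rw [Finset.sum_eq_zero_iff_of_nonneg (fun i _ => mul_nonneg (hE0 i) (sq_nonneg _))] at hEQ
    funext i
    rcases lt_or_ge i.val R with hi | hi
    · exact hη i hi
    · have h1 := hEQ i (Finset.mem_univ i)
      have h2 := (hrich i hi).1
      rcases mul_eq_zero.1 h1 with h3 | h3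
      · linarith only [h2, h3]
      · simpa using h3
  have hsurj : Function.Surjective L := LinearMap.injective_iff_surjective.1 hinj
  obtain ⟨η, hη⟩ := hsurj (fun i => if R ≤ i.val then ξ i else 0)
  have hη0 : ∀ i : Fin n, i.val < R → η i = 0 := by
    intro i hi
    have := congrFun hη i
    rw [hLapp, if_neg (by omega), if_neg (by omega)] at this
    exact this
  have hηξ : ∀ i : Fin n, R ≤ i.val → ∑ v ∈ U, ip w v η * w v i = ξ i := by
    intro i hi
    have := congrFun hη i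
    rw [hLapp, if_pos hi, if_pos hi] at this
    exact this
  have hMnn : 0 ≤ MQ w U η := Finset.sum_nonneg fun v _ => sq_nonneg _
  have hEnn : 0 ≤ EQ E η := Finset.sum_nonneg fun i _ => mul_nonneg (hE0 i) (sq_nonneg _)
  have hco := coercive hJR hE0 hbal hrich hη0
  have hME : EQ E η ≤ 8 / 7 * MQ w U η := by
    have := (abs_le.1 hco).1
    linarith only [hMnn, this]
  have hMsq : (MQ w U η) ^ 2 ≤ (1 / 128) * EQ E η := by
    have h1 : MQ w U η = ∑ i ∈ hi n R, (ξ i / Real.sqrt (E i)) * (Real.sqrt (E i) * η i) := by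
      rw [hquad η hη0]
      refine Finset.sum_congr rfl fun i hi => ?_
      rw [tmem_hi] at hi
      rw [hηξ i hi]
      have : 0 < Real.sqrt (E i) := Real.sqrt_pos.2 (by linarith only [(hrich i hi).1])
      (clear * - this; field_simp)
    rw [h1]
    refine le_trans (Finset.sum_mul_sq_le_sq_mul_sq _ _ _) ?_
    have h2 : ∑ i ∈ hi n R, (ξ i / Real.sqrt (E i)) ^ 2 ≤ 1 / 128 := by
      refine le_trans (le_of_eq ?_) hξ
      refine Finset.sum_congr rfl fun i hi => ?_
      rw [div_pow, Real.sq_sqrt (hE0 i)]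
    have h3 : ∑ i ∈ hi n R, (Real.sqrt (E i) * η i) ^ 2 ≤ EQ E η := by
      unfold EQ
      refine le_trans (le_of_eq ?_) (Finset.sum_le_sum_of_subset_of_nonneg
        (Finset.subset_univ (hi n R)) fun i _ _ => mul_nonneg (hE0 i) (sq_nonneg _))
      refine Finset.sum_congr rfl fun i hi => ?_
      rw [mul_pow, Real.sq_sqrt (hE0 i)]
    have h4 : 0 ≤ ∑ i ∈ hi n R, (Real.sqrt (E i) * η i) ^ 2 :=
      Finset.sum_nonneg fun i _ => sq_nonneg _
    exact mul_le_mul h2 h3 h4 (by norm_num)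
  have hM : MQ w U η ≤ 1 / 112 := by
    by_contra hcon
    push Not at hcon
    nlinarith only [hME, hMsq, hcon]
  have hEle : EQ E η ≤ 1 / 98 := by linarith only [hME, hM]
  have hηsq : ∑ i, (η i) ^ 2 ≤ EQ E η / 1000000 := by
    unfold EQ
    rw [Finset.sum_div]
    refine Finset.sum_le_sum fun i _ => ?_
    rcases lt_or_ge i.val R with hi | hi
    · rw [hη0 i hi]; simp
    · have := (hrich i hi).1
      have h8 : 0 ≤ (η i) ^ 2 := sq_nonneg _
      rw [le_div_iff₀ (by norm_num)]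
      nlinarith only [this]
  refine ⟨fun v => ip w v η, ?_, ?_, hηξ, ?_⟩
  · -- sup bound
    intro v hv
    have h1 : (ip w v η) ^ 2 ≤ (1 / 16) ^ 2 := by
      calc (ip w v η) ^ 2 ≤ (∑ i, (w v i) ^ 2) * ∑ i, (η i) ^ 2 := by
            unfold ip; exact Finset.sum_mul_sq_le_sq_mul_sq _ _ _
        _ ≤ 1 * ∑ i, (η i) ^ 2 :=
            mul_le_mul_of_nonneg_right (hw v hv) (Finset.sum_nonneg fun i _ => sq_nonneg _)
        _ ≤ (1 / 16) ^ 2 := by
            rw [one_mul]
            refine le_trans hηsq ?_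
            linarith only [hME, hM]
    exact abs_le_of_sq_le_sq h1 (by norm_num)
  · -- ℓ² bound
    have : ∑ v ∈ U, (ip w v η) ^ 2 = MQ w U η := rfl
    show ∑ v ∈ U, (ip w v η) ^ 2 ≤ 1 / 100
    rw [this]
    linarith only [hM]
  · -- crosstalk
    exact crosstalk hJR hmono hE0 ha hbal hrich hRn hη0 hEle

end Tilt

end Vale.Agent.P262.Sqrt
end
end

section

section

/-! Module UPDATE of the proof of `S_2(d) = O(√d)`. -/

open scoped BigOperators

namespace Vale.Agent.P262.Sqrt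

namespace Upd

theorem half_sum {ι : Type} [DecidableEq ι] (U : Finset ι) (s : ι → ℝ) (f : ι → ℝ) (g : ℝ)
    (hs : ∀ v, s v = 1 ∨ s v = -1) (hg : g = 1 ∨ g = -1) :
    ∑ v ∈ U.filter (fun v => s v = g), f v = (∑ v ∈ U, f v + g * ∑ v ∈ U, s v * f v) / 2 := by
  rw [Finset.sum_filter, Finset.mul_sum, ← Finset.sum_add_distrib, Finset.sum_div]
  refine Finset.sum_congr rfl fun v _ => ?_
  rcases hs v with h | h <;> rcases hg with h' | h' <;> rw [h, h'] <;> norm_num

/-- Cauchy–Schwarz on the `(i, i')` array. -/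
theorem array_bound {n : ℕ} (J : ℕ) (N : Fin n → Fin n → ℝ) (y : Fin n → ℝ) (m : ℝ) (hm : 0 ≤ m)
    (hy : ∀ i : Fin n, i.val < J → y i = 0)
    (hN : ∑ i ∈ hi n J, ∑ i' ∈ hi n J, (N i i') ^ 2 / ((rk J i) ^ 2 * (rk J i') ^ 2)
      ≤ (2 * m) ^ 2) :
    |∑ i, ∑ i', y i * y i' * N i i'| ≤ 2 * m * ∑ i, (rk J i) ^ 2 * (y i) ^ 2 := by
  have hpos : ∀ i ∈ hi n J, 0 < rk J i := by
    intro i hi'
    have : J ≤ i.val := by simpa only [hi, Finset.mem_filter, Finset.mem_univ, true_and] using hi'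
    have h2 : (J : ℝ) ≤ (i.val : ℝ) := by exact_mod_cast this
    unfold rk
    linarith only [h2]
  have e1 : ∑ i, ∑ i', y i * y i' * N i i'
      = ∑ i ∈ hi n J, ∑ i' ∈ hi n J, y i * y i' * N i i' := by
    symm
    have hz : ∀ i : Fin n, i ∉ hi n J → y i = 0 := by
      intro i hi'
      apply hy
      by_contra hc
      apply hi'
      simp only [hi, Finset.mem_filter, Finset.mem_univ, true_and]
      omega
    rw [Finset.sum_subset (Finset.subset_univ (hi n J))]
    · refine Finset.sum_congr rfl fun i _ => ?_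
      exact Finset.sum_subset (Finset.subset_univ _) (fun i' _ h => by rw [hz i' h]; ring)
    · intro i _ h
      refine Finset.sum_eq_zero fun i' _ => ?_
      rw [hz i h]; ring
  set P := (hi n J) ×ˢ (hi n J) with hP
  have e2 : ∑ i ∈ hi n J, ∑ i' ∈ hi n J, y i * y i' * N i i'
      = ∑ p ∈ P, (rk J p.1 * y p.1 * (rk J p.2 * y p.2)) * (N p.1 p.2 / (rk J p.1 * rk J p.2)) := by
    rw [hP, Finset.sum_product]
    refine Finset.sum_congr rfl fun i h => Finset.sum_congr rfl fun i' h' => ?_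
    have h1 := (hpos i h).ne'
    have h2 := (hpos i' h').ne'
    (clear * - h1 h2; field_simp)
  have e3 : ∑ p ∈ P, (N p.1 p.2 / (rk J p.1 * rk J p.2)) ^ 2 ≤ (2 * m) ^ 2 := by
    refine le_trans (le_of_eq ?_) hN
    rw [hP, Finset.sum_product]
    refine Finset.sum_congr rfl fun i h => Finset.sum_congr rfl fun i' h' => ?_
    rw [div_pow, mul_pow]
  have e4 : ∑ p ∈ P, (rk J p.1 * y p.1 * (rk J p.2 * y p.2)) ^ 2
      = (∑ i ∈ hi n J, (rk J i) ^ 2 * (y i) ^ 2) ^ 2 := by
    rw [hP, Finset.sum_product, sq, Finset.sum_mul_sum]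
    refine Finset.sum_congr rfl fun i h => Finset.sum_congr rfl fun i' h' => ?_
    ring
  have e5 : ∑ i ∈ hi n J, (rk J i) ^ 2 * (y i) ^ 2 ≤ ∑ i, (rk J i) ^ 2 * (y i) ^ 2 :=
    Finset.sum_le_sum_of_subset_of_nonneg (Finset.subset_univ _) (fun i _ _ => by (clear * -; positivity))
  have hS0 : 0 ≤ ∑ i ∈ hi n J, (rk J i) ^ 2 * (y i) ^ 2 :=
    Finset.sum_nonneg fun i _ => by (clear * -; positivity)
  have cs := Finset.sum_mul_sq_le_sq_mul_sq P
    (fun p => rk J p.1 * y p.1 * (rk J p.2 * y p.2)) (fun p => N p.1 p.2 / (rk J p.1 * rk J p.2))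
  rw [e1, e2]
  have h2 : (∑ p ∈ P, (rk J p.1 * y p.1 * (rk J p.2 * y p.2)) *
      (N p.1 p.2 / (rk J p.1 * rk J p.2))) ^ 2
      ≤ (2 * m * ∑ i ∈ hi n J, (rk J i) ^ 2 * (y i) ^ 2) ^ 2 := by
    refine le_trans cs ?_
    rw [e4, mul_pow, mul_comm]
    exact mul_le_mul_of_nonneg_right e3 (sq_nonneg _)
  have h3 := abs_le_of_sq_le_sq h2 (by (clear * - hm; positivity))
  calc _ ≤ 2 * m * ∑ i ∈ hi n J, (rk J i) ^ 2 * (y i) ^ 2 := h3
    _ ≤ _ := mul_le_mul_of_nonneg_left e5 (by (clear * - hm; positivity))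

/-- The drift term. -/
theorem drift_bound {n : ℕ} {ι : Type} (w : ι → Fin n → ℝ) (U : Finset ι) (x : ι → ℝ)
    (y : Fin n → ℝ) (hw : ∀ v ∈ U, ∑ i, (w v i) ^ 2 ≤ 1) (hx : ∑ v ∈ U, (x v) ^ 2 ≤ 1 / 100) :
    |∑ v ∈ U, x v * (∑ i, w v i * y i) ^ 2|
      ≤ 1 / 10 * (Real.sqrt (∑ i, (y i) ^ 2) * Real.sqrt (MQ w U y)) := by
  set Y := ∑ i, (y i) ^ 2 with hY
  have hY0 : 0 ≤ Y := Finset.sum_nonneg fun i _ => sq_nonneg _
  have hM0 : 0 ≤ MQ w U y := Finset.sum_nonneg fun i _ => sq_nonneg _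
  have hv : ∀ v ∈ U, (∑ i, w v i * y i) ^ 2 ≤ Y := by
    intro v hv
    have := Finset.sum_mul_sq_le_sq_mul_sq Finset.univ (w v) y
    refine le_trans this ?_
    calc (∑ i, (w v i) ^ 2) * ∑ i, (y i) ^ 2 ≤ 1 * Y :=
          mul_le_mul_of_nonneg_right (hw v hv) hY0
      _ = Y := one_mul _
  have cs := Finset.sum_mul_sq_le_sq_mul_sq U x (fun v => (∑ i, w v i * y i) ^ 2)
  have h4 : ∑ v ∈ U, ((∑ i, w v i * y i) ^ 2) ^ 2 ≤ Y * MQ w U y := by
    unfold MQ
    rw [Finset.mul_sum]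
    refine Finset.sum_le_sum fun v h => ?_
    rw [sq ((∑ i, w v i * y i) ^ 2)]
    exact mul_le_mul_of_nonneg_right (hv v h) (sq_nonneg _)
  have h5 : (∑ v ∈ U, x v * (∑ i, w v i * y i) ^ 2) ^ 2
      ≤ (1 / 10 * (Real.sqrt Y * Real.sqrt (MQ w U y))) ^ 2 := by
    refine le_trans cs ?_
    rw [mul_pow, mul_pow, Real.sq_sqrt hY0, Real.sq_sqrt hM0]
    calc (∑ v ∈ U, (x v) ^ 2) * ∑ v ∈ U, ((∑ i, w v i * y i) ^ 2) ^ 2
        ≤ (1 / 100) * (Y * MQ w U y) :=
          mul_le_mul hx h4 (Finset.sum_nonneg fun i _ => by (clear * -; positivity)) (by norm_num)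
      _ = _ := by ring
  exact abs_le_of_sq_le_sq h5 (by (clear * -; positivity))

theorem numeric (Y S e M a m D1 D2 G T : ℝ) (hY : 0 ≤ Y) (he : 0 ≤ e) (ha : 0 ≤ a)
    (hYS : Y ^ 2 ≤ S) (hM : |M - e ^ 2| ≤ a * S + Y * e)
    (hD1 : |D1| ≤ 2 * m * S) (hD2 : |D2| ≤ 1 / 10 * (Y * Real.sqrt M)) (hG : |G| ≤ 1)
    (hT : T = (M + G * (D1 + D2)) / 2) :
    |T - e ^ 2 / 2| ≤ (0.525 * a + 0.07 + m) * S + Y * (0.7 * e) := by
  have hS : 0 ≤ S := le_trans (sq_nonneg _) hYS
  set r := Real.sqrt (a * S) with hr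
  have hr0 : 0 ≤ r := Real.sqrt_nonneg _
  have hr2 : r ^ 2 = a * S := Real.sq_sqrt (by (clear * - ha hS; positivity))
  have hsM : Real.sqrt M ≤ e + Y / 2 + r := by
    rw [← Real.sqrt_sq (by (clear * - he hY; positivity) : 0 ≤ e + Y / 2 + r)]
    apply Real.sqrt_le_sqrt
    have := (abs_le.1 hM).2
    nlinarith only [hr2, this, mul_nonneg he hr0, mul_nonneg hY hr0, sq_nonneg Y]
  have h1 : Y * Real.sqrt M ≤ Y * (e + Y / 2 + r) := mul_le_mul_of_nonneg_left hsM hY
  have h2 : Y * r ≤ (Y ^ 2 + a * S) / 2 := by nlinarith only [hr2, sq_nonneg (Y - r)]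
  have h3 : |G * (D1 + D2)| ≤ 2 * m * S + 1 / 10 * (Y * Real.sqrt M) := by
    rw [abs_mul]
    calc |G| * |D1 + D2| ≤ 1 * (|D1| + |D2|) :=
          mul_le_mul hG (abs_add_le _ _) (abs_nonneg _) (by norm_num)
      _ ≤ _ := by linarith only [hD1, hD2]
  have h4 := abs_le.1 h3
  have h5 := abs_le.1 hM
  have haS : 0 ≤ a * S := by (clear * - ha hS; positivity)
  rw [abs_le]
  constructor <;> subst hT <;> nlinarith only [hYS, h1, h2, h4.1, h5.1, mul_nonneg hY he, h4.2, h5.2]

end Upd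

theorem updateProp : UpdateProp := by
  intro n ι _ _ w U J E a m s x hw hE ha hm hB hs hx hN g hg y hy
  have hpos : ∀ i : Fin n, J ≤ i.val → 1 ≤ rk J i := by
    intro i h
    have h2 : (J : ℝ) ≤ (i.val : ℝ) := by exact_mod_cast h
    unfold rk
    linarith only [h2]
  set S := ∑ i, (rk J i) ^ 2 * (y i) ^ 2 with hS
  have hYS : ∑ i, (y i) ^ 2 ≤ S := by
    refine Finset.sum_le_sum fun i _ => ?_
    by_cases h : i.val < J
    · rw [hy i h]; simp
    · have h1 := hpos i (by omega)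
      have h2 : 1 ≤ (rk J i) ^ 2 := by nlinarith only [h1]
      nlinarith only [h2]
  have hE0 : 0 ≤ EQ E y := Finset.sum_nonneg fun i _ => mul_nonneg (hE i) (sq_nonneg _)
  have hY0 : 0 ≤ ∑ i, (y i) ^ 2 := Finset.sum_nonneg fun i _ => sq_nonneg _
  have hB' := hB y hy
  -- the array
  have hD1 := Upd.array_bound J (fun i i' => ∑ v ∈ U, (s v - x v) * (w v i * w v i')) y m hm hy hN
  have eD1 : ∑ i, ∑ i', y i * y i' * (∑ v ∈ U, (s v - x v) * (w v i * w v i'))
      = ∑ v ∈ U, (s v - x v) * (∑ i, w v i * y i) ^ 2 := by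
    have : ∀ v, (s v - x v) * (∑ i, w v i * y i) ^ 2
        = ∑ i, ∑ i', y i * y i' * ((s v - x v) * (w v i * w v i')) := by
      intro v
      rw [sq, Finset.sum_mul_sum, Finset.mul_sum]
      refine Finset.sum_congr rfl fun i _ => ?_
      rw [Finset.mul_sum]
      refine Finset.sum_congr rfl fun i' _ => ?_
      ring
    simp_rw [this, Finset.mul_sum]
    calc ∑ i, ∑ i', ∑ v ∈ U, y i * y i' * ((s v - x v) * (w v i * w v i'))
        = ∑ i, ∑ v ∈ U, ∑ i', y i * y i' * ((s v - x v) * (w v i * w v i')) :=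
          Finset.sum_congr rfl fun i _ => Finset.sum_comm
      _ = _ := Finset.sum_comm
  have hD2 := Upd.drift_bound w U x y hw hx
  have key : MQ w (U.filter (fun v => s v = g)) y
      = (MQ w U y + g * ((∑ v ∈ U, (s v - x v) * (∑ i, w v i * y i) ^ 2)
        + ∑ v ∈ U, x v * (∑ i, w v i * y i) ^ 2)) / 2 := by
    unfold MQ
    rw [Upd.half_sum U s _ g hs hg, ← Finset.sum_add_distrib]
    congr 3
    refine Finset.sum_congr rfl fun v _ => ?_
    ring
  have hnum := Upd.numeric (Real.sqrt (∑ i, (y i) ^ 2)) S (Real.sqrt (EQ E y)) (MQ w U y) a m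
    (∑ v ∈ U, (s v - x v) * (∑ i, w v i * y i) ^ 2) (∑ v ∈ U, x v * (∑ i, w v i * y i) ^ 2) g
    (MQ w (U.filter (fun v => s v = g)) y) (Real.sqrt_nonneg _) (Real.sqrt_nonneg _) ha
    (by rw [Real.sq_sqrt hY0]; exact hYS) (by rw [Real.sq_sqrt hE0]; exact hB')
    (by rw [← eD1]; exact hD1) hD2 (by rcases hg with h | h <;> rw [h] <;> norm_num) key
  rw [Real.sq_sqrt hE0] at hnum
  have eE : EQ (fun i => E i / 2) y = EQ E y / 2 := by
    unfold EQ
    rw [Finset.sum_div]
    refine Finset.sum_congr rfl fun i _ => ?_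
    ring
  rw [eE]
  refine le_trans hnum ?_
  have h7 : 0.7 * Real.sqrt (EQ E y) ≤ Real.sqrt (EQ E y / 2) := by
    apply Real.le_sqrt_of_sq_le
    rw [mul_pow, Real.sq_sqrt hE0]
    nlinarith only [hE0]
  have := mul_le_mul_of_nonneg_left h7 (Real.sqrt_nonneg (∑ i, (y i) ^ 2))
  linarith only [this]

end Vale.Agent.P262.Sqrt
end
end
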