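import Vale.Agent.P262.MathlibUsed
import Vale.Agent.P262.Defs

set_option linter.all false

section

section

/-!
Products of the contractions `x ↦ x - (⟪w, x⟫ / c) w` and their defect forms.
-/

open scoped BigOperators InnerProductSpace

namespace Vale.Agent.P262.SigStr

variable {V : Type} [NormedAddCommGroup V] [InnerProductSpace ℝ V]

/-- One averaged step of the walk. -/
noncomputable def stp (c : ℝ) (w : V) : V →ₗ[ℝ] V :=
  LinearMap.id - (1 / c) • ((innerSL ℝ w : V →L[ℝ] ℝ).toLinearMap.smulRight w)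

lemma stp_apply (c : ℝ) (w x : V) : stp c w x = x - (⟪w, x⟫_ℝ / c) • w := by
  simp only [stp, div_eq_inv_mul, mul_one, ContinuousLinearMap.toLinearMap_innerSL_apply, LinearMap.sub_apply, LinearMap.id_coe, id_eq, LinearMap.smul_apply, LinearMap.coe_smulRight, innerₛₗ_apply_apply, smul_smul]

/-- `m` averaged steps starting at time `s`. -/
noncomputable def Am (c : ℝ) (v : ℕ → V) (s : ℕ) : ℕ → (V →ₗ[ℝ] V)
  | 0 => LinearMap.id
  | m + 1 => stp c (v (s + m)) ∘ₗ Am c v s m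

/-- The averaged walk from time `s` to time `t`. -/
noncomputable def Aw (c : ℝ) (v : ℕ → V) (s t : ℕ) : V →ₗ[ℝ] V := Am c v s (t - s)

lemma Aw_self (c : ℝ) (v : ℕ → V) (s : ℕ) : Aw c v s s = LinearMap.id := by
  simp only [Aw, tsub_self, Am]

lemma Aw_succ (c : ℝ) (v : ℕ → V) {s t : ℕ} (h : s ≤ t) :
    Aw c v s (t + 1) = stp c (v t) ∘ₗ Aw c v s t := by
  have e : t + 1 - s = (t - s) + 1 := by (clear * - h; omega)
  have e2 : s + (t - s) = t := by omega
  unfold Aw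
  rw [e]
  show stp c (v (s + (t - s))) ∘ₗ Am c v s (t - s) = _
  rw [e2]

lemma Aw_comp (c : ℝ) (v : ℕ → V) {r s t : ℕ} (h1 : r ≤ s) (h2 : s ≤ t) :
    Aw c v s t ∘ₗ Aw c v r s = Aw c v r t := by
  induction t, h2 using Nat.le_induction with
  | base => rw [Aw_self, LinearMap.id_comp]
  | succ t hst ih => rw [Aw_succ c v hst, Aw_succ c v (h1.trans hst), LinearMap.comp_assoc, ih]

lemma Aw_comp_apply (c : ℝ) (v : ℕ → V) {r s t : ℕ} (h1 : r ≤ s) (h2 : s ≤ t) (x : V) :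
    Aw c v s t (Aw c v r s x) = Aw c v r t x := by
  rw [← Aw_comp c v h1 h2]; rfl

/-- Defect form. -/
noncomputable def DD (T : V →ₗ[ℝ] V) (x : V) : ℝ := ‖x‖ ^ 2 - ‖T x‖ ^ 2

lemma stp_norm_sq (c : ℝ) (hc : 0 < c) (w x : V) :
    ‖stp c w x‖ ^ 2 = ‖x‖ ^ 2 - (2 / c - ‖w‖ ^ 2 / c ^ 2) * ⟪w, x⟫_ℝ ^ 2 := by
  rw [stp_apply, norm_sub_sq_real, norm_smul, real_inner_smul_right, mul_pow]
  rw [Real.norm_eq_abs, sq_abs, real_inner_comm x w]
  field_simp
  ring

lemma DD_stp (c : ℝ) (hc : 0 < c) (w x : V) :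
    DD (stp c w) x = (2 / c - ‖w‖ ^ 2 / c ^ 2) * ⟪w, x⟫_ℝ ^ 2 := by
  rw [DD, stp_norm_sq c hc]; ring

omit [InnerProductSpace ℝ V] in
lemma coef_lower (c : ℝ) (hc : 1 ≤ c) (w : V) (hw : ‖w‖ ≤ 1) :
    1 / c ≤ 2 / c - ‖w‖ ^ 2 / c ^ 2 := by
  have hc0 : 0 < c := by linarith only [hc]
  have h1 : ‖w‖ ^ 2 ≤ 1 := by
    have := norm_nonneg w
    nlinarith only [hw, this]
  have h2 : ‖w‖ ^ 2 / c ^ 2 ≤ 1 / c := by
    rw [div_le_div_iff₀ (by positivity) hc0]
    nlinarith only [hc, h1]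
  have h3 : 2 / c = 1 / c + 1 / c := by ring
  linarith only [h2, h3]

lemma stp_contr (c : ℝ) (hc : 1 ≤ c) (w x : V) (hw : ‖w‖ ≤ 1) : ‖stp c w x‖ ≤ ‖x‖ := by
  have hc0 : 0 < c := by linarith
  have h1 := stp_norm_sq c hc0 w x
  have h2 := coef_lower c hc w hw
  have h3 : 0 ≤ (2 / c - ‖w‖ ^ 2 / c ^ 2) * ⟪w, x⟫_ℝ ^ 2 := by
    apply mul_nonneg _ (sq_nonneg _)
    have : 0 < 1 / c := by positivity
    linarith only [h2, this]
  have h4 : ‖stp c w x‖ ^ 2 ≤ ‖x‖ ^ 2 := by linarith only [h1, h3]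
  exact (sq_le_sq₀ (norm_nonneg _) (norm_nonneg _)).1 h4

lemma Aw_contr (c : ℝ) (hc : 1 ≤ c) (v : ℕ → V) (hv : ∀ k, ‖v k‖ ≤ 1) (s t : ℕ) (x : V) :
    ‖Aw c v s t x‖ ≤ ‖x‖ := by
  unfold Aw
  generalize t - s = m
  induction m with
  | zero => exact le_rfl
  | succ m ih => exact (stp_contr c hc _ _ (hv _)).trans ih

/-- Contraction. -/
def Contr (T : V →ₗ[ℝ] V) : Prop := ∀ x, ‖T x‖ ≤ ‖x‖

lemma DD_nonneg {T : V →ₗ[ℝ] V} (hT : Contr T) (x : V) : 0 ≤ DD T x := by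
  have h1 := hT x
  have h2 := norm_nonneg (T x)
  unfold DD
  nlinarith only [h1, h2]

lemma DD_smul (T : V →ₗ[ℝ] V) (a : ℝ) (x : V) : DD T (a • x) = a ^ 2 * DD T x := by
  unfold DD
  rw [map_smul, norm_smul, norm_smul, mul_pow, mul_pow, Real.norm_eq_abs, sq_abs]; ring

lemma DD_add (T : V →ₗ[ℝ] V) (x y : V) :
    DD T (x + y) = DD T x + 2 * (⟪x, y⟫_ℝ - ⟪T x, T y⟫_ℝ) + DD T y := by
  unfold DD
  rw [map_add, norm_add_sq_real, norm_add_sq_real]; ring

/-- Cauchy-Schwarz for the defect form. -/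
lemma DD_cs {T : V →ₗ[ℝ] V} (hT : Contr T) (x y : V) :
    (⟪x, y⟫_ℝ - ⟪T x, T y⟫_ℝ) ^ 2 ≤ DD T x * DD T y := by
  set b := ⟪x, y⟫_ℝ - ⟪T x, T y⟫_ℝ with hb
  have key : ∀ t : ℝ, 0 ≤ DD T x * (t * t) + (2 * b) * t + DD T y := by
    intro t
    have h0 := DD_nonneg hT (t • x + y)
    rw [DD_add, DD_smul, map_smul, real_inner_smul_left, real_inner_smul_left] at h0
    nlinarith only [h0]
  have h := discrim_le_zero key
  unfold discrim at h
  nlinarith only [h]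

/-- Triangle inequality for the root of the defect form. -/
lemma sqrt_DD_add_le {T : V →ₗ[ℝ] V} (hT : Contr T) (x y : V) :
    Real.sqrt (DD T (x + y)) ≤ Real.sqrt (DD T x) + Real.sqrt (DD T y) := by
  have hx := DD_nonneg hT x
  have hy := DD_nonneg hT y
  apply Real.sqrt_le_iff.2
  refine ⟨by (clear * -; positivity), ?_⟩
  rw [DD_add, add_sq, Real.sq_sqrt hx, Real.sq_sqrt hy]
  have h1 := DD_cs hT x y
  have h2 : ⟪x, y⟫_ℝ - ⟪T x, T y⟫_ℝ ≤ Real.sqrt (DD T x) * Real.sqrt (DD T y) := by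
    rw [← Real.sqrt_mul hx]
    exact Real.le_sqrt_of_sq_le h1
  linarith only [h2]

lemma DD_comp (c : ℝ) (v : ℕ → V) {r s t : ℕ} (h1 : r ≤ s) (h2 : s ≤ t) (x : V) :
    DD (Aw c v r t) x = DD (Aw c v r s) x + DD (Aw c v s t) (Aw c v r s x) := by
  unfold DD
  rw [Aw_comp_apply c v h1 h2]; ring

end Vale.Agent.P262.SigStr
end
end

section

section

/-!
Structure theorem: every interval of steps is structured of level `≤ d`.
-/

open scoped BigOperators InnerProductSpace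

namespace Vale.Agent.P262.SigStr

/-- Concatenation of at most `m` items; an item is a `P` interval followed by one single step
(the last item may lack the single step). -/
inductive Blk (P : ℕ → ℕ → Prop) : ℕ → ℕ → ℕ → Prop
  | nil (m s : ℕ) : Blk P m s s
  | last {m s t : ℕ} : s ≤ t → P s t → Blk P (m + 1) s t
  | cons {m s r t : ℕ} : s ≤ r → P s r → Blk P m (r + 1) t → Blk P (m + 1) s t

/-- Chain of `Q` intervals from `s` to `T`; all but the last one satisfy `R`. -/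
inductive Chn (Q R : ℕ → ℕ → Prop) (T : ℕ) : ℕ → Prop
  | done : Chn Q R T T
  | last {s : ℕ} : s ≤ T → Q s T → Chn Q R T s
  | cons {s r : ℕ} : s ≤ r → r ≤ T → Q s r → R s r → Chn Q R T r → Chn Q R T s

variable {V : Type} [NormedAddCommGroup V] [InnerProductSpace ℝ V]

/-- After time `b` the form of the walk started at `a` does not change by more than `β`
before time `T`. -/
def Sep (c : ℝ) (v : ℕ → V) (β : ℝ) (T a b : ℕ) : Prop :=
  ∀ u, b ≤ u → u ≤ T → ∀ x : V, ‖Aw c v a u x‖ ^ 2 - ‖Aw c v a T x‖ ^ 2 ≤ β * ‖x‖ ^ 2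

/-- Structured intervals. -/
def Lev (c : ℝ) (v : ℕ → V) (G : ℕ) (β : ℝ) : ℕ → ℕ → ℕ → Prop
  | 0, s, t => s = t
  | n + 1, s, t => Chn (fun a b => Blk (Lev c v G β n) G a b) (Sep c v β t) t s

/-- The orthogonality relation to a subspace. -/
def Perp (F : Submodule ℝ V) (z : V) : Prop := ∀ f ∈ F, ⟪f, z⟫_ℝ = 0

section Step

variable {c : ℝ} (hc : 1 ≤ c) {v : ℕ → V} (hv : ∀ k, ‖v k‖ ≤ 1)
include hc hv

lemma Aw_C (s t : ℕ) : Contr (Aw c v s t) := Aw_contr c hc v hv s t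

lemma DD_mono {a b t : ℕ} (h1 : a ≤ b) (h2 : b ≤ t) (x : V) :
    DD (Aw c v a b) x ≤ DD (Aw c v a t) x := by
  rw [DD_comp c v h1 h2 x]
  have := DD_nonneg (Aw_C hc hv b t) (Aw c v a b x)
  linarith only [this]

/-- Images of frozen vectors are frozen. -/
lemma frozen_image {s0 t : ℕ} {E : Submodule ℝ V} {η η₁ : ℝ} (hη1 : 0 ≤ η₁)
    (hη2 : η ≤ η₁ * (1 - η))
    (hE : ∀ e ∈ E, DD (Aw c v s0 t) e ≤ η * ‖e‖ ^ 2) {a b : ℕ} (h1 : s0 ≤ a) (h2 : a ≤ b)
    (h3 : b ≤ t) {f : V} (hf : f ∈ E.map (Aw c v s0 a)) :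
    DD (Aw c v a b) f ≤ η₁ * ‖f‖ ^ 2 := by
  obtain ⟨e, he, rfl⟩ := hf
  have k1 := DD_mono hc hv h2 h3 (Aw c v s0 a e)
  have k2 := DD_comp c v h1 (h2.trans h3) e
  have k3 := hE e he
  have k4 : DD (Aw c v s0 a) e = ‖e‖ ^ 2 - ‖Aw c v s0 a e‖ ^ 2 := rfl
  have k5 := DD_nonneg (Aw_C hc hv s0 a) e
  have k6 := DD_nonneg (Aw_C hc hv a t) (Aw c v s0 a e)
  set N := ‖e‖ ^ 2 with hN
  set M := ‖Aw c v s0 a e‖ ^ 2 with hM
  have k7 : (1 - η) * N ≤ M := by linarith only [k2, k6, k3, k4]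
  have k8 : DD (Aw c v a t) (Aw c v s0 a e) ≤ η * N := by linarith only [k2, k5, k3]
  have k9 : η * N ≤ η₁ * M := by
    have hN0 : 0 ≤ N := sq_nonneg _
    calc η * N ≤ η₁ * (1 - η) * N := mul_le_mul_of_nonneg_right hη2 hN0
      _ = η₁ * ((1 - η) * N) := by ring
      _ ≤ η₁ * M := mul_le_mul_of_nonneg_left k7 hη1
  linarith only [k1, k2, k5, k3, k9]

/-- The frozen part of the image of a vector orthogonal to the frozen space is small. -/
lemma phi_bound {F : Submodule ℝ V} {η₁ : ℝ} (hη1 : 0 ≤ η₁) (hη3 : η₁ ≤ 1 / 2) {a b : ℕ}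
    (hF : ∀ f ∈ F, DD (Aw c v a b) f ≤ η₁ * ‖f‖ ^ 2) {z φ : V} (hz : Perp F z)
    (hφ : φ ∈ F.map (Aw c v a b)) (hp : ⟪Aw c v a b z - φ, φ⟫_ℝ = 0) :
    ‖φ‖ ^ 2 ≤ 2 * η₁ * ‖z‖ ^ 2 := by
  obtain ⟨f, hf, rfl⟩ := hφ
  have k1 := DD_cs (Aw_C hc hv a b) z f
  have k2 : ⟪z, f⟫_ℝ = 0 := by rw [real_inner_comm]; exact hz f hf
  have k3 : ⟪Aw c v a b z, Aw c v a b f⟫_ℝ = ‖Aw c v a b f‖ ^ 2 := by
    rw [inner_sub_left, real_inner_self_eq_norm_sq] at hp
    linarith only [hp]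
  rw [k2, k3] at k1
  have k4 : DD (Aw c v a b) z ≤ ‖z‖ ^ 2 := by
    unfold DD
    have := sq_nonneg ‖Aw c v a b z‖
    linarith only [this]
  have k5 := hF f hf
  have k6 : DD (Aw c v a b) f = ‖f‖ ^ 2 - ‖Aw c v a b f‖ ^ 2 := rfl
  set M := ‖Aw c v a b f‖ ^ 2 with hM
  have hM0 : 0 ≤ M := sq_nonneg _
  have k7 : ‖f‖ ^ 2 ≤ 2 * M := by
    have : 0 ≤ ‖f‖ ^ 2 := sq_nonneg _
    nlinarith only [hη3, k5, k6]
  have k8 : DD (Aw c v a b) f ≤ 2 * η₁ * M := by
    have := mul_le_mul_of_nonneg_left k7 hη1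
    linarith only [k5, this]
  have k9 : M * M ≤ ‖z‖ ^ 2 * (2 * η₁ * M) := by
    calc M * M = (0 - M) ^ 2 := by ring
      _ ≤ DD (Aw c v a b) z * DD (Aw c v a b) f := k1
      _ ≤ ‖z‖ ^ 2 * (2 * η₁ * M) :=
        mul_le_mul k4 k8 (DD_nonneg (Aw_C hc hv a b) f) (sq_nonneg _)
  rcases hM0.eq_or_lt with h0 | h0
  · rw [← h0]; (clear * - hη1; positivity)
  · have : M * M ≤ (2 * η₁ * ‖z‖ ^ 2) * M := by
      refine k9.trans (le_of_eq ?_); ring
    exact le_of_mul_le_mul_right this h0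

/-- Contraction of one item. -/
lemma item_contr [FiniteDimensional ℝ V] {F : Submodule ℝ V} {η₁ g ι : ℝ} (hη1 : 0 ≤ η₁)
    (hη3 : η₁ ≤ 1 / 2) (hg : 0 < g) {a b b' : ℕ} (hab : a ≤ b) (hb : b ≤ b')
    (hF : ∀ f ∈ F, DD (Aw c v a b) f ≤ η₁ * ‖f‖ ^ 2)
    (hF' : ∀ f ∈ F.map (Aw c v a b), DD (Aw c v b b') f ≤ η₁ * ‖f‖ ^ 2)
    (hK : ∀ θ, Perp (F.map (Aw c v a b)) θ → g * ‖θ‖ ^ 2 ≤ DD (Aw c v b b') θ)
    (hι1 : 4 * η₁ ≤ ι) (hι2 : 16 * η₁ ^ 2 ≤ g * ι)
    {z : V} (hz : Perp F z) (hbig : ι * ‖z‖ ^ 2 ≤ ‖Aw c v a b z‖ ^ 2) :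
    ‖Aw c v a b' z‖ ^ 2 ≤ (1 - g / 8) * ‖Aw c v a b z‖ ^ 2 := by
  set F' := F.map (Aw c v a b) with hF'def
  set y := Aw c v a b z with hy
  set φ : V := F'.starProjection y with hφ
  set ψ : V := y - φ with hψ
  have hφm : φ ∈ F' := Submodule.starProjection_apply_mem _ _
  have hψp : ∀ f ∈ F', ⟪ψ, f⟫_ℝ = 0 := fun f hf =>
    Submodule.starProjection_inner_eq_zero y f hf
  have k1 : ‖φ‖ ^ 2 ≤ 2 * η₁ * ‖z‖ ^ 2 :=
    phi_bound hc hv hη1 hη3 hF hz hφm (hψp φ hφm)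
  have k2 : ‖y‖ ^ 2 = ‖φ‖ ^ 2 + ‖ψ‖ ^ 2 := by
    have e : y = ψ + φ := by rw [hψ]; abel
    have : ⟪ψ, φ⟫_ℝ = 0 := hψp φ hφm
    rw [e, norm_add_sq_real, this]; ring
  have hz0 : 0 ≤ ‖z‖ ^ 2 := sq_nonneg _
  have k3 : ‖y‖ ^ 2 / 2 ≤ ‖ψ‖ ^ 2 := by
    have : 2 * (2 * η₁ * ‖z‖ ^ 2) ≤ ι * ‖z‖ ^ 2 := by
      have := mul_le_mul_of_nonneg_right hι1 hz0
      linarith only [this]
    linarith only [hbig, k1, k2, this]
  have k4 : g * ‖ψ‖ ^ 2 ≤ DD (Aw c v b b') ψ :=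
    hK ψ (fun f hf => by rw [real_inner_comm]; exact hψp f hf)
  have k5 : DD (Aw c v b b') φ ≤ η₁ * ‖φ‖ ^ 2 := hF' φ hφm
  -- sqrt triangle inequality
  have k6 : Real.sqrt (DD (Aw c v b b') ψ) ≤
      Real.sqrt (DD (Aw c v b b') y) + Real.sqrt (DD (Aw c v b b') φ) := by
    have e : ψ = y + (-1 : ℝ) • φ := by rw [hψ]; simp only [sub_eq_add_neg, neg_smul, one_smul]
    have h1 := sqrt_DD_add_le (Aw_C hc hv b b') y ((-1 : ℝ) • φ)
    rw [← e, DD_smul] at h1
    simpa only [ge_iff_le, even_two, Even.neg_pow, one_pow, one_mul] using h1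
  have k7 : DD (Aw c v b b') φ ≤ g * ‖ψ‖ ^ 2 / 4 := by
    have h1 : η₁ * ‖φ‖ ^ 2 ≤ η₁ * (2 * η₁ * ‖z‖ ^ 2) := mul_le_mul_of_nonneg_left k1 hη1
    have h2 : 16 * η₁ ^ 2 * ‖z‖ ^ 2 ≤ g * ι * ‖z‖ ^ 2 := mul_le_mul_of_nonneg_right hι2 hz0
    have h3 : g * (ι * ‖z‖ ^ 2) ≤ g * ‖y‖ ^ 2 := mul_le_mul_of_nonneg_left hbig hg.le
    have h4 : g * (‖y‖ ^ 2 / 2) ≤ g * ‖ψ‖ ^ 2 := mul_le_mul_of_nonneg_left k3 hg.le
    nlinarith only [k5, h1, h2, h3, h4]
  have k8 : Real.sqrt (DD (Aw c v b b') φ) ≤ Real.sqrt (g * ‖ψ‖ ^ 2) / 2 := by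
    have h1 : Real.sqrt (DD (Aw c v b b') φ) ≤ Real.sqrt (g * ‖ψ‖ ^ 2 / 4) :=
      Real.sqrt_le_sqrt k7
    have h2 : Real.sqrt (g * ‖ψ‖ ^ 2 / 4) = Real.sqrt (g * ‖ψ‖ ^ 2) / 2 := by
      rw [Real.sqrt_div' _ (by norm_num)]
      congr 1
      rw [show (4 : ℝ) = 2 ^ 2 by norm_num, Real.sqrt_sq (by norm_num)]
    rw [h2] at h1; exact h1
  have k9 : Real.sqrt (g * ‖ψ‖ ^ 2) ≤ Real.sqrt (DD (Aw c v b b') ψ) := Real.sqrt_le_sqrt k4
  have k10 : Real.sqrt (g * ‖ψ‖ ^ 2) / 2 ≤ Real.sqrt (DD (Aw c v b b') y) := by linarith only [k6,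
        k8, k9]
  have k11 : g * ‖ψ‖ ^ 2 / 4 ≤ DD (Aw c v b b') y := by
    have h0 : 0 ≤ Real.sqrt (g * ‖ψ‖ ^ 2) / 2 := by (clear * -; positivity)
    have h1 := mul_self_le_mul_self h0 k10
    rw [Real.mul_self_sqrt (DD_nonneg (Aw_C hc hv b b') y)] at h1
    have h2 : Real.sqrt (g * ‖ψ‖ ^ 2) / 2 * (Real.sqrt (g * ‖ψ‖ ^ 2) / 2) =
        g * ‖ψ‖ ^ 2 / 4 := by
      have := Real.mul_self_sqrt (show 0 ≤ g * ‖ψ‖ ^ 2 by (clear * - hg; positivity))
      nlinarith only [this]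
    linarith only [h1, h2]
  have k12 : ‖Aw c v a b' z‖ ^ 2 = ‖y‖ ^ 2 - DD (Aw c v b b') y := by
    rw [← Aw_comp_apply c v hab hb z]
    show ‖Aw c v b b' y‖ ^ 2 = ‖y‖ ^ 2 - (‖y‖ ^ 2 - ‖Aw c v b b' y‖ ^ 2)
    ring
  rw [k12]
  have h4 : g * (‖y‖ ^ 2 / 2) ≤ g * ‖ψ‖ ^ 2 := mul_le_mul_of_nonneg_left k3 hg.le
  nlinarith only [k11, h4]

end Step

end Vale.Agent.P262.SigStr
end
end

section

section

/-!
Reweighting lemma for positive normalized functionals (whitened form).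
-/

open scoped BigOperators

namespace Vale.Agent.P262.SigP2

lemma cosh_lower (x : ℝ) : 1 + x ^ 2 / 2 + x ^ 4 / 24 ≤ Real.cosh x := by
  have h0 : Real.cosh |x| = Real.cosh x := Real.cosh_abs x
  have hs := Real.hasSum_cosh |x|
  have := sum_le_hasSum (Finset.range 3) (fun i _ => by positivity) hs
  simp only [Finset.sum_range_succ, Finset.sum_range_zero] at this
  have e4 : |x| ^ 4 = x ^ 4 := Even.pow_abs (n := 4) (by decide) x
  have e2 : |x| ^ 2 = x ^ 2 := sq_abs x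
  rw [h0] at this
  norm_num [Nat.factorial, e4, e2] at this
  linarith only [this]

/-- Positive normalized linear functional on all real functions on `Ω`. -/
structure PosFun (Ω : Type) where
  ev : (Ω → ℝ) → ℝ
  add' : ∀ f g, ev (fun ω => f ω + g ω) = ev f + ev g
  smul' : ∀ (a : ℝ) f, ev (fun ω => a * f ω) = a * ev f
  pos' : ∀ f, (∀ ω, 0 ≤ f ω) → 0 ≤ ev f
  one' : ev (fun _ => 1) = 1

namespace PosFun

variable {Ω : Type} (E : PosFun Ω)

lemma ev_const (c : ℝ) : E.ev (fun _ => c) = c := by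
  have h := E.smul' c (fun _ => 1)
  simpa [E.one'] using h

lemma ev_zero : E.ev (fun _ => 0) = 0 := E.ev_const 0

lemma ev_neg (f : Ω → ℝ) : E.ev (fun ω => - f ω) = - E.ev f := by
  have h := E.smul' (-1) f
  simpa only [neg_mul, one_mul] using h

lemma ev_sub (f g : Ω → ℝ) : E.ev (fun ω => f ω - g ω) = E.ev f - E.ev g := by
  have h := E.add' f (fun ω => - g ω)
  simpa only [sub_eq_add_neg, E.ev_neg] using h

lemma ev_mono {f g : Ω → ℝ} (h : ∀ ω, f ω ≤ g ω) : E.ev f ≤ E.ev g := by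
  have h1 := E.pos' (fun ω => g ω - f ω) (fun ω => sub_nonneg.2 (h ω))
  rw [E.ev_sub] at h1
  linarith only [h1]

lemma ev_sum {ι : Type} (s : Finset ι) (f : ι → Ω → ℝ) :
    E.ev (fun ω => ∑ i ∈ s, f i ω) = ∑ i ∈ s, E.ev (f i) := by
  classical
  induction s using Finset.induction_on with
  | empty => simpa using E.ev_zero
  | insert a s ha ih =>
    have h := E.add' (f a) (fun ω => ∑ i ∈ s, f i ω)
    simp only [Finset.sum_insert ha]
    rw [h, ih]

/-- Cauchy-Schwarz for positive functionals. -/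
lemma ev_mul_sq_le (f g : Ω → ℝ) :
    (E.ev (fun ω => f ω * g ω)) ^ 2 ≤ E.ev (fun ω => f ω ^ 2) * E.ev (fun ω => g ω ^ 2) := by
  set a := E.ev (fun ω => f ω ^ 2) with ha
  set b := E.ev (fun ω => f ω * g ω) with hb
  set c := E.ev (fun ω => g ω ^ 2) with hc
  have key : ∀ t : ℝ, 0 ≤ a * (t * t) + (2 * b) * t + c := by
    intro t
    have h0 : 0 ≤ E.ev (fun ω => (t * f ω + g ω) ^ 2) := E.pos' _ (fun ω => sq_nonneg _)
    have h1 : E.ev (fun ω => (t * f ω + g ω) ^ 2) = a * (t * t) + (2 * b) * t + c := by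
      have e1 : (fun ω => (t * f ω + g ω) ^ 2) =
          (fun ω => (fun ω => (t * t) * (f ω ^ 2) + (2 * t) * (f ω * g ω)) ω + (g ω ^ 2)) := by
        funext ω; ring
      rw [e1, E.add' (fun ω => (t * t) * (f ω ^ 2) + (2 * t) * (f ω * g ω)) (fun ω => g ω ^ 2),
        E.add' (fun ω => (t * t) * (f ω ^ 2)) (fun ω => (2 * t) * (f ω * g ω)),
        E.smul' (t * t) (fun ω => f ω ^ 2), E.smul' (2 * t) (fun ω => f ω * g ω)]
      rw [← ha, ← hb, ← hc]; ring
    linarith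
  have h := discrim_le_zero key
  unfold discrim at h
  nlinarith only [h]

/-- Fourth moment of a subgaussian variable. -/
lemma ev_pow_four (Z : Ω → ℝ) (κ : ℝ) (hκ : 0 < κ)
    (h : ∀ t : ℝ, E.ev (fun ω => Real.exp (t * Z ω)) ≤ Real.exp (κ * t ^ 2 / 2)) :
    E.ev (fun ω => Z ω ^ 4) ≤ 11 * κ ^ 2 := by
  set t := Real.sqrt (2 / κ) with ht
  have ht2 : t ^ 2 = 2 / κ := Real.sq_sqrt (by positivity)
  have h1 := h t
  have h2 := h (-t)
  have e1 : κ * t ^ 2 / 2 = 1 := by rw [ht2]; field_simp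
  have e2 : κ * (-t) ^ 2 / 2 = 1 := by rw [neg_sq, ht2]; field_simp
  rw [e1] at h1
  rw [e2] at h2
  have hexp : Real.exp 1 < 2.7182818286 := Real.exp_one_lt_d9
  have key : ∀ x : ℝ, x ^ 4 / 12 + 2 ≤ Real.exp x + Real.exp (-x) := by
    intro x
    have hc := cosh_lower x
    rw [Real.cosh_eq] at hc
    nlinarith only [hc]
  have h3 : E.ev (fun ω => (t ^ 4 / 12) * Z ω ^ 4) ≤
      E.ev (fun ω => (fun ω => Real.exp (t * Z ω) + Real.exp (-t * Z ω)) ω - 2) := by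
    apply E.ev_mono
    intro ω
    have := key (t * Z ω)
    have e : -(t * Z ω) = -t * Z ω := by ring
    rw [e] at this
    have e' : (t * Z ω) ^ 4 / 12 = (t ^ 4 / 12) * Z ω ^ 4 := by ring
    show (t ^ 4 / 12) * Z ω ^ 4 ≤ Real.exp (t * Z ω) + Real.exp (-t * Z ω) - 2
    linarith only [this]
  rw [E.smul', E.ev_sub, E.ev_const, E.add'] at h3
  have e4 : t ^ 4 = 4 / κ ^ 2 := by
    have : t ^ 4 = (t ^ 2) ^ 2 := by ring
    rw [this, ht2]; ring
  rw [e4] at h3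
  have h5 : 4 / κ ^ 2 / 12 * E.ev (fun ω => Z ω ^ 4) ≤ 2 * (2.7182818286 - 1) := by
    linarith only [h1, h2, hexp, h3]
  have h6 : 4 / κ ^ 2 / 12 * E.ev (fun ω => Z ω ^ 4) = E.ev (fun ω => Z ω ^ 4) / (3 * κ ^ 2) := by
    field_simp; ring
  rw [h6, div_le_iff₀ (by positivity)] at h5
  nlinarith only [h5]

/-- Second moment of a subgaussian variable. -/
lemma ev_sq_le (Z : Ω → ℝ) (κ : ℝ) (hκ : 0 < κ)
    (h : ∀ t : ℝ, E.ev (fun ω => Real.exp (t * Z ω)) ≤ Real.exp (κ * t ^ 2 / 2)) :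
    E.ev (fun ω => Z ω ^ 2) ≤ 2 * κ := by
  set t := Real.sqrt (2 / κ) with ht
  have ht2 : t ^ 2 = 2 / κ := Real.sq_sqrt (by (clear * - hκ; positivity))
  have h1 := h t
  have h2 := h (-t)
  have e1 : κ * t ^ 2 / 2 = 1 := by rw [ht2]; field_simp
  have e2 : κ * (-t) ^ 2 / 2 = 1 := by rw [neg_sq, ht2]; field_simp
  rw [e1] at h1
  rw [e2] at h2
  have hexp : Real.exp 1 < 2.7182818286 := Real.exp_one_lt_d9
  have key : ∀ x : ℝ, x ^ 2 + 2 ≤ Real.exp x + Real.exp (-x) := by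
    intro x
    have hc := cosh_lower x
    rw [Real.cosh_eq] at hc
    have : 0 ≤ x ^ 4 := by (clear * -; positivity)
    linarith only [hc, this]
  have h3 : E.ev (fun ω => (t ^ 2) * Z ω ^ 2) ≤
      E.ev (fun ω => (fun ω => Real.exp (t * Z ω) + Real.exp (-t * Z ω)) ω - 2) := by
    apply E.ev_mono
    intro ω
    have := key (t * Z ω)
    have e : -(t * Z ω) = -t * Z ω := by ring
    rw [e] at this
    have e' : (t * Z ω) ^ 2 = (t ^ 2) * Z ω ^ 2 := by ring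
    show (t ^ 2) * Z ω ^ 2 ≤ Real.exp (t * Z ω) + Real.exp (-t * Z ω) - 2
    linarith only [this]
  rw [E.smul', E.ev_sub, E.ev_const, E.add'] at h3
  rw [ht2] at h3
  have h5 : 2 / κ * E.ev (fun ω => Z ω ^ 2) ≤ 2 * (2.7182818286 - 1) := by
    linarith only [h1, h2, hexp, h3]
  have h6 : 2 / κ * E.ev (fun ω => Z ω ^ 2) = E.ev (fun ω => Z ω ^ 2) * 2 / κ := by
    (clear * - hκ; field_simp)
  rw [h6, div_le_iff₀ (by positivity)] at h5
  linarith only [hκ, h5]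

end PosFun

open Classical in
/-- Indicator of a set, real valued. -/
noncomputable def ind {Ω : Type} (G : Set Ω) (ω : Ω) : ℝ := if ω ∈ G then 1 else 0

section Ind
variable {Ω : Type} (G : Set Ω)

lemma ind_of_mem {ω : Ω} (h : ω ∈ G) : ind G ω = 1 := by simp [ind, h]
lemma ind_of_not_mem {ω : Ω} (h : ω ∉ G) : ind G ω = 0 := by simp [ind, h]
lemma ind_nonneg (ω : Ω) : 0 ≤ ind G ω := by
  unfold ind; split <;> norm_num
lemma ind_le_one (ω : Ω) : ind G ω ≤ 1 := by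
  unfold ind; split <;> norm_num
lemma ind_sq (ω : Ω) : ind G ω ^ 2 = ind G ω := by
  by_cases h : ω ∈ G
  · rw [ind_of_mem G h]; norm_num
  · rw [ind_of_not_mem G h]; norm_num
lemma ind_compl (ω : Ω) : ind Gᶜ ω = 1 - ind G ω := by
  by_cases h : ω ∈ G
  · rw [ind_of_mem G h, ind_of_not_mem Gᶜ (by simpa using h)]; norm_num
  · rw [ind_of_not_mem G h, ind_of_mem Gᶜ (by simpa using h)]; norm_num

end Ind

section White

variable {Ω ι : Type} [Fintype ι] (E : PosFun Ω) (Y : ι → Ω → ℝ)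

/-- Linear combination of the coordinates. -/
def lc (Y : ι → Ω → ℝ) (φ : ι → ℝ) (ω : Ω) : ℝ := ∑ i, φ i * Y i ω

/-- Squared norm. -/
def nq (φ : ι → ℝ) : ℝ := ∑ i, φ i ^ 2

lemma nq_nonneg (φ : ι → ℝ) : 0 ≤ nq φ := Finset.sum_nonneg (fun _ _ => sq_nonneg _)

lemma lc_smul (t : ℝ) (φ : ι → ℝ) (ω : Ω) : lc Y (fun i => t * φ i) ω = t * lc Y φ ω := by
  unfold lc; rw [Finset.mul_sum]; exact Finset.sum_congr rfl (fun i _ => by ring)

lemma nq_smul (t : ℝ) (φ : ι → ℝ) : nq (fun i => t * φ i) = t ^ 2 * nq φ := by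
  unfold nq; rw [Finset.mul_sum]; exact Finset.sum_congr rfl (fun i _ => by ring)

lemma nq_eq_zero {φ : ι → ℝ} (h : nq φ = 0) (i : ι) : φ i = 0 := by
  unfold nq at h
  have := (Finset.sum_eq_zero_iff_of_nonneg (fun i _ => sq_nonneg (φ i))).1 h i (Finset.mem_univ i)
  simpa using this

/-- The tail second moment. -/
lemma tail_second (κ p : ℝ) (G : Set Ω) (hκ : 0 < κ) (hp0 : 0 ≤ p)
    (h3 : ∀ φ : ι → ℝ, E.ev (fun ω => Real.exp (lc Y φ ω)) ≤ Real.exp (κ * nq φ / 2))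
    (hp : E.ev (ind Gᶜ) ≤ p) (φ : ι → ℝ) :
    E.ev (fun ω => ind Gᶜ ω * lc Y φ ω ^ 2) ≤ 4 * κ * Real.sqrt p * nq φ := by
  rcases (nq_nonneg φ).eq_or_lt with h0 | h0
  · have hz : ∀ ω, lc Y φ ω = 0 := by
      intro ω
      unfold lc
      exact Finset.sum_eq_zero (fun i _ => by rw [nq_eq_zero h0.symm i]; ring)
    have : (fun ω => ind Gᶜ ω * lc Y φ ω ^ 2) = fun _ => (0 : ℝ) := by
      funext ω; rw [hz ω]; ring
    rw [this, E.ev_zero, ← h0]; simp
  · have h4 := E.ev_pow_four (lc Y φ) (κ * nq φ) (by positivity) (by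
      intro t
      have := h3 (fun i => t * φ i)
      simp only [lc_smul, nq_smul] at this
      refine this.trans (le_of_eq ?_)
      congr 1; ring)
    have hcs := E.ev_mul_sq_le (ind Gᶜ) (fun ω => lc Y φ ω ^ 2)
    have e1 : (fun ω => ind Gᶜ ω ^ 2) = ind Gᶜ := by funext ω; exact ind_sq _ ω
    have e2 : (fun ω => (fun ω => lc Y φ ω ^ 2) ω ^ 2) = fun ω => lc Y φ ω ^ 4 := by
      funext ω; ring
    rw [e1, e2] at hcs
    have hb0 : 0 ≤ E.ev (ind Gᶜ) := E.pos' _ (ind_nonneg _)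
    have hp4 : 0 ≤ E.ev (fun ω => lc Y φ ω ^ 4) := E.pos' _ (fun ω => by (clear * -; positivity))
    have hle : (E.ev (fun ω => ind Gᶜ ω * lc Y φ ω ^ 2)) ^ 2
        ≤ (4 * κ * Real.sqrt p * nq φ) ^ 2 := by
      calc _ ≤ _ := hcs
        _ ≤ p * (11 * (κ * nq φ) ^ 2) := by
            apply mul_le_mul hp h4 hp4 hp0
        _ ≤ p * (16 * (κ * nq φ) ^ 2) := by
            apply mul_le_mul_of_nonneg_left _ hp0
            nlinarith only []
        _ = (4 * κ * Real.sqrt p * nq φ) ^ 2 := by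
            have : (4 * κ * Real.sqrt p * nq φ) ^ 2 =
              16 * (κ * nq φ) ^ 2 * (Real.sqrt p) ^ 2 := by ring
            rw [this, Real.sq_sqrt hp0]; ring
    exact le_of_sq_le_sq hle (by (clear * - hκ h0; positivity)) |>.trans le_rfl

lemma ev_lc (h2 : ∀ i, E.ev (Y i) = 0) (φ : ι → ℝ) : E.ev (fun ω => lc Y φ ω) = 0 := by
  unfold lc
  rw [E.ev_sum Finset.univ (fun i ω => φ i * Y i ω)]
  exact Finset.sum_eq_zero (fun i _ => by rw [E.smul', h2 i, mul_zero])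

lemma ev_second (κ : ℝ) (hκ : 0 < κ)
    (h3 : ∀ φ : ι → ℝ, E.ev (fun ω => Real.exp (lc Y φ ω)) ≤ Real.exp (κ * nq φ / 2))
    (φ : ι → ℝ) : E.ev (fun ω => lc Y φ ω ^ 2) ≤ 2 * κ * nq φ := by
  rcases (nq_nonneg φ).eq_or_lt with h0 | h0
  · have hz : ∀ ω, lc Y φ ω = 0 := by
      intro ω
      unfold lc
      exact Finset.sum_eq_zero (fun i _ => by rw [nq_eq_zero h0.symm i]; ring)
    have : (fun ω => lc Y φ ω ^ 2) = fun _ => (0 : ℝ) := by
      funext ω; rw [hz ω]; ring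
    rw [this, E.ev_zero, ← h0]; simp
  · have h4 := E.ev_sq_le (lc Y φ) (κ * nq φ) (by positivity) (by
      intro t
      have := h3 (fun i => t * φ i)
      simp only [lc_smul, nq_smul] at this
      refine this.trans (le_of_eq ?_)
      congr 1; ring)
    linarith

/-- First moment on a small set. -/
lemma tail_first (κ p : ℝ) (G : Set Ω) (hκ : 0 < κ) (hp0 : 0 ≤ p)
    (h3 : ∀ φ : ι → ℝ, E.ev (fun ω => Real.exp (lc Y φ ω)) ≤ Real.exp (κ * nq φ / 2))
    (hp : E.ev (ind Gᶜ) ≤ p) (φ : ι → ℝ) :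
    (E.ev (fun ω => ind Gᶜ ω * lc Y φ ω)) ^ 2 ≤ 2 * κ * p * nq φ := by
  have hcs := E.ev_mul_sq_le (ind Gᶜ) (lc Y φ)
  have e1 : (fun ω => ind Gᶜ ω ^ 2) = ind Gᶜ := by funext ω; exact ind_sq _ ω
  rw [e1] at hcs
  have h4 := ev_second E Y κ hκ h3 φ
  have hp4 : 0 ≤ E.ev (fun ω => lc Y φ ω ^ 2) := E.pos' _ (fun ω => by positivity)
  calc _ ≤ _ := hcs
    _ ≤ p * (2 * κ * nq φ) := mul_le_mul hp h4 hp4 hp0
    _ = _ := by ring

/-- Existence of the tilt vector. -/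
lemma exists_tilt [DecidableEq ι] (a : ℝ) (ha : 0 < a) (G : Set Ω)
    (hS : ∀ φ : ι → ℝ, a * nq φ ≤ E.ev (fun ω => ind G ω * lc Y φ ω ^ 2)) :
    ∃ b : ι → ℝ, ∀ φ : ι → ℝ,
      E.ev (fun ω => ind G ω * (lc Y b ω * lc Y φ ω)) = - E.ev (fun ω => ind G ω * lc Y φ ω) := by
  let S : Matrix ι ι ℝ := fun i j => E.ev (fun ω => ind G ω * (Y i ω * Y j ω))
  have hmul : ∀ b : ι → ℝ, ∀ i, (S.mulVec b) i = E.ev (fun ω => ind G ω * (lc Y b ω * Y i ω)) := by
    intro b i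
    have h1 : (fun ω => ind G ω * (lc Y b ω * Y i ω)) =
        fun ω => ∑ j, b j * (ind G ω * (Y i ω * Y j ω)) := by
      funext ω
      unfold lc
      rw [Finset.sum_mul, Finset.mul_sum]
      exact Finset.sum_congr rfl (fun j _ => by ring)
    rw [h1, E.ev_sum Finset.univ (fun j ω => b j * (ind G ω * (Y i ω * Y j ω)))]
    show ∑ j, S i j * b j = _
    refine Finset.sum_congr rfl (fun j _ => ?_)
    rw [E.smul']
    exact mul_comm _ _
  have hform : ∀ b φ : ι → ℝ, E.ev (fun ω => ind G ω * (lc Y b ω * lc Y φ ω)) =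
      ∑ i, φ i * (S.mulVec b) i := by
    intro b φ
    have h1 : (fun ω => ind G ω * (lc Y b ω * lc Y φ ω)) =
        fun ω => ∑ i, φ i * (ind G ω * (lc Y b ω * Y i ω)) := by
      funext ω
      have : lc Y φ ω = ∑ i, φ i * Y i ω := rfl
      rw [this, Finset.mul_sum, Finset.mul_sum]
      exact Finset.sum_congr rfl (fun j _ => by ring)
    rw [h1, E.ev_sum Finset.univ (fun i ω => φ i * (ind G ω * (lc Y b ω * Y i ω)))]
    refine Finset.sum_congr rfl (fun i _ => ?_)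
    rw [E.smul', hmul]
  have hinj : Function.Injective S.mulVecLin := by
    rw [← LinearMap.ker_eq_bot, LinearMap.ker_eq_bot']
    intro b hb
    have hb' : S.mulVec b = 0 := hb
    have h1 := hS b
    have h2 : E.ev (fun ω => ind G ω * lc Y b ω ^ 2) = 0 := by
      have e : (fun ω => ind G ω * lc Y b ω ^ 2) = fun ω => ind G ω * (lc Y b ω * lc Y b ω) := by
        funext ω; ring
      rw [e, hform b b, hb']; simp only [Pi.zero_apply, mul_zero, Finset.sum_const_zero]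
    rw [h2] at h1
    have h3 : nq b = 0 := by
      have := nq_nonneg b
      nlinarith only [ha, h1, this]
    funext i
    exact nq_eq_zero h3 i
  have hsurj : Function.Surjective S.mulVecLin := LinearMap.injective_iff_surjective.1 hinj
  obtain ⟨b, hb⟩ := hsurj (fun i => - E.ev (fun ω => ind G ω * Y i ω))
  refine ⟨b, fun φ => ?_⟩
  have hb' : S.mulVec b = fun i => - E.ev (fun ω => ind G ω * Y i ω) := hb
  rw [hform b φ, hb']
  have h1 : (fun ω => ind G ω * lc Y φ ω) = fun ω => ∑ i, φ i * (ind G ω * Y i ω) := by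
    funext ω
    have : lc Y φ ω = ∑ i, φ i * Y i ω := rfl
    rw [this, Finset.mul_sum]
    exact Finset.sum_congr rfl (fun j _ => by ring)
  rw [h1, E.ev_sum Finset.univ (fun i ω => φ i * (ind G ω * Y i ω)), ← Finset.sum_neg_distrib]
  refine Finset.sum_congr rfl (fun i _ => ?_)
  rw [E.smul']; ring

/-- Cauchy-Schwarz for `lc` on a bounded set. -/
lemma lc_sq_le (b : ι → ℝ) (K : ℝ) (ω : Ω) (hY : ∀ i, |Y i ω| ≤ K) :
    lc Y b ω ^ 2 ≤ nq b * (Fintype.card ι * K ^ 2) := by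
  unfold lc nq
  have h1 := Finset.sum_mul_sq_le_sq_mul_sq Finset.univ b (fun i => Y i ω)
  have h2 : ∑ i, Y i ω ^ 2 ≤ Fintype.card ι * K ^ 2 := by
    have : ∑ i, Y i ω ^ 2 ≤ ∑ _i : ι, K ^ 2 :=
      Finset.sum_le_sum (fun i _ => by
        have := hY i
        rw [← sq_abs]
        exact pow_le_pow_left₀ (abs_nonneg _) this 2)
    simpa only [ge_iff_le, Finset.sum_const, Finset.card_univ, nsmul_eq_mul] using this
  exact h1.trans (mul_le_mul_of_nonneg_left h2 (Finset.sum_nonneg (fun _ _ => sq_nonneg _)))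

/-- **Reweighting lemma, whitened form.** -/
theorem reweight_white (κ ν K p ρ η : ℝ) (G : Set Ω)
    (hκ : 0 < κ) (hν : 0 < ν) (hp0 : 0 ≤ p)
    (h2 : ∀ i, E.ev (Y i) = 0)
    (h3 : ∀ φ : ι → ℝ, E.ev (fun ω => Real.exp (lc Y φ ω)) ≤ Real.exp (κ * nq φ / 2))
    (h4 : ∀ φ : ι → ℝ, ν * nq φ ≤ E.ev (fun ω => lc Y φ ω ^ 2))
    (hG : ∀ ω ∈ G, ∀ i, |Y i ω| ≤ K)
    (hp : E.ev (ind Gᶜ) ≤ p)
    (hs1 : 8 * κ * Real.sqrt p ≤ ν)
    (hη0 : 0 ≤ η) (hη1 : η ≤ 1 / 2)
    (hη : 8 * κ * p * (Fintype.card ι * K ^ 2) ≤ η ^ 2 * ν ^ 2)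
    (hpos : p + 4 * κ * p / ν < 1)
    (hρ : 1 + η ≤ (1 + ρ) * (1 - p - 4 * κ * p / ν)) (hηρ : η ≤ ρ) :
    ∃ E' : PosFun Ω,
      (∀ f : Ω → ℝ, (∀ ω ∈ G, f ω = 0) → E'.ev f = 0) ∧
      (∀ f : Ω → ℝ, (∀ ω, 0 ≤ f ω) → E'.ev f ≤ (1 + ρ) * E.ev f) ∧
      (∀ φ : ι → ℝ, E'.ev (lc Y φ) = 0) ∧
      (∀ φ : ι → ℝ, E'.ev (fun ω => Real.exp (lc Y φ ω)) ≤
        Real.exp (κ * (1 + ρ) * nq φ / 2)) ∧
      (∀ φ : ι → ℝ, (1 - ρ) * (ν - 4 * κ * Real.sqrt p) * nq φ ≤
        E'.ev (fun ω => lc Y φ ω ^ 2)) := by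
  classical
  have hsq0 : 0 ≤ Real.sqrt p := Real.sqrt_nonneg p
  have hρ0 : 0 ≤ ρ := hη0.trans hηρ
  -- lower bound on the restricted form
  have hS0 : ∀ φ : ι → ℝ, (ν - 4 * κ * Real.sqrt p) * nq φ ≤
      E.ev (fun ω => ind G ω * lc Y φ ω ^ 2) := by
    intro φ
    have h5 := tail_second E Y κ p G hκ hp0 h3 hp φ
    have h6 := h4 φ
    have e : (fun ω => ind G ω * lc Y φ ω ^ 2) =
        fun ω => lc Y φ ω ^ 2 - ind Gᶜ ω * lc Y φ ω ^ 2 := by
      funext ω; rw [ind_compl]; ring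
    rw [e, E.ev_sub (fun ω => lc Y φ ω ^ 2) (fun ω => ind Gᶜ ω * lc Y φ ω ^ 2)]
    nlinarith only [h5, h6]
  have hS : ∀ φ : ι → ℝ, (ν / 2) * nq φ ≤ E.ev (fun ω => ind G ω * lc Y φ ω ^ 2) := by
    intro φ
    have h5 := hS0 φ
    have h6 := nq_nonneg φ
    have h7 : ν / 2 ≤ ν - 4 * κ * Real.sqrt p := by linarith only [hs1]
    exact (mul_le_mul_of_nonneg_right h7 h6).trans h5
  obtain ⟨b, hb⟩ := exists_tilt E Y (ν / 2) (by positivity) G hS
  -- size of b
  set T := E.ev (fun ω => ind Gᶜ ω * lc Y b ω) with hT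
  have hTm : E.ev (fun ω => ind G ω * lc Y b ω) = - T := by
    have e : (fun ω => ind G ω * lc Y b ω) = fun ω => lc Y b ω - ind Gᶜ ω * lc Y b ω := by
      funext ω; rw [ind_compl]; ring
    rw [e, E.ev_sub (fun ω => lc Y b ω) (fun ω => ind Gᶜ ω * lc Y b ω), ev_lc E Y h2 b]
    ring
  have hbb : E.ev (fun ω => ind G ω * lc Y b ω ^ 2) = T := by
    have e : (fun ω => ind G ω * lc Y b ω ^ 2) = fun ω => ind G ω * (lc Y b ω * lc Y b ω) := by
      funext ω; ring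
    rw [e, hb b, hTm]; ring
  have hT2 : T ^ 2 ≤ 2 * κ * p * nq b := tail_first E Y κ p G hκ hp0 h3 hp b
  have hT3 : (ν / 2) * nq b ≤ T := by rw [← hbb]; exact hS b
  have hnb0 := nq_nonneg b
  have hT0 : 0 ≤ T := le_trans (by (clear * - hν hnb0; positivity)) hT3
  have hTle : T ≤ 4 * κ * p / ν := by
    rw [le_div_iff₀ hν]
    rcases hT0.eq_or_lt with h0 | h0
    · rw [← h0]; simp only [zero_mul]; (clear * - hκ hp0; positivity)
    · have : T * T ≤ 2 * κ * p * (2 * T / ν) := by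
        have h5 : nq b ≤ 2 * T / ν := by
          rw [le_div_iff₀ hν]; linarith only [hT3]
        have h6 : 0 ≤ 2 * κ * p := by (clear * - hκ hp0; positivity)
        nlinarith only [hT2, mul_le_mul_of_nonneg_left h5 h6]
      have h7 : T * T ≤ (4 * κ * p / ν) * T := by
        refine this.trans (le_of_eq ?_); ring
      have h8 : T ≤ 4 * κ * p / ν := le_of_mul_le_mul_right h7 h0
      rwa [le_div_iff₀ hν] at h8
  have hnb : nq b ≤ 8 * κ * p / ν ^ 2 := by
    rw [le_div_iff₀ (by positivity)]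
    have h5 : T * ν ≤ 4 * κ * p := by rwa [le_div_iff₀ hν] at hTle
    nlinarith only [hν, hT3, h5]
  have hbη : ∀ ω ∈ G, |lc Y b ω| ≤ η := by
    intro ω hω
    apply abs_le_of_sq_le_sq _ hη0
    have h5 := lc_sq_le Y b K ω (hG ω hω)
    have h6 : 0 ≤ (Fintype.card ι : ℝ) * K ^ 2 := by (clear * -; positivity)
    have h7 : nq b * (Fintype.card ι * K ^ 2) ≤ 8 * κ * p / ν ^ 2 * (Fintype.card ι * K ^ 2) :=
      mul_le_mul_of_nonneg_right hnb h6
    have h8 : 8 * κ * p / ν ^ 2 * (Fintype.card ι * K ^ 2) ≤ η ^ 2 := by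
      rw [div_mul_eq_mul_div, div_le_iff₀ (by positivity)]
      exact hη
    linarith only [h5, h7, h8]
  -- the density
  have hw0 : ∀ ω, 0 ≤ ind G ω * (1 + lc Y b ω) := by
    intro ω
    by_cases h : ω ∈ G
    · rw [ind_of_mem G h]
      have := (abs_le.1 (hbη ω h)).1
      nlinarith only [hη1, this]
    · rw [ind_of_not_mem G h]; simp
  have hwlo : ∀ ω, (1 - η) * ind G ω ≤ ind G ω * (1 + lc Y b ω) := by
    intro ω
    by_cases h : ω ∈ G
    · rw [ind_of_mem G h]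
      have := (abs_le.1 (hbη ω h)).1
      nlinarith only [this]
    · rw [ind_of_not_mem G h]; simp
  have hwhi : ∀ ω, ind G ω * (1 + lc Y b ω) ≤ 1 + η := by
    intro ω
    by_cases h : ω ∈ G
    · rw [ind_of_mem G h]
      have := (abs_le.1 (hbη ω h)).2
      nlinarith only [this]
    · rw [ind_of_not_mem G h]; linarith only [hη0]
  set Z := E.ev (fun ω => ind G ω * (1 + lc Y b ω)) with hZ
  have hPG : E.ev (ind G) = 1 - E.ev (ind Gᶜ) := by
    have e : (ind Gᶜ) = fun ω => (fun _ => (1:ℝ)) ω - ind G ω := by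
      funext ω; rw [ind_compl]
    rw [e, E.ev_sub, E.one']; ring
  have hPc : 0 ≤ E.ev (ind Gᶜ) := E.pos' _ (ind_nonneg _)
  have hZe : Z = 1 - E.ev (ind Gᶜ) - T := by
    have e : (fun ω => ind G ω * (1 + lc Y b ω)) = fun ω => ind G ω + ind G ω * lc Y b ω := by
      funext ω; ring
    rw [hZ, e, E.add' (ind G) (fun ω => ind G ω * lc Y b ω), hPG, hTm]; ring
  have hZ1 : Z ≤ 1 := by rw [hZe]; linarith only [hT0, hPc]
  have hZlo : 1 - p - 4 * κ * p / ν ≤ Z := by rw [hZe]; linarith only [hp, hTle]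
  have hZ0 : 0 < Z := by linarith only [hp, hpos, hTle, hZe]
  let E' : PosFun Ω :=
    { ev := fun f => E.ev (fun ω => ind G ω * (1 + lc Y b ω) * f ω) / Z
      add' := by
        intro f g
        have e : (fun ω => ind G ω * (1 + lc Y b ω) * (f ω + g ω)) =
            fun ω => ind G ω * (1 + lc Y b ω) * f ω + ind G ω * (1 + lc Y b ω) * g ω := by
          funext ω; ring
        show E.ev (fun ω => ind G ω * (1 + lc Y b ω) * (f ω + g ω)) / Z = _
        rw [e, E.add' (fun ω => ind G ω * (1 + lc Y b ω) * f ω)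
          (fun ω => ind G ω * (1 + lc Y b ω) * g ω), add_div]
      smul' := by
        intro a f
        have e : (fun ω => ind G ω * (1 + lc Y b ω) * (a * f ω)) =
            fun ω => a * (ind G ω * (1 + lc Y b ω) * f ω) := by
          funext ω; ring
        show E.ev (fun ω => ind G ω * (1 + lc Y b ω) * (a * f ω)) / Z = _
        rw [e, E.smul', mul_div_assoc]
      pos' := by
        intro f hf
        exact div_nonneg (E.pos' _ (fun ω => mul_nonneg (hw0 ω) (hf ω))) hZ0.le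
      one' := by
        have e : (fun ω => ind G ω * (1 + lc Y b ω) * 1) =
            fun ω => ind G ω * (1 + lc Y b ω) := by funext ω; ring
        show E.ev (fun ω => ind G ω * (1 + lc Y b ω) * 1) / Z = 1
        rw [e, ← hZ]; exact div_self hZ0.ne' }
  have hE' : ∀ f, E'.ev f = E.ev (fun ω => ind G ω * (1 + lc Y b ω) * f ω) / Z := fun f => rfl
  have hdom : ∀ f : Ω → ℝ, (∀ ω, 0 ≤ f ω) → E'.ev f ≤ (1 + ρ) * E.ev f := by
    intro f hf
    rw [hE', div_le_iff₀ hZ0]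
    have h5 : E.ev (fun ω => ind G ω * (1 + lc Y b ω) * f ω) ≤ (1 + η) * E.ev f := by
      rw [← E.smul']
      exact E.ev_mono (fun ω => mul_le_mul_of_nonneg_right (hwhi ω) (hf ω))
    have h6 : 0 ≤ E.ev f := E.pos' _ hf
    have h7 : 1 + η ≤ (1 + ρ) * Z := hρ.trans (mul_le_mul_of_nonneg_left hZlo (by linarith only [hη0,
          hηρ]))
    nlinarith only [h5, mul_le_mul_of_nonneg_right h7 h6]
  have hmean : ∀ φ : ι → ℝ, E'.ev (lc Y φ) = 0 := by
    intro φ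
    rw [hE']
    have e : (fun ω => ind G ω * (1 + lc Y b ω) * lc Y φ ω) =
        fun ω => ind G ω * lc Y φ ω + ind G ω * (lc Y b ω * lc Y φ ω) := by
      funext ω; ring
    rw [e, E.add' (fun ω => ind G ω * lc Y φ ω) (fun ω => ind G ω * (lc Y b ω * lc Y φ ω)),
      hb φ]
    simp
  refine ⟨E', ?_, hdom, hmean, ?_, ?_⟩
  · intro f hf
    rw [hE']
    have e : (fun ω => ind G ω * (1 + lc Y b ω) * f ω) = fun _ => (0 : ℝ) := by
      funext ω
      by_cases h : ω ∈ G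
      · rw [hf ω h]; ring
      · rw [ind_of_not_mem G h]; ring
    rw [e, E.ev_zero, zero_div]
  · intro φ
    have h5 := hdom (fun ω => Real.exp (lc Y φ ω) - 1 - lc Y φ ω) (fun ω => by
      have := Real.add_one_le_exp (lc Y φ ω)
      linarith only [this])
    have e1 : ∀ F : PosFun Ω, F.ev (fun ω => Real.exp (lc Y φ ω) - 1 - lc Y φ ω) =
        F.ev (fun ω => Real.exp (lc Y φ ω)) - 1 - F.ev (lc Y φ) := by
      intro F
      rw [F.ev_sub (fun ω => Real.exp (lc Y φ ω) - 1) (lc Y φ),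
        F.ev_sub (fun ω => Real.exp (lc Y φ ω)) (fun _ => 1), F.one']
    rw [e1, e1, hmean φ] at h5
    have h6 : E.ev (lc Y φ) = 0 := ev_lc E Y h2 φ
    rw [h6] at h5
    have h7 := h3 φ
    set a := κ * nq φ / 2 with ha
    have ha0 : 0 ≤ a := by
      have := nq_nonneg φ
      (clear * - hκ this; positivity)
    have h8 : κ * (1 + ρ) * nq φ / 2 = (1 + ρ) * a := by rw [ha]; ring
    rw [h8]
    have h9 : 1 + (1 + ρ) * (Real.exp a - 1) ≤ Real.exp ((1 + ρ) * a) := by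
      have hb1 : (-1 : ℝ) ≤ Real.exp a - 1 := by
        have := Real.exp_pos a
        linarith only [this]
      have := one_add_mul_self_le_rpow_one_add hb1 (p := 1 + ρ) (by linarith only [hη0, hηρ])
      have e2 : (1 + (Real.exp a - 1)) ^ (1 + ρ) = Real.exp ((1 + ρ) * a) := by
        have : 1 + (Real.exp a - 1) = Real.exp a := by ring
        rw [this, ← Real.exp_mul, mul_comm]
      rw [e2] at this
      exact this
    have h10 : (1 + ρ) * (E.ev (fun ω => Real.exp (lc Y φ ω)) - 1 - 0) ≤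
        (1 + ρ) * (Real.exp a - 1) :=
      mul_le_mul_of_nonneg_left (by linarith only [h7]) (by linarith only [hη0, hηρ])
    linarith only [h5, h9, h10]
  · intro φ
    rw [hE', le_div_iff₀ hZ0]
    have h5 : (1 - η) * E.ev (fun ω => ind G ω * lc Y φ ω ^ 2) ≤
        E.ev (fun ω => ind G ω * (1 + lc Y b ω) * lc Y φ ω ^ 2) := by
      rw [← E.smul']
      apply E.ev_mono
      intro ω
      have := mul_le_mul_of_nonneg_right (hwlo ω) (sq_nonneg (lc Y φ ω))
      linarith only [this]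
    have h6 := hS0 φ
    have h7 : 0 ≤ (ν - 4 * κ * Real.sqrt p) * nq φ := by
      apply mul_nonneg _ (nq_nonneg φ)
      linarith only [hν, hs1]
    by_cases hρ1 : ρ ≤ 1
    · calc (1 - ρ) * (ν - 4 * κ * Real.sqrt p) * nq φ * Z
          = (1 - ρ) * Z * ((ν - 4 * κ * Real.sqrt p) * nq φ) := by ring
        _ ≤ (1 - η) * ((ν - 4 * κ * Real.sqrt p) * nq φ) := by
            apply mul_le_mul_of_nonneg_right _ h7
            nlinarith only [hp0, hp, hη0, hpos, hρ, hT0, hTle, hPc, hZe]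
        _ ≤ (1 - η) * E.ev (fun ω => ind G ω * lc Y φ ω ^ 2) :=
            mul_le_mul_of_nonneg_left h6 (by linarith only [hη1])
        _ ≤ _ := h5
    · have h8 : (1 - ρ) * (ν - 4 * κ * Real.sqrt p) * nq φ * Z ≤ 0 := by
        have : (1 - ρ) * (ν - 4 * κ * Real.sqrt p) * nq φ * Z =
          (1 - ρ) * (((ν - 4 * κ * Real.sqrt p) * nq φ) * Z) := by ring
        rw [this]
        exact mul_nonpos_of_nonpos_of_nonneg (by linarith only [hρ1]) (mul_nonneg h7 hZ0.le)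
      have h9 : 0 ≤ E.ev (fun ω => ind G ω * (1 + lc Y b ω) * lc Y φ ω ^ 2) :=
        E.pos' _ (fun ω => mul_nonneg (hw0 ω) (sq_nonneg _))
      linarith only [h8, h9]

end White

section Gen

open scoped InnerProductSpace

variable {V : Type} [NormedAddCommGroup V] [InnerProductSpace ℝ V] [FiniteDimensional ℝ V]

/-- Diagonalization of the defect form of a contraction. -/
lemma defect_diag (B : V →ₗ[ℝ] V) (hB : ∀ θ, ‖B θ‖ ≤ ‖θ‖) :
    ∃ (e : OrthonormalBasis (Fin (Module.finrank ℝ V)) ℝ V)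
      (μ : Fin (Module.finrank ℝ V) → ℝ), (∀ i, 0 ≤ μ i) ∧
      ∀ θ, ‖θ‖ ^ 2 - ‖B θ‖ ^ 2 = ∑ i, μ i * ⟪e i, θ⟫_ℝ ^ 2 := by
  let T : V →ₗ[ℝ] V := LinearMap.id - (LinearMap.adjoint B) ∘ₗ B
  have hT : T.IsSymmetric := by
    intro x y
    show ⟪x - (LinearMap.adjoint B) (B x), y⟫_ℝ = ⟪x, y - (LinearMap.adjoint B) (B y)⟫_ℝ
    rw [inner_sub_left, inner_sub_right, LinearMap.adjoint_inner_left,
      LinearMap.adjoint_inner_right]
  have hquad : ∀ θ, ⟪T θ, θ⟫_ℝ = ‖θ‖ ^ 2 - ‖B θ‖ ^ 2 := by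
    intro θ
    show ⟪θ - (LinearMap.adjoint B) (B θ), θ⟫_ℝ = _
    rw [inner_sub_left, LinearMap.adjoint_inner_left, real_inner_self_eq_norm_sq,
      real_inner_self_eq_norm_sq]
  let e := hT.eigenvectorBasis rfl
  let μ := hT.eigenvalues rfl
  have hTe : ∀ i, T (e i) = μ i • e i := by
    intro i
    have := hT.apply_eigenvectorBasis rfl i
    simpa only [RCLike.ofReal_real_eq_id, id] using this
  have hexp : ∀ θ, ‖θ‖ ^ 2 - ‖B θ‖ ^ 2 = ∑ i, μ i * ⟪e i, θ⟫_ℝ ^ 2 := by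
    intro θ
    rw [← hquad, ← e.sum_inner_mul_inner (T θ) θ]
    refine Finset.sum_congr rfl (fun i _ => ?_)
    have h1 : ⟪T θ, e i⟫_ℝ = μ i * ⟪e i, θ⟫_ℝ := by
      rw [hT θ (e i), hTe i, real_inner_smul_right, real_inner_comm]
    rw [h1]; ring
  refine ⟨e, μ, ?_, hexp⟩
  intro i
  have h1 := hquad (e i)
  rw [hTe i, real_inner_smul_left, real_inner_self_eq_norm_sq] at h1
  have h2 : ‖e i‖ = 1 := e.orthonormal.1 i
  have h3 := hB (e i)
  rw [h2] at h1 h3
  have h4 : ‖B (e i)‖ ^ 2 ≤ 1 := by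
    have := norm_nonneg (B (e i))
    nlinarith only [h3, this]
  linarith only [h1, h4]

/-- Chernoff bound. -/
lemma tail_prob {Ω : Type} (E : PosFun Ω) (Z : Ω → ℝ) (κ K : ℝ) (hκ : 0 < κ) (hK : 0 ≤ K)
    (h : ∀ t : ℝ, E.ev (fun ω => Real.exp (t * Z ω)) ≤ Real.exp (κ * t ^ 2 / 2)) :
    E.ev (ind {ω | K < |Z ω|}) ≤ 2 * Real.exp (-(K ^ 2 / (2 * κ))) := by
  set t := K / κ with ht
  have ht0 : 0 ≤ t := by positivity
  have h1 := h t
  have h2 := h (-t)
  have e1 : κ * t ^ 2 / 2 = K ^ 2 / (2 * κ) := by rw [ht]; field_simp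
  have e2 : κ * (-t) ^ 2 / 2 = K ^ 2 / (2 * κ) := by rw [neg_sq]; exact e1
  rw [e1] at h1
  rw [e2] at h2
  have h3 : E.ev (ind {ω | K < |Z ω|}) ≤
      E.ev (fun ω => Real.exp (-(t * K)) * (Real.exp (t * Z ω) + Real.exp (-t * Z ω))) := by
    apply E.ev_mono
    intro ω
    by_cases hω : ω ∈ {ω | K < |Z ω|}
    · rw [ind_of_mem _ hω]
      have hω' : K < |Z ω| := hω
      rcases le_total 0 (Z ω) with hz | hz
      · rw [abs_of_nonneg hz] at hω'
        have : 1 ≤ Real.exp (-(t * K)) * Real.exp (t * Z ω) := by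
          rw [← Real.exp_add]
          apply Real.one_le_exp
          nlinarith only [ht0, hω']
        have h5 : 0 ≤ Real.exp (-(t * K)) * Real.exp (-t * Z ω) := by positivity
        linarith only [this, h5]
      · rw [abs_of_nonpos hz] at hω'
        have : 1 ≤ Real.exp (-(t * K)) * Real.exp (-t * Z ω) := by
          rw [← Real.exp_add]
          apply Real.one_le_exp
          nlinarith only [ht0, hω']
        have h5 : 0 ≤ Real.exp (-(t * K)) * Real.exp (t * Z ω) := by positivity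
        linarith only [this, h5]
    · rw [ind_of_not_mem _ hω]; positivity
  rw [E.smul', E.add'] at h3
  have h4 : Real.exp (-(t * K)) * (E.ev (fun ω => Real.exp (t * Z ω)) +
      E.ev (fun ω => Real.exp (-t * Z ω))) ≤
      Real.exp (-(t * K)) * (Real.exp (K ^ 2 / (2 * κ)) + Real.exp (K ^ 2 / (2 * κ))) :=
    mul_le_mul_of_nonneg_left (add_le_add h1 h2) (Real.exp_pos _).le
  have h5 : Real.exp (-(t * K)) * (Real.exp (K ^ 2 / (2 * κ)) + Real.exp (K ^ 2 / (2 * κ))) =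
      2 * Real.exp (-(K ^ 2 / (2 * κ))) := by
    have : Real.exp (-(t * K)) * Real.exp (K ^ 2 / (2 * κ)) =
        Real.exp (-(K ^ 2 / (2 * κ))) := by
      rw [← Real.exp_add]
      congr 1
      rw [ht]; field_simp; ring
    rw [mul_add, this]; ring
  linarith only [h3, h4, h5]

/-- A variable with zero second moment vanishes almost surely. -/
lemma null_prob {Ω : Type} (E : PosFun Ω) (Z : Ω → ℝ) (h : E.ev (fun ω => Z ω ^ 2) ≤ 0) :
    E.ev (ind {ω | Z ω ≠ 0}) = 0 := by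
  have h0 : E.ev (fun ω => Z ω ^ 2) = 0 := le_antisymm h (E.pos' _ (fun ω => sq_nonneg _))
  have h1 := E.ev_mul_sq_le Z (fun ω => ind {ω | Z ω ≠ 0} ω / Z ω)
  rw [h0, zero_mul] at h1
  have e : (fun ω => Z ω * (ind {ω | Z ω ≠ 0} ω / Z ω)) = ind {ω | Z ω ≠ 0} := by
    funext ω
    by_cases hz : Z ω = 0
    · rw [ind_of_not_mem {ω | Z ω ≠ 0} (ω := ω) (by simpa using hz)]; simp
    · field_simp
  rw [e] at h1
  exact pow_eq_zero_iff (two_ne_zero) |>.1 (le_antisymm h1 (sq_nonneg _))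

end Gen

end Vale.Agent.P262.SigP2
end
end

section

section

/-!
Reweighting lemma for positive normalized functionals (general form).
-/

open scoped BigOperators InnerProductSpace

namespace Vale.Agent.P262.SigP2

variable {V : Type} [NormedAddCommGroup V] [InnerProductSpace ℝ V] [FiniteDimensional ℝ V]

omit [FiniteDimensional ℝ V] in
/-- **Reweighting lemma**, in an orthonormal basis. -/
theorem reweight_diag {Ω : Type} {n : ℕ} (E : PosFun Ω) (X : Ω → V)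
    (e : OrthonormalBasis (Fin n) ℝ V) (μ : Fin n → ℝ) (hμ : ∀ i, 0 ≤ μ i)
    (κ ν K p ρ η : ℝ) (G : Set Ω)
    (hκ : 0 < κ) (hν : 0 < ν) (hK : 0 ≤ K)
    (h2 : ∀ θ, E.ev (fun ω => ⟪θ, X ω⟫_ℝ) = 0)
    (h3 : ∀ θ, E.ev (fun ω => Real.exp ⟪θ, X ω⟫_ℝ) ≤
      Real.exp (κ * (∑ i, μ i * ⟪e i, θ⟫_ℝ ^ 2) / 2))
    (h4 : ∀ θ, ν * (∑ i, μ i * ⟪e i, θ⟫_ℝ ^ 2) ≤ E.ev (fun ω => ⟪θ, X ω⟫_ℝ ^ 2))
    (hp : E.ev (ind Gᶜ) + n * (2 * Real.exp (-(K ^ 2 / (2 * κ)))) ≤ p)
    (hs1 : 8 * κ * Real.sqrt p ≤ ν)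
    (hη0 : 0 ≤ η) (hη1 : η ≤ 1 / 2)
    (hη : 8 * κ * p * (n * K ^ 2) ≤ η ^ 2 * ν ^ 2)
    (hpos : p + 4 * κ * p / ν < 1)
    (hρ : 1 + η ≤ (1 + ρ) * (1 - p - 4 * κ * p / ν)) (hηρ : η ≤ ρ) :
    ∃ E' : PosFun Ω,
      (∀ f : Ω → ℝ, (∀ ω ∈ G, f ω = 0) → E'.ev f = 0) ∧
      (∀ f : Ω → ℝ, (∀ ω, 0 ≤ f ω) → E'.ev f ≤ (1 + ρ) * E.ev f) ∧
      (∀ θ, E'.ev (fun ω => ⟪θ, X ω⟫_ℝ) = 0) ∧
      (∀ θ, E'.ev (fun ω => Real.exp ⟪θ, X ω⟫_ℝ) ≤
        Real.exp (κ * (1 + ρ) * (∑ i, μ i * ⟪e i, θ⟫_ℝ ^ 2) / 2)) ∧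
      (∀ θ, (1 - ρ) * (ν - 4 * κ * Real.sqrt p) * (∑ i, μ i * ⟪e i, θ⟫_ℝ ^ 2) ≤
        E'.ev (fun ω => ⟪θ, X ω⟫_ℝ ^ 2)) := by
  classical
  let ι : Type := {i : Fin n // 0 < μ i}
  have hcard : (Fintype.card ι : ℝ) ≤ n := by
    have h := Fintype.card_subtype_le (fun i : Fin n => 0 < μ i)
    rw [Fintype.card_fin] at h
    exact_mod_cast h
  let D : V → ℝ := fun θ => ∑ i, μ i * ⟪e i, θ⟫_ℝ ^ 2
  have hDdef : ∀ θ, D θ = ∑ i, μ i * ⟪e i, θ⟫_ℝ ^ 2 := fun θ => rfl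
  have hDe : ∀ i, D (e i) = μ i := by
    intro i
    rw [hDdef, Finset.sum_eq_single i]
    · rw [real_inner_self_eq_norm_sq, e.orthonormal.1 i]; norm_num
    · intro j _ hj
      rw [e.orthonormal.2 hj]; ring
    · intro h; exact absurd (Finset.mem_univ i) h
  have hDsmul : ∀ (t : ℝ) θ, D (t • θ) = t ^ 2 * D θ := by
    intro t θ
    rw [hDdef, hDdef, Finset.mul_sum]
    refine Finset.sum_congr rfl (fun i _ => ?_)
    rw [real_inner_smul_right]; ring
  -- whitened coordinates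
  let Y : ι → Ω → ℝ := fun i ω => ⟪e i.1, X ω⟫_ℝ / Real.sqrt (μ i.1)
  let up : (ι → ℝ) → V := fun φ => ∑ i : ι, (φ i / Real.sqrt (μ i.1)) • e i.1
  have hup : ∀ φ ω, ⟪up φ, X ω⟫_ℝ = lc Y φ ω := by
    intro φ ω
    show ⟪∑ i : ι, (φ i / Real.sqrt (μ i.1)) • e i.1, X ω⟫_ℝ = ∑ i, φ i * Y i ω
    rw [sum_inner]
    refine Finset.sum_congr rfl (fun i _ => ?_)
    rw [real_inner_smul_left]
    show φ i / Real.sqrt (μ i.1) * ⟪e i.1, X ω⟫_ℝ = φ i * (⟪e i.1, X ω⟫_ℝ / Real.sqrt (μ i.1))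
    ring
  have hinner : ∀ (φ : ι → ℝ) (j : Fin n), ⟪e j, up φ⟫_ℝ =
      ∑ i : ι, if i.1 = j then φ i / Real.sqrt (μ i.1) else 0 := by
    intro φ j
    show ⟪e j, ∑ i : ι, (φ i / Real.sqrt (μ i.1)) • e i.1⟫_ℝ = _
    rw [inner_sum]
    refine Finset.sum_congr rfl (fun i _ => ?_)
    rw [real_inner_smul_right]
    by_cases hij : i.1 = j
    · rw [if_pos hij, hij, real_inner_self_eq_norm_sq, e.orthonormal.1 j]; norm_num
    · rw [if_neg hij, e.orthonormal.2 (Ne.symm hij)]; ring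
  have hinner1 : ∀ (φ : ι → ℝ) (j : ι), ⟪e j.1, up φ⟫_ℝ = φ j / Real.sqrt (μ j.1) := by
    intro φ j
    rw [hinner, Finset.sum_eq_single j]
    · rw [if_pos rfl]
    · intro i _ hij
      rw [if_neg (fun h => hij (Subtype.ext h))]
    · intro h; exact absurd (Finset.mem_univ j) h
  have hDup : ∀ φ, D (up φ) = nq φ := by
    intro φ
    rw [hDdef]
    have h1 : ∑ i : Fin n, μ i * ⟪e i, up φ⟫_ℝ ^ 2 =
        ∑ i ∈ Finset.univ.filter (fun i : Fin n => 0 < μ i), μ i * ⟪e i, up φ⟫_ℝ ^ 2 := by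
      rw [Finset.sum_filter]
      refine Finset.sum_congr rfl (fun i _ => ?_)
      by_cases h : 0 < μ i
      · rw [if_pos h]
      · rw [if_neg h]
        have : μ i = 0 := le_antisymm (not_lt.1 h) (hμ i)
        rw [this]; ring
    rw [h1, Finset.sum_subtype (Finset.univ.filter (fun i : Fin n => 0 < μ i))
      (p := fun i : Fin n => 0 < μ i) (by simp only [Finset.mem_filter, Finset.mem_univ, true_and, implies_true]) (fun i => μ i * ⟪e i, up φ⟫_ℝ ^ 2)]
    unfold nq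
    refine Finset.sum_congr rfl (fun i _ => ?_)
    rw [hinner1]
    have h2 : 0 < μ i.1 := i.2
    rw [div_pow, Real.sq_sqrt h2.le]
    (clear * - h2; field_simp)
  -- the good set
  let G' : Set Ω := {ω | ω ∈ G ∧ (∀ i : ι, |Y i ω| ≤ K) ∧ ∀ i : Fin n, μ i = 0 → ⟪e i, X ω⟫_ℝ = 0}
  have hdown : ∀ θ, ∃ φ : ι → ℝ, nq φ = D θ ∧ ∀ ω ∈ G', ⟪θ, X ω⟫_ℝ = lc Y φ ω := by
    intro θ
    refine ⟨fun i => Real.sqrt (μ i.1) * ⟪e i.1, θ⟫_ℝ, ?_, ?_⟩
    · rw [hDdef]
      have h1 : ∑ i : Fin n, μ i * ⟪e i, θ⟫_ℝ ^ 2 =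
          ∑ i ∈ Finset.univ.filter (fun i : Fin n => 0 < μ i), μ i * ⟪e i, θ⟫_ℝ ^ 2 := by
        rw [Finset.sum_filter]
        refine Finset.sum_congr rfl (fun i _ => ?_)
        by_cases h : 0 < μ i
        · rw [if_pos h]
        · rw [if_neg h]
          have : μ i = 0 := le_antisymm (not_lt.1 h) (hμ i)
          rw [this]; ring
      rw [h1, Finset.sum_subtype (Finset.univ.filter (fun i : Fin n => 0 < μ i))
        (p := fun i : Fin n => 0 < μ i) (by simp only [Finset.mem_filter, Finset.mem_univ, true_and, implies_true]) (fun i => μ i * ⟪e i, θ⟫_ℝ ^ 2)]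
      unfold nq
      refine Finset.sum_congr rfl (fun i _ => ?_)
      rw [mul_pow, Real.sq_sqrt (hμ i.1)]
    · intro ω hω
      rw [← e.sum_inner_mul_inner θ (X ω)]
      have h1 : ∑ i : Fin n, ⟪θ, e i⟫_ℝ * ⟪e i, X ω⟫_ℝ =
          ∑ i ∈ Finset.univ.filter (fun i : Fin n => 0 < μ i), ⟪θ, e i⟫_ℝ * ⟪e i, X ω⟫_ℝ := by
        rw [Finset.sum_filter]
        refine Finset.sum_congr rfl (fun i _ => ?_)
        by_cases h : 0 < μ i
        · rw [if_pos h]
        · rw [if_neg h, hω.2.2 i (le_antisymm (not_lt.1 h) (hμ i))]; ring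
      rw [h1, Finset.sum_subtype (Finset.univ.filter (fun i : Fin n => 0 < μ i))
        (p := fun i : Fin n => 0 < μ i) (by simp only [Finset.mem_filter, Finset.mem_univ, true_and, implies_true]) (fun i => ⟪θ, e i⟫_ℝ * ⟪e i, X ω⟫_ℝ)]
      unfold lc
      refine Finset.sum_congr rfl (fun i _ => ?_)
      show ⟪θ, e i.1⟫_ℝ * ⟪e i.1, X ω⟫_ℝ =
        Real.sqrt (μ i.1) * ⟪e i.1, θ⟫_ℝ * (⟪e i.1, X ω⟫_ℝ / Real.sqrt (μ i.1))
      have h2 : 0 < Real.sqrt (μ i.1) := Real.sqrt_pos.2 i.2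
      rw [real_inner_comm]
      (clear * - h2; field_simp)
  -- probability of the complement
  have hprob : E.ev (ind G'ᶜ) ≤ p := by
    have hY : ∀ i : ι, E.ev (ind {ω | K < |Y i ω|}) ≤ 2 * Real.exp (-(K ^ 2 / (2 * κ))) := by
      intro i
      apply tail_prob E (Y i) κ K hκ hK
      intro t
      have h5 := h3 ((t / Real.sqrt (μ i.1)) • e i.1)
      have h6 : (∑ j, μ j * ⟪e j, (t / Real.sqrt (μ i.1)) • e i.1⟫_ℝ ^ 2) = t ^ 2 := by
        have h7 := hDsmul (t / Real.sqrt (μ i.1)) (e i.1)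
        rw [hDe] at h7
        rw [hDdef] at h7
        rw [h7, div_pow, Real.sq_sqrt (hμ i.1)]
        have : μ i.1 ≠ 0 := i.2.ne'
        field_simp
      rw [h6] at h5
      have h8 : (fun ω => Real.exp ⟪(t / Real.sqrt (μ i.1)) • e i.1, X ω⟫_ℝ) =
          fun ω => Real.exp (t * Y i ω) := by
        funext ω
        rw [real_inner_smul_left]
        congr 1
        show t / Real.sqrt (μ i.1) * ⟪e i.1, X ω⟫_ℝ =
          t * (⟪e i.1, X ω⟫_ℝ / Real.sqrt (μ i.1))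
        ring
      rw [h8] at h5
      exact h5
    have hN : ∀ i : Fin n, μ i = 0 → E.ev (ind {ω | ⟪e i, X ω⟫_ℝ ≠ 0}) = 0 := by
      intro i hi
      apply null_prob E (fun ω => ⟪e i, X ω⟫_ℝ)
      have h5 : ∀ t : ℝ, 0 < t → E.ev (fun ω => ⟪e i, X ω⟫_ℝ ^ 2) ≤ 2 * t := by
        intro t ht
        apply E.ev_sq_le (fun ω => ⟪e i, X ω⟫_ℝ) t ht
        intro s
        have h6 := h3 (s • e i)
        have h7 : (∑ j, μ j * ⟪e j, s • e i⟫_ℝ ^ 2) = 0 := by
          have h8 := hDsmul s (e i)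
          rw [hDe, hi, mul_zero, hDdef] at h8
          exact h8
        rw [h7] at h6
        have h8 : (fun ω => Real.exp ⟪s • e i, X ω⟫_ℝ) =
            fun ω => Real.exp (s * ⟪e i, X ω⟫_ℝ) := by
          funext ω
          rw [real_inner_smul_left]
        rw [h8] at h6
        refine h6.trans (Real.exp_le_exp.2 ?_)
        rw [mul_zero, zero_div]
        (clear * - ht; positivity)
      by_contra hneg
      push Not at hneg
      have := h5 (E.ev (fun ω => ⟪e i, X ω⟫_ℝ ^ 2) / 4) (by (clear * - hneg; positivity))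
      linarith only [hneg, this]
    have hle : ∀ ω, ind G'ᶜ ω ≤ ind Gᶜ ω + (∑ i : ι, ind {ω | K < |Y i ω|} ω
        + ∑ i : Fin n, if μ i = 0 then ind {ω | ⟪e i, X ω⟫_ℝ ≠ 0} ω else 0) := by
      intro ω
      have hs1 : 0 ≤ ∑ i : ι, ind {ω | K < |Y i ω|} ω :=
        Finset.sum_nonneg (fun i _ => ind_nonneg _ ω)
      have hs2 : 0 ≤ ∑ i : Fin n, (if μ i = 0 then ind {ω | ⟪e i, X ω⟫_ℝ ≠ 0} ω else 0) :=
        Finset.sum_nonneg (fun i _ => by split; exacts [ind_nonneg _ ω, le_rfl])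
      have hs0 := ind_nonneg Gᶜ ω
      by_cases hω : ω ∈ G'
      · rw [ind_of_not_mem _ (by simpa using hω)]; linarith only [hs1, hs2, hs0]
      · rw [ind_of_mem _ (show ω ∈ G'ᶜ from hω)]
        by_cases hg : ω ∈ G
        · by_cases hy : ∀ i : ι, |Y i ω| ≤ K
          · have : ∃ i : Fin n, μ i = 0 ∧ ⟪e i, X ω⟫_ℝ ≠ 0 := by
              by_contra hcon
              push Not at hcon
              exact hω ⟨hg, hy, hcon⟩
            obtain ⟨i, hi, hx⟩ := this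
            have h5 := Finset.single_le_sum (f := fun i : Fin n =>
              (if μ i = 0 then ind {ω | ⟪e i, X ω⟫_ℝ ≠ 0} ω else 0))
              (fun i _ => by
                show 0 ≤ (if μ i = 0 then ind {ω | ⟪e i, X ω⟫_ℝ ≠ 0} ω else 0)
                split; exacts [ind_nonneg _ ω, le_rfl]) (Finset.mem_univ i)
            beta_reduce at h5
            rw [if_pos hi, ind_of_mem {ω | ⟪e i, X ω⟫_ℝ ≠ 0} hx] at h5
            linarith only [hs1, hs0, h5]
          · push Not at hy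
            obtain ⟨i, hi⟩ := hy
            have h5 := Finset.single_le_sum (f := fun i : ι => ind {ω | K < |Y i ω|} ω)
              (fun i _ => ind_nonneg _ ω) (Finset.mem_univ i)
            beta_reduce at h5
            rw [ind_of_mem {ω | K < |Y i ω|} hi] at h5
            linarith only [hs2, hs0, h5]
        · rw [ind_of_mem _ (show ω ∈ Gᶜ from hg)]; linarith only [hs1, hs2]
    have h5 := E.ev_mono hle
    rw [E.add' (ind Gᶜ) (fun ω => (∑ i : ι, ind {ω | K < |Y i ω|} ω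
        + ∑ i : Fin n, if μ i = 0 then ind {ω | ⟪e i, X ω⟫_ℝ ≠ 0} ω else 0)),
      E.add' (fun ω => ∑ i : ι, ind {ω | K < |Y i ω|} ω)
        (fun ω => ∑ i : Fin n, if μ i = 0 then ind {ω | ⟪e i, X ω⟫_ℝ ≠ 0} ω else 0),
      E.ev_sum Finset.univ (fun (i : ι) ω => ind {ω | K < |Y i ω|} ω),
      E.ev_sum Finset.univ (fun (i : Fin n) ω =>
        if μ i = 0 then ind {ω | ⟪e i, X ω⟫_ℝ ≠ 0} ω else 0)] at h5
    have h6 : ∑ i : Fin n, E.ev (fun ω =>
        if μ i = 0 then ind {ω | ⟪e i, X ω⟫_ℝ ≠ 0} ω else 0) = 0 := by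
      apply Finset.sum_eq_zero
      intro i _
      by_cases hi : μ i = 0
      · simp only [if_pos hi]
        exact hN i hi
      · simp only [if_neg hi]
        exact E.ev_zero
    have h7 : ∑ i : ι, E.ev (fun ω => ind {ω | K < |Y i ω|} ω) ≤
        n * (2 * Real.exp (-(K ^ 2 / (2 * κ)))) := by
      calc _ ≤ ∑ _i : ι, 2 * Real.exp (-(K ^ 2 / (2 * κ))) :=
            Finset.sum_le_sum (fun i _ => hY i)
        _ = Fintype.card ι * (2 * Real.exp (-(K ^ 2 / (2 * κ)))) := by simp only [Finset.sum_const, Finset.card_univ, nsmul_eq_mul]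
        _ ≤ _ := mul_le_mul_of_nonneg_right hcard (by positivity)
    linarith only [hp, h5, h6, h7]
  have hp0 : 0 ≤ p := le_trans (E.pos' _ (ind_nonneg _)) hprob
  obtain ⟨E', q1, q2, q3, q4, q5⟩ := reweight_white E Y κ ν K p ρ η G' hκ hν hp0
    (by
      intro i
      have h5 := h2 ((1 / Real.sqrt (μ i.1)) • e i.1)
      have h6 : (fun ω => ⟪(1 / Real.sqrt (μ i.1)) • e i.1, X ω⟫_ℝ) = Y i := by
        funext ω
        rw [real_inner_smul_left]
        show 1 / Real.sqrt (μ i.1) * ⟪e i.1, X ω⟫_ℝ = ⟪e i.1, X ω⟫_ℝ / Real.sqrt (μ i.1)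
        ring
      rw [h6] at h5
      exact h5)
    (by
      intro φ
      have h5 := h3 (up φ)
      have h6 : (fun ω => Real.exp ⟪up φ, X ω⟫_ℝ) = fun ω => Real.exp (lc Y φ ω) := by
        funext ω; rw [hup]
      rw [h6, ← hDdef, hDup] at h5
      exact h5)
    (by
      intro φ
      have h5 := h4 (up φ)
      have h6 : (fun ω => ⟪up φ, X ω⟫_ℝ ^ 2) = fun ω => lc Y φ ω ^ 2 := by
        funext ω; rw [hup]
      rw [h6, ← hDdef, hDup] at h5
      exact h5)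
    (fun ω hω i => hω.2.1 i) hprob hs1 hη0 hη1
    (by
      refine le_trans ?_ hη
      apply mul_le_mul_of_nonneg_left _ (by (clear * - hκ hp0; positivity))
      exact mul_le_mul_of_nonneg_right hcard (sq_nonneg K))
    hpos hρ hηρ
  have hcongr : ∀ f g : Ω → ℝ, (∀ ω ∈ G', f ω = g ω) → E'.ev f = E'.ev g := by
    intro f g hfg
    have h5 := q1 (fun ω => f ω - g ω) (fun ω hω => by rw [hfg ω hω, sub_self])
    rw [E'.ev_sub] at h5
    linarith only [h5]
  refine ⟨E', ?_, q2, ?_, ?_, ?_⟩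
  · intro f hf
    exact q1 f (fun ω hω => hf ω hω.1)
  · intro θ
    obtain ⟨φ, hφ, hl⟩ := hdown θ
    rw [hcongr _ (lc Y φ) hl]
    exact q3 φ
  · intro θ
    obtain ⟨φ, hφ, hl⟩ := hdown θ
    rw [hcongr _ (fun ω => Real.exp (lc Y φ ω)) (fun ω hω => by rw [hl ω hω]), ← hDdef, ← hφ]
    exact q4 φ
  · intro θ
    obtain ⟨φ, hφ, hl⟩ := hdown θ
    rw [hcongr _ (fun ω => lc Y φ ω ^ 2) (fun ω hω => by rw [hl ω hω]), ← hDdef, ← hφ]
    exact q5 φ

/-- **Reweighting lemma.** -/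
theorem reweight {Ω : Type} (E : PosFun Ω) (X : Ω → V) (B : V →ₗ[ℝ] V)
    (hB : ∀ θ, ‖B θ‖ ≤ ‖θ‖) (κ ν K p ρ η : ℝ) (G : Set Ω)
    (hκ : 0 < κ) (hν : 0 < ν) (hK : 0 ≤ K)
    (h2 : ∀ θ, E.ev (fun ω => ⟪θ, X ω⟫_ℝ) = 0)
    (h3 : ∀ θ, E.ev (fun ω => Real.exp ⟪θ, X ω⟫_ℝ) ≤ Real.exp (κ * (‖θ‖ ^ 2 - ‖B θ‖ ^ 2) / 2))
    (h4 : ∀ θ, ν * (‖θ‖ ^ 2 - ‖B θ‖ ^ 2) ≤ E.ev (fun ω => ⟪θ, X ω⟫_ℝ ^ 2))
    (hp : E.ev (ind Gᶜ) + Module.finrank ℝ V * (2 * Real.exp (-(K ^ 2 / (2 * κ)))) ≤ p)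
    (hs1 : 8 * κ * Real.sqrt p ≤ ν)
    (hη0 : 0 ≤ η) (hη1 : η ≤ 1 / 2)
    (hη : 8 * κ * p * (Module.finrank ℝ V * K ^ 2) ≤ η ^ 2 * ν ^ 2)
    (hpos : p + 4 * κ * p / ν < 1)
    (hρ : 1 + η ≤ (1 + ρ) * (1 - p - 4 * κ * p / ν)) (hηρ : η ≤ ρ) :
    ∃ E' : PosFun Ω,
      (∀ f : Ω → ℝ, (∀ ω ∈ G, f ω = 0) → E'.ev f = 0) ∧
      (∀ f : Ω → ℝ, (∀ ω, 0 ≤ f ω) → E'.ev f ≤ (1 + ρ) * E.ev f) ∧
      (∀ θ, E'.ev (fun ω => ⟪θ, X ω⟫_ℝ) = 0) ∧
      (∀ θ, E'.ev (fun ω => Real.exp ⟪θ, X ω⟫_ℝ) ≤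
        Real.exp (κ * (1 + ρ) * (‖θ‖ ^ 2 - ‖B θ‖ ^ 2) / 2)) ∧
      (∀ θ, (1 - ρ) * (ν - 4 * κ * Real.sqrt p) * (‖θ‖ ^ 2 - ‖B θ‖ ^ 2) ≤
        E'.ev (fun ω => ⟪θ, X ω⟫_ℝ ^ 2)) := by
  obtain ⟨e, μ, hμ, hD⟩ := defect_diag B hB
  simp only [hD] at h3 h4 ⊢
  exact reweight_diag E X e μ hμ κ ν K p ρ η G hκ hν hK h2 h3 h4 hp hs1 hη0 hη1 hη hpos hρ hηρ

end Vale.Agent.P262.SigP2
end
end

section

section

/-!
Laws of walks as positive functionals on (position, label).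
-/

open scoped BigOperators InnerProductSpace

namespace Vale.Agent.P262.Sig

open Vale.Agent.P262.SigStr Vale.Agent.P262.SigP2

/-- Labels of outcomes. -/
inductive Lab : Type
  | alive : Lab
  | bad : Lab
  | clip (k : ℕ) : Lab

section PF

variable {Ω Ω' : Type}

/-- `E` is supported on `S`. -/
def Supp (E : PosFun Ω) (S : Set Ω) : Prop := ∀ f : Ω → ℝ, (∀ ω ∈ S, f ω = 0) → E.ev f = 0

lemma Supp.mono {E : PosFun Ω} {S T : Set Ω} (h : Supp E S) (hST : S ⊆ T) : Supp E T :=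
  fun f hf => h f (fun ω hω => hf ω (hST hω))

lemma Supp.le {E : PosFun Ω} {S : Set Ω} (h : Supp E S) {f g : Ω → ℝ}
    (hfg : ∀ ω ∈ S, f ω ≤ g ω) : E.ev f ≤ E.ev g := by
  have h1 : E.ev (fun ω => max (f ω - g ω) 0) = 0 :=
    h _ (fun ω hω => max_eq_right (by linarith only [hfg ω hω]))
  have h2 : E.ev f ≤ E.ev (fun ω => g ω + max (f ω - g ω) 0) := by
    apply E.ev_mono
    intro ω
    have := le_max_left (f ω - g ω) 0
    linarith
  rw [E.add', h1] at h2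
  linarith

lemma Supp.congr {E : PosFun Ω} {S : Set Ω} (h : Supp E S) {f g : Ω → ℝ}
    (hfg : ∀ ω ∈ S, f ω = g ω) : E.ev f = E.ev g :=
  le_antisymm (h.le (fun ω hω => (hfg ω hω).le)) (h.le (fun ω hω => (hfg ω hω).ge))

lemma Supp.inter {E : PosFun Ω} {S T : Set Ω} (h : Supp E S) (h' : Supp E T) :
    Supp E (S ∩ T) := by
  classical
  intro f hf
  have h1 : E.ev f = E.ev (fun ω => if ω ∈ S then f ω else 0) :=
    h.congr (fun ω hω => by simp [hω])
  rw [h1]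
  apply h'
  intro ω hω
  by_cases hS : ω ∈ S
  · simp only [hS, if_true]
    exact hf ω ⟨hS, hω⟩
  · simp [hS]

lemma Supp.of_ev_le {E E' : PosFun Ω} {S : Set Ω} {C : ℝ} (h : Supp E S)
    (hle : ∀ f : Ω → ℝ, (∀ ω, 0 ≤ f ω) → E'.ev f ≤ C * E.ev f) : Supp E' S := by
  intro f hf
  have h1 : E.ev (fun ω => |f ω|) = 0 := h _ (fun ω hω => by simp [hf ω hω])
  have h2 := hle (fun ω => |f ω|) (fun ω => abs_nonneg _)
  rw [h1, mul_zero] at h2
  have h3 : E'.ev f ≤ E'.ev (fun ω => |f ω|) := E'.ev_mono (fun ω => le_abs_self _)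
  have h4 : E'.ev (fun ω => - f ω) ≤ E'.ev (fun ω => |f ω|) :=
    E'.ev_mono (fun ω => neg_le_abs _)
  rw [E'.ev_neg] at h4
  linarith only [h2, h3, h4]

/-- Composition with a kernel. -/
noncomputable def bind (E : PosFun Ω) (K : Ω → PosFun Ω') : PosFun Ω' where
  ev f := E.ev (fun ω => (K ω).ev f)
  add' f g := by
    have : (fun ω => (K ω).ev (fun ω' => f ω' + g ω')) =
        fun ω => (K ω).ev f + (K ω).ev g := by
      funext ω; exact (K ω).add' f g
    rw [this, E.add']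
  smul' a f := by
    have : (fun ω => (K ω).ev (fun ω' => a * f ω')) = fun ω => a * (K ω).ev f := by
      funext ω; exact (K ω).smul' a f
    rw [this, E.smul']
  pos' f hf := E.pos' _ (fun ω => (K ω).pos' f hf)
  one' := by
    have : (fun ω => (K ω).ev (fun _ => (1 : ℝ))) = fun _ => 1 := by
      funext ω; exact (K ω).one'
    rw [this, E.one']

lemma bind_ev (E : PosFun Ω) (K : Ω → PosFun Ω') (f : Ω' → ℝ) :
    (bind E K).ev f = E.ev (fun ω => (K ω).ev f) := rfl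

lemma Supp.bind {E : PosFun Ω} {S : Set Ω} (h : Supp E S) {K : Ω → PosFun Ω'} {T : Set Ω'}
    (hK : ∀ ω ∈ S, Supp (K ω) T) : Supp (bind E K) T := by
  intro f hf
  rw [bind_ev]
  exact h _ (fun ω hω => hK ω hω f hf)

/-- Point mass. -/
def dirac (ω : Ω) : PosFun Ω where
  ev f := f ω
  add' _ _ := rfl
  smul' _ _ := rfl
  pos' _ hf := hf ω
  one' := rfl

lemma dirac_ev (ω : Ω) (f : Ω → ℝ) : (dirac ω).ev f = f ω := rfl

lemma Supp.dirac {ω : Ω} {S : Set Ω} (h : ω ∈ S) : Supp (dirac ω) S := fun _ hf => hf ω h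

/-- Two point law. -/
noncomputable def two (p : ℝ) (hp0 : 0 ≤ p) (hp1 : p ≤ 1) (a b : Ω) : PosFun Ω where
  ev f := p * f a + (1 - p) * f b
  add' _ _ := by ring
  smul' _ _ := by ring
  pos' f hf := by
    have := hf a; have := hf b
    have h1 : 0 ≤ 1 - p := by linarith
    positivity
  one' := by ring

lemma two_ev {p : ℝ} {hp0 : 0 ≤ p} {hp1 : p ≤ 1} (a b : Ω) (f : Ω → ℝ) :
    (two p hp0 hp1 a b).ev f = p * f a + (1 - p) * f b := rfl

lemma Supp.two {p : ℝ} {hp0 : 0 ≤ p} {hp1 : p ≤ 1} {a b : Ω} {S : Set Ω} (ha : a ∈ S)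
    (hb : b ∈ S) : Supp (two p hp0 hp1 a b) S := by
  intro f hf
  rw [two_ev, hf a ha, hf b hb]; ring

end PF

variable {V : Type} [NormedAddCommGroup V] [InnerProductSpace ℝ V] [FiniteDimensional ℝ V]

/-- Backward (adjoint) walk. -/
noncomputable def Bw (c : ℝ) (v : ℕ → V) (s t : ℕ) : V →ₗ[ℝ] V := LinearMap.adjoint (Aw c v s t)

lemma inner_Bw (c : ℝ) (v : ℕ → V) (s t : ℕ) (θ x : V) :
    ⟪Bw c v s t θ, x⟫_ℝ = ⟪θ, Aw c v s t x⟫_ℝ :=
  LinearMap.adjoint_inner_left _ _ _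

/-- Dual defect form. -/
noncomputable def DS (c : ℝ) (v : ℕ → V) (s t : ℕ) (θ : V) : ℝ := ‖θ‖ ^ 2 - ‖Bw c v s t θ‖ ^ 2

lemma Bw_self (c : ℝ) (v : ℕ → V) (s : ℕ) (θ : V) : Bw c v s s θ = θ := by
  apply ext_inner_right ℝ
  intro x
  rw [inner_Bw, Aw_self]; rfl

lemma Bw_comp (c : ℝ) (v : ℕ → V) {r s t : ℕ} (h1 : r ≤ s) (h2 : s ≤ t) (θ : V) :
    Bw c v r s (Bw c v s t θ) = Bw c v r t θ := by
  apply ext_inner_right ℝ
  intro x
  rw [inner_Bw, inner_Bw, inner_Bw, Aw_comp_apply c v h1 h2]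

lemma DS_self (c : ℝ) (v : ℕ → V) (s : ℕ) (θ : V) : DS c v s s θ = 0 := by
  simp [DS, Bw_self]

lemma DS_comp (c : ℝ) (v : ℕ → V) {r s t : ℕ} (h1 : r ≤ s) (h2 : s ≤ t) (θ : V) :
    DS c v r t θ = DS c v s t θ + DS c v r s (Bw c v s t θ) := by
  unfold DS
  rw [Bw_comp c v h1 h2]; ring

lemma Bw_contr {c : ℝ} (hc : 1 ≤ c) {v : ℕ → V} (hv : ∀ k, ‖v k‖ ≤ 1) (s t : ℕ) (θ : V) :
    ‖Bw c v s t θ‖ ≤ ‖θ‖ := by
  have h1 : ‖Bw c v s t θ‖ ^ 2 = ⟪θ, Aw c v s t (Bw c v s t θ)⟫_ℝ := by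
    rw [← real_inner_self_eq_norm_sq, inner_Bw]
  have h2 := real_inner_le_norm θ (Aw c v s t (Bw c v s t θ))
  have h3 := Aw_contr c hc v hv s t (Bw c v s t θ)
  rcases (norm_nonneg (Bw c v s t θ)).eq_or_lt with h0 | h0
  · rw [← h0]; exact norm_nonneg _
  · have h4 : ‖Bw c v s t θ‖ * ‖Bw c v s t θ‖ ≤ ‖θ‖ * ‖Bw c v s t θ‖ := by
      calc _ = ‖Bw c v s t θ‖ ^ 2 := by ring
        _ ≤ ‖θ‖ * ‖Aw c v s t (Bw c v s t θ)‖ := by rw [h1]; exact h2
        _ ≤ ‖θ‖ * ‖Bw c v s t θ‖ := mul_le_mul_of_nonneg_left h3 (norm_nonneg _)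
    exact le_of_mul_le_mul_right h4 h0

lemma DS_nonneg {c : ℝ} (hc : 1 ≤ c) {v : ℕ → V} (hv : ∀ k, ‖v k‖ ≤ 1) (s t : ℕ) (θ : V) :
    0 ≤ DS c v s t θ := by
  have h1 := Bw_contr hc hv s t θ
  have h2 := norm_nonneg (Bw c v s t θ)
  unfold DS
  nlinarith only [h1, h2]

lemma DS_step {c : ℝ} (hc : 0 < c) (v : ℕ → V) (t : ℕ) (θ : V) :
    DS c v t (t + 1) θ = (2 / c - ‖v t‖ ^ 2 / c ^ 2) * ⟪v t, θ⟫_ℝ ^ 2 := by
  have e1 : Aw c v t (t + 1) = stp c (v t) := by
    rw [Aw_succ c v le_rfl, Aw_self, LinearMap.comp_id]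
  have e2 : Bw c v t (t + 1) θ = stp c (v t) θ := by
    apply ext_inner_right ℝ
    intro x
    rw [inner_Bw, e1, stp_apply, stp_apply, inner_sub_left, inner_sub_right,
      real_inner_smul_left, real_inner_smul_right, real_inner_comm (v t) θ]
    ring
  unfold DS
  rw [e2, stp_norm_sq c hc]; ring

/-- The set of outcomes whose noise is in the range of the noise form. -/
def NullOK (c : ℝ) (v : ℕ → V) (s t : ℕ) (x : V) : Set (V × Lab) :=
  {o | ∀ θ, DS c v s t θ = 0 → ⟪θ, o.1 - Aw c v s t x⟫_ℝ = 0}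

/-- Law of the walk from `x` at time `s` to time `t`. -/
structure Law (c : ℝ) (v : ℕ → V) (s t : ℕ) (x : V) (κ ν : ℝ) (E : PosFun (V × Lab)) :
    Prop where
  null : Supp E (NullOK c v s t x)
  mean : ∀ θ : V, E.ev (fun o => ⟪θ, o.1 - Aw c v s t x⟫_ℝ) = 0
  exp : ∀ θ : V, E.ev (fun o => Real.exp ⟪θ, o.1 - Aw c v s t x⟫_ℝ) ≤
    Real.exp (κ * DS c v s t θ / 2)
  var : ∀ θ : V, ν * DS c v s t θ ≤ E.ev (fun o => ⟪θ, o.1 - Aw c v s t x⟫_ℝ ^ 2)

section Laws

variable {c : ℝ} {v : ℕ → V}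

lemma Law.mono (hc : 1 ≤ c) (hv : ∀ k, ‖v k‖ ≤ 1) {s t : ℕ} {x : V} {κ κ' ν ν' : ℝ}
    {E : PosFun (V × Lab)} (h : Law c v s t x κ ν E) (hκ : κ ≤ κ') (hν : ν' ≤ ν) :
    Law c v s t x κ' ν' E where
  null := h.null
  mean := h.mean
  exp θ := (h.exp θ).trans (Real.exp_le_exp.2 (by
    have := mul_le_mul_of_nonneg_right hκ (DS_nonneg hc hv s t θ)
    (clear x ν ν' E h hν; linarith only [this])))
  var θ := (mul_le_mul_of_nonneg_right hν (DS_nonneg hc hv s t θ)).trans (h.var θ)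

/-- The law of the empty interval. -/
lemma Law.dirac (s : ℕ) (x : V) (l : Lab) (κ ν : ℝ) :
    Law c v s s x κ ν (dirac (x, l)) where
  null := Supp.dirac (fun θ _ => by simp [Aw_self])
  mean θ := by rw [dirac_ev]; simp only [Aw_self, LinearMap.id_coe, id_eq, sub_self, inner_zero_right]
  exp θ := by rw [dirac_ev]; simp [Aw_self, DS_self]
  var θ := by rw [dirac_ev]; simp [Aw_self, DS_self]

/-- Composition of laws. -/
lemma Law.bind (hc : 1 ≤ c) (hv : ∀ k, ‖v k‖ ≤ 1) {s r t : ℕ} (hsr : s ≤ r) (hrt : r ≤ t)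
    {x : V} {κ ν : ℝ} {E : PosFun (V × Lab)} {S : Set (V × Lab)}
    (hE : Law c v s r x κ ν E) (hS : Supp E S) {K : V × Lab → PosFun (V × Lab)}
    (hK : ∀ o ∈ S, Law c v r t o.1 κ ν (K o)) : Law c v s t x κ ν (bind E K) := by
  have key : ∀ (o o' : V × Lab) (θ : V), ⟪θ, o'.1 - Aw c v s t x⟫_ℝ =
      ⟪θ, o'.1 - Aw c v r t o.1⟫_ℝ + ⟪Bw c v r t θ, o.1 - Aw c v s r x⟫_ℝ := by
    intro o o' θ
    rw [inner_Bw, map_sub, Aw_comp_apply c v hsr hrt, ← inner_add_right]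
    congr 1
    abel
  refine ⟨?_, ?_, ?_, ?_⟩
  · -- null
    refine Supp.bind (hS.inter hE.null) ?_
    rintro o ⟨hoS, hoN⟩
    refine (hK o hoS).null.mono ?_
    intro o' ho' θ hθ
    rw [DS_comp c v hsr hrt] at hθ
    have h1 := DS_nonneg hc hv r t θ
    have h2 := DS_nonneg hc hv s r (Bw c v r t θ)
    rw [key o o' θ, ho' θ (by (clear hsr hrt x κ ν E S hE hS K hK key o hoS hoN o' ho'; linarith only [hθ, h1, h2])), hoN _ (by linarith only [hθ, h1, h2])]
    ring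
  · intro θ
    rw [bind_ev]
    rw [hS.congr (g := fun o => ⟪Bw c v r t θ, o.1 - Aw c v s r x⟫_ℝ)]
    · exact hE.mean _
    · intro o ho
      have h1 : (fun o' : V × Lab => ⟪θ, o'.1 - Aw c v s t x⟫_ℝ) = fun o' =>
          ⟪θ, o'.1 - Aw c v r t o.1⟫_ℝ + ⟪Bw c v r t θ, o.1 - Aw c v s r x⟫_ℝ := by
        funext o'; exact key o o' θ
      rw [h1, (K o).add' (fun o' => ⟪θ, o'.1 - Aw c v r t o.1⟫_ℝ)
        (fun _ => ⟪Bw c v r t θ, o.1 - Aw c v s r x⟫_ℝ), (hK o ho).mean, (K o).ev_const, zero_add]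
  · intro θ
    rw [bind_ev]
    have h1 : ∀ o ∈ S, (K o).ev (fun o' => Real.exp ⟪θ, o'.1 - Aw c v s t x⟫_ℝ) ≤
        Real.exp (κ * DS c v r t θ / 2) *
          Real.exp ⟪Bw c v r t θ, o.1 - Aw c v s r x⟫_ℝ := by
      intro o ho
      have h1 : (fun o' : V × Lab => Real.exp ⟪θ, o'.1 - Aw c v s t x⟫_ℝ) = fun o' =>
          Real.exp ⟪Bw c v r t θ, o.1 - Aw c v s r x⟫_ℝ *
            Real.exp ⟪θ, o'.1 - Aw c v r t o.1⟫_ℝ := by
        funext o'; rw [key o o' θ, Real.exp_add]; ring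
      rw [h1, (K o).smul', mul_comm]
      exact mul_le_mul_of_nonneg_right ((hK o ho).exp θ) (Real.exp_pos _).le
    refine (hS.le h1).trans ?_
    rw [E.smul']
    refine (mul_le_mul_of_nonneg_left (hE.exp _) (Real.exp_pos _).le).trans ?_
    rw [← Real.exp_add, DS_comp c v hsr hrt]
    apply Real.exp_le_exp.2
    linarith only []
  · intro θ
    rw [bind_ev]
    have h1 : ∀ o ∈ S, ν * DS c v r t θ + ⟪Bw c v r t θ, o.1 - Aw c v s r x⟫_ℝ ^ 2 ≤
        (K o).ev (fun o' => ⟪θ, o'.1 - Aw c v s t x⟫_ℝ ^ 2) := by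
      intro o ho
      set a := ⟪Bw c v r t θ, o.1 - Aw c v s r x⟫_ℝ with ha
      have h1 : (fun o' : V × Lab => ⟪θ, o'.1 - Aw c v s t x⟫_ℝ ^ 2) = fun o' =>
          (fun o'' : V × Lab => ⟪θ, o''.1 - Aw c v r t o.1⟫_ℝ ^ 2 +
            (2 * a) * ⟪θ, o''.1 - Aw c v r t o.1⟫_ℝ) o' + a ^ 2 := by
        funext o'
        show ⟪θ, o'.1 - Aw c v s t x⟫_ℝ ^ 2 = _
        rw [key o o' θ, ← ha]
        ring
      rw [h1, (K o).add' (fun o'' : V × Lab => ⟪θ, o''.1 - Aw c v r t o.1⟫_ℝ ^ 2 +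
            (2 * a) * ⟪θ, o''.1 - Aw c v r t o.1⟫_ℝ) (fun _ => a ^ 2),
        (K o).add' (fun o'' : V × Lab => ⟪θ, o''.1 - Aw c v r t o.1⟫_ℝ ^ 2)
          (fun o'' => (2 * a) * ⟪θ, o''.1 - Aw c v r t o.1⟫_ℝ), (K o).smul', (hK o ho).mean,
        (K o).ev_const]
      have := (hK o ho).var θ
      linarith only [this]
    refine le_trans ?_ (hS.le h1)
    rw [E.add' (fun _ => ν * DS c v r t θ) (fun o => ⟪Bw c v r t θ, o.1 - Aw c v s r x⟫_ℝ ^ 2),
      E.ev_const, DS_comp c v hsr hrt]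
    have := hE.var (Bw c v r t θ)
    (clear hc hv hsr hrt S hS K hK key h1; linarith)

end Laws

end Vale.Agent.P262.Sig
end
end

section

section

/-!
Single steps, virtual continuation, tail bounds, clip potentials, reweighting of laws.
-/

open scoped BigOperators InnerProductSpace

namespace Vale.Agent.P262.Sig

open Vale.Agent.P262.SigStr Vale.Agent.P262.SigP2

open MeasureTheory in
/-- Hoeffding's lemma for a centered two point law with gap `2`. -/
lemma hoeff (a : ℝ) (ha : |a| ≤ 1) (l : ℝ) :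
    (1 - a) / 2 * Real.exp (l * (1 + a)) + (1 - (1 - a) / 2) * Real.exp (l * (a - 1)) ≤
      Real.exp (l ^ 2 / 2) := by
  have ha1 := (abs_le.1 ha).1
  have ha2 := (abs_le.1 ha).2
  set p : ℝ := (1 - a) / 2 with hp
  have hp0 : 0 ≤ p := by rw [hp]; linarith only [ha2]
  have hp1 : 0 ≤ 1 - p := by rw [hp]; linarith only [ha1]
  let μ : Measure ℝ := ENNReal.ofReal p • Measure.dirac (1 + a) +
    ENNReal.ofReal (1 - p) • Measure.dirac (a - 1)
  have hint : ∀ f : ℝ → ℝ, Integrable f μ ∧ ∫ x, f x ∂μ = p * f (1 + a) + (1 - p) * f (a - 1) := by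
    intro f
    have i1 : Integrable f (ENNReal.ofReal p • Measure.dirac (1 + a)) :=
      (integrable_dirac (by simp)).smul_measure ENNReal.ofReal_ne_top
    have i2 : Integrable f (ENNReal.ofReal (1 - p) • Measure.dirac (a - 1)) :=
      (integrable_dirac (by simp)).smul_measure ENNReal.ofReal_ne_top
    refine ⟨i1.add_measure i2, ?_⟩
    rw [integral_add_measure i1 i2, integral_smul_measure, integral_smul_measure,
      integral_dirac, integral_dirac, ENNReal.toReal_ofReal hp0, ENNReal.toReal_ofReal hp1]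
    simp
  have hprob : IsProbabilityMeasure μ := by
    constructor
    simp only [μ, Measure.coe_add, Measure.coe_smul, Pi.add_apply, Pi.smul_apply,
      Measure.dirac_apply' _ MeasurableSet.univ]
    simp only [Set.indicator_univ, Pi.one_apply, smul_eq_mul, mul_one]
    rw [← ENNReal.ofReal_add hp0 hp1]
    simp
  have hb : ∀ᵐ x ∂μ, id x ∈ Set.Icc (a - 1) (1 + a) := by
    have hm : MeasurableSet {x : ℝ | ¬ (id x ∈ Set.Icc (a - 1) (1 + a))} :=
      (measurableSet_Icc).compl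
    rw [ae_iff]
    simp only [μ, Measure.coe_add, Measure.coe_smul, Pi.add_apply, Pi.smul_apply,
      Measure.dirac_apply' _ hm]
    have e1 : (1 + a : ℝ) ∉ {x : ℝ | ¬ (id x ∈ Set.Icc (a - 1) (1 + a))} := by
      simp only [Set.mem_ofPred_eq, id, not_not, Set.mem_Icc]
      constructor <;> linarith only []
    have e2 : (a - 1 : ℝ) ∉ {x : ℝ | ¬ (id x ∈ Set.Icc (a - 1) (1 + a))} := by
      simp only [Set.mem_ofPred_eq, id, not_not, Set.mem_Icc]
      constructor <;> linarith only []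
    rw [Set.indicator_of_notMem e1, Set.indicator_of_notMem e2]
    simp
  have hmean : ∫ x, id x ∂μ = 0 := by
    rw [(hint id).2]
    simp only [id]
    rw [hp]; ring
  have h := (ProbabilityTheory.hasSubgaussianMGF_of_mem_Icc_of_integral_eq_zero
    (X := (id : ℝ → ℝ)) (μ := μ) aemeasurable_id hb hmean).mgf_le l
  rw [ProbabilityTheory.mgf, (hint (fun x => Real.exp (l * id x))).2] at h
  have e : (((‖(1 + a) - (a - 1)‖₊ / 2) ^ 2 : NNReal) : ℝ) = 1 := by
    have : ‖(1 + a) - (a - 1)‖ = 2 := by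
      rw [show (1 + a) - (a - 1) = (2 : ℝ) by ring]; norm_num
    push_cast
    rw [this]; norm_num
  rw [e, one_mul] at h
  simpa only [ge_iff_le, id_eq] using h

variable {V : Type} [NormedAddCommGroup V] [InnerProductSpace ℝ V] [FiniteDimensional ℝ V]
variable {c : ℝ} {v : ℕ → V}

omit [InnerProductSpace ℝ V] [FiniteDimensional ℝ V] in
lemma coef_low (hc : 4 ≤ c) (w : V) (hw : ‖w‖ ≤ 1) : 1.75 / c ≤ 2 / c - ‖w‖ ^ 2 / c ^ 2 := by
  have hc0 : 0 < c := by linarith only [hc]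
  have h1 : ‖w‖ ^ 2 ≤ 1 := by
    have := norm_nonneg w
    nlinarith only [hw, this]
  have h2 : ‖w‖ ^ 2 / c ^ 2 ≤ (1 / 4) / c := by
    rw [div_le_div_iff₀ (by positivity) hc0]
    nlinarith only [hc, h1]
  have h3 : 2 / c = 1.75 / c + (1 / 4) / c := by
    field_simp
    norm_num
  linarith only [h2, h3]

omit [InnerProductSpace ℝ V] [FiniteDimensional ℝ V] in
lemma coef_up (hc : 4 ≤ c) (w : V) : 2 / c - ‖w‖ ^ 2 / c ^ 2 ≤ 2 / c := by
  have : 0 ≤ ‖w‖ ^ 2 / c ^ 2 := by positivity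
  linarith only [this]

/-- A centered two point step. -/
lemma step_law (hc : 4 ≤ c) (hv : ∀ k, ‖v k‖ ≤ 1) {κ ν : ℝ} (hκ : c ≤ 1.75 * κ)
    (hν0 : 0 ≤ ν) (hν : 8 * ν ≤ 3 * c) (t : ℕ) (x : V) (l : Lab) (a : ℝ) (ha : |a| ≤ 1 / 2)
    (hp0 : 0 ≤ (1 - a) / 2) (hp1 : (1 - a) / 2 ≤ 1) :
    Law c v t (t + 1) x κ ν (two ((1 - a) / 2) hp0 hp1
      (stp c (v t) x + (1 + a) • v t, l) (stp c (v t) x + (a - 1) • v t, l)) := by
  have hc0 : 0 < c := by linarith only [hc]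
  have eA : Aw c v t (t + 1) = stp c (v t) := by
    rw [Aw_succ c v le_rfl, Aw_self, LinearMap.comp_id]
  have ha1 := (abs_le.1 ha).1
  have ha2 := (abs_le.1 ha).2
  have hco := coef_low hc (v t) (hv t)
  have hco2 := coef_up hc (v t)
  have hq0 : 0 < 1.75 / c := by positivity
  have e1 : ∀ θ : V, ⟪θ, stp c (v t) x + (1 + a) • v t - Aw c v t (t + 1) x⟫_ℝ =
      (1 + a) * ⟪θ, v t⟫_ℝ := by
    intro θ; rw [eA, add_sub_cancel_left, real_inner_smul_right]
  have e2 : ∀ θ : V, ⟪θ, stp c (v t) x + (a - 1) • v t - Aw c v t (t + 1) x⟫_ℝ =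
      (a - 1) * ⟪θ, v t⟫_ℝ := by
    intro θ; rw [eA, add_sub_cancel_left, real_inner_smul_right]
  have hDS : ∀ θ : V, DS c v t (t + 1) θ = (2 / c - ‖v t‖ ^ 2 / c ^ 2) * ⟪θ, v t⟫_ℝ ^ 2 := by
    intro θ; rw [DS_step hc0, real_inner_comm]
  have hsq : ∀ θ : V, 0 ≤ ⟪θ, v t⟫_ℝ ^ 2 := fun θ => sq_nonneg _
  refine ⟨?_, ?_, ?_, ?_⟩
  · have hz : ∀ θ : V, DS c v t (t + 1) θ = 0 → ⟪θ, v t⟫_ℝ = 0 := by
      intro θ hθ
      rw [hDS] at hθ
      rcases mul_eq_zero.1 hθ with h | h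
      · linarith only [hco, hq0, h]
      · exact pow_eq_zero_iff (n := 2) (by norm_num) |>.1 h
    apply Supp.two
    · intro θ hθ
      show ⟪θ, stp c (v t) x + (1 + a) • v t - Aw c v t (t + 1) x⟫_ℝ = 0
      rw [e1, hz θ hθ, mul_zero]
    · intro θ hθ
      show ⟪θ, stp c (v t) x + (a - 1) • v t - Aw c v t (t + 1) x⟫_ℝ = 0
      rw [e2, hz θ hθ, mul_zero]
  · intro θ
    rw [two_ev, e1, e2]; ring
  · intro θ
    rw [two_ev, e1, e2]
    have h := hoeff a (by linarith only [ha]) ⟪θ, v t⟫_ℝ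
    rw [mul_comm (1 + a), mul_comm (a - 1)]
    refine h.trans (Real.exp_le_exp.2 ?_)
    rw [hDS]
    have h1 : 1 ≤ κ * (2 / c - ‖v t‖ ^ 2 / c ^ 2) := by
      have hκ0 : 0 ≤ κ := by linarith only [hc, hκ]
      have h2 : κ * (1.75 / c) ≤ κ * (2 / c - ‖v t‖ ^ 2 / c ^ 2) :=
        mul_le_mul_of_nonneg_left hco hκ0
      have h3 : 1 ≤ κ * (1.75 / c) := by
        rw [← mul_div_assoc, le_div_iff₀ hc0]; linarith only [hκ]
      linarith only [h2, h3]
    have h4 := mul_le_mul_of_nonneg_right h1 (hsq θ)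
    linarith only [h4]
  · intro θ
    rw [two_ev, e1, e2, hDS]
    have h1 : ν * (2 / c - ‖v t‖ ^ 2 / c ^ 2) ≤ 3 / 4 := by
      have h2 : ν * (2 / c - ‖v t‖ ^ 2 / c ^ 2) ≤ ν * (2 / c) :=
        mul_le_mul_of_nonneg_left hco2 hν0
      have h3 : ν * (2 / c) ≤ 3 / 4 := by
        rw [← mul_div_assoc, div_le_iff₀ hc0]; linarith only [hν]
      linarith only [h2, h3]
    have h4 := mul_le_mul_of_nonneg_right h1 (hsq θ)
    have h5 : 3 / 4 ≤ 1 - a ^ 2 := by nlinarith only [ha1, ha2]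
    have h6 := mul_le_mul_of_nonneg_right h5 (hsq θ)
    have e3 : (1 - a) / 2 * ((1 + a) * ⟪θ, v t⟫_ℝ) ^ 2 +
        (1 - (1 - a) / 2) * ((a - 1) * ⟪θ, v t⟫_ℝ) ^ 2 = (1 - a ^ 2) * ⟪θ, v t⟫_ℝ ^ 2 := by ring
    rw [e3]
    linarith only [h4, h6]

/-- Physical step. -/
lemma exists_phys (hc : 4 ≤ c) (hv : ∀ k, ‖v k‖ ≤ 1) {κ ν : ℝ} (hκ : c ≤ 1.75 * κ)
    (hν0 : 0 ≤ ν) (hν : 8 * ν ≤ 3 * c) (t : ℕ) (x : V) (hx : |⟪v t, x⟫_ℝ| ≤ c / 2) :
    ∃ E : PosFun (V × Lab), Law c v t (t + 1) x κ ν E ∧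
      Supp E {o | o.2 = Lab.alive ∧ (o.1 = x + v t ∨ o.1 = x - v t)} := by
  have hc0 : 0 < c := by linarith only [hc]
  have ha : |⟪v t, x⟫_ℝ / c| ≤ 1 / 2 := by
    rw [abs_div, abs_of_pos hc0, div_le_iff₀ hc0]; linarith only [hx]
  have ha1 := (abs_le.1 ha).1
  have ha2 := (abs_le.1 ha).2
  refine ⟨_, step_law hc hv hκ hν0 hν t x Lab.alive (⟪v t, x⟫_ℝ / c) ha (by linarith only [ha2])
    (by linarith only [ha1]), ?_⟩
  apply Supp.two
  · refine ⟨rfl, Or.inl ?_⟩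
    show stp c (v t) x + (1 + ⟪v t, x⟫_ℝ / c) • v t = x + v t
    rw [stp_apply, add_smul, one_smul]; abel
  · refine ⟨rfl, Or.inr ?_⟩
    show stp c (v t) x + (⟪v t, x⟫_ℝ / c - 1) • v t = x - v t
    rw [stp_apply, sub_smul, one_smul]; abel

/-- Virtual step with arbitrary label. -/
lemma exists_virt_step (hc : 4 ≤ c) (hv : ∀ k, ‖v k‖ ≤ 1) {κ ν : ℝ} (hκ : c ≤ 1.75 * κ)
    (hν0 : 0 ≤ ν) (hν : 8 * ν ≤ 3 * c) (t : ℕ) (x : V) (l : Lab) :
    ∃ E : PosFun (V × Lab), Law c v t (t + 1) x κ ν E ∧ Supp E {o | o.2 = l} := by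
  refine ⟨_, step_law hc hv hκ hν0 hν t x l 0 (by norm_num) (by norm_num) (by norm_num), ?_⟩
  exact Supp.two rfl rfl

/-- Virtual law on an interval. -/
lemma exists_virt (hc : 4 ≤ c) (hv : ∀ k, ‖v k‖ ≤ 1) {κ ν : ℝ} (hκ : c ≤ 1.75 * κ)
    (hν0 : 0 ≤ ν) (hν : 8 * ν ≤ 3 * c) {s t : ℕ} (hst : s ≤ t) (x : V) (l : Lab) :
    ∃ E : PosFun (V × Lab), Law c v s t x κ ν E ∧ Supp E {o | o.2 = l} := by
  induction t, hst using Nat.le_induction with
  | base => exact ⟨_, Law.dirac s x l κ ν, Supp.dirac rfl⟩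
  | succ t hst ih =>
    obtain ⟨E, hE, hS⟩ := ih
    choose K hK1 hK2 using fun o : V × Lab =>
      exists_virt_step hc hv hκ hν0 hν t o.1 o.2
    refine ⟨bind E K, hE.bind (by linarith only [hc]) hv hst (Nat.le_succ t) hS (fun o _ => hK1 o), ?_⟩
    apply hS.bind
    intro o ho
    refine (hK2 o).mono ?_
    intro o' ho'
    exact ho'.trans ho

/-- Tail bound for one linear test. -/
lemma Law.tail (hc : 1 ≤ c) (hv : ∀ k, ‖v k‖ ≤ 1) {s t : ℕ} {x : V} {κ ν : ℝ}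
    {E : PosFun (V × Lab)} (h : Law c v s t x κ ν E) (hκ : 0 < κ) {L ε : ℝ} (hL : 0 ≤ L)
    (hε : 0 ≤ ε) (θ : V) :
    E.ev (ind {o : V × Lab | L * (DS c v s t θ + ε) < ⟪θ, o.1 - Aw c v s t x⟫_ℝ ^ 2}) ≤
      2 * Real.exp (-(L / (2 * κ))) := by
  classical
  have hD := DS_nonneg hc hv s t θ
  set D := DS c v s t θ with hDdef
  set B : Set (V × Lab) := {o | L * (D + ε) < ⟪θ, o.1 - Aw c v s t x⟫_ℝ ^ 2} with hB
  rcases (add_nonneg hD hε).eq_or_lt with h0 | h0
  · -- degenerate case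
    have hD0 : D = 0 := by linarith only [hε, hD, h0]
    have h1 : E.ev (ind B) = 0 := by
      apply h.null
      intro o ho
      have h2 := ho θ hD0
      have : o ∉ B := by
        rw [hB]
        intro h3
        have h4 : L * (D + ε) < ⟪θ, o.1 - Aw c v s t x⟫_ℝ ^ 2 := h3
        rw [h2, ← h0] at h4
        simp at h4
      simp [ind, this]
    rw [h1]; positivity
  · set W := D + ε with hW
    set l := Real.sqrt (L / W) / κ with hl
    have hl0 : 0 ≤ l := by (clear * - hκ; positivity)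
    have hsq : Real.sqrt (L / W) ^ 2 = L / W := Real.sq_sqrt (by (clear * - hL h0; positivity))
    have key : ∀ o : V × Lab, ind B o ≤
        Real.exp (-(L / κ)) * (Real.exp ⟪l • θ, o.1 - Aw c v s t x⟫_ℝ +
          Real.exp ⟪(-l) • θ, o.1 - Aw c v s t x⟫_ℝ) := by
      intro o
      by_cases ho : o ∈ B
      · have h3 : L * W < ⟪θ, o.1 - Aw c v s t x⟫_ℝ ^ 2 := ho
        set Y := ⟪θ, o.1 - Aw c v s t x⟫_ℝ with hY
        have h4 : Real.sqrt (L * W) ≤ |Y| := by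
          rw [← Real.sqrt_sq_eq_abs]
          exact Real.sqrt_le_sqrt h3.le
        have h5 : L / κ ≤ l * |Y| := by
          have h6 : Real.sqrt (L / W) * Real.sqrt (L * W) = L := by
            rw [← Real.sqrt_mul (by (clear * - hL h0; positivity))]
            have : L / W * (L * W) = L ^ 2 := by field_simp
            rw [this, Real.sqrt_sq hL]
          calc L / κ = Real.sqrt (L / W) * Real.sqrt (L * W) / κ := by rw [h6]
            _ = l * Real.sqrt (L * W) := by rw [hl]; ring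
            _ ≤ l * |Y| := mul_le_mul_of_nonneg_left h4 hl0
        have e1 : ind B o = 1 := by simp [ind, ho]
        rw [e1, real_inner_smul_left, real_inner_smul_left, mul_add, ← Real.exp_add,
          ← Real.exp_add]
        rcases le_total 0 Y with hY0 | hY0
        · rw [abs_of_nonneg hY0] at h5
          have h7 : 1 ≤ Real.exp (-(L / κ) + l * Y) := Real.one_le_exp (by linarith only [h5])
          have h8 := Real.exp_pos (-(L / κ) + -l * Y)
          linarith only [h7, h8]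
        · rw [abs_of_nonpos hY0] at h5
          have h7 : 1 ≤ Real.exp (-(L / κ) + -l * Y) := Real.one_le_exp (by linarith only [h5])
          have h8 := Real.exp_pos (-(L / κ) + l * Y)
          linarith only [h7, h8]
      · have e1 : ind B o = 0 := by simp [ind, ho]
        rw [e1]; positivity
    refine (E.ev_mono key).trans ?_
    rw [E.smul', E.add' (fun o => Real.exp ⟪l • θ, o.1 - Aw c v s t x⟫_ℝ)
      (fun o => Real.exp ⟪(-l) • θ, o.1 - Aw c v s t x⟫_ℝ)]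
    have h1 := h.exp (l • θ)
    have h2 := h.exp ((-l) • θ)
    have hDs : ∀ a : ℝ, DS c v s t (a • θ) = a ^ 2 * D := by
      intro a
      rw [hDdef]; unfold DS
      rw [map_smul, norm_smul, norm_smul, mul_pow, mul_pow, Real.norm_eq_abs, sq_abs]; ring
    rw [hDs] at h1 h2
    have h3 : κ * (l ^ 2 * D) / 2 ≤ L / (2 * κ) := by
      have h4 : l ^ 2 = L / W / κ ^ 2 := by rw [hl, div_pow, hsq]
      rw [h4]
      have h5 : κ * (L / W / κ ^ 2 * D) / 2 = (L / (2 * κ)) * (D / W) := by (clear * - h0 hκ; field_simp)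
      rw [h5]
      have h6 : D / W ≤ 1 := by rw [div_le_one h0, hW]; linarith only [hε]
      have h7 : 0 ≤ L / (2 * κ) := by (clear * - hL hκ; positivity)
      nlinarith only [h6, h7]
    have h4 : Real.exp (κ * (l ^ 2 * D) / 2) ≤ Real.exp (L / (2 * κ)) := Real.exp_le_exp.2 h3
    have h5 : (-l) ^ 2 = l ^ 2 := by ring
    rw [h5] at h2
    have h6 : Real.exp (-(L / κ)) * (Real.exp (L / (2 * κ)) + Real.exp (L / (2 * κ))) =
        2 * Real.exp (-(L / (2 * κ))) := by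
      have : Real.exp (-(L / κ)) * Real.exp (L / (2 * κ)) = Real.exp (-(L / (2 * κ))) := by
        rw [← Real.exp_add]
        congr 1
        field_simp; ring
      linarith only [this]
    rw [← h6]
    exact mul_le_mul_of_nonneg_left (by linarith only [h1, h2, h4]) (Real.exp_pos _).le

/-- Clip potential. -/
noncomputable def Fk (c : ℝ) (v : ℕ → V) (κb : ℝ) (s k : ℕ) (x : V) : ℝ :=
  (Real.exp ⟪Bw c v s k (v k), x⟫_ℝ + Real.exp (-⟪Bw c v s k (v k), x⟫_ℝ)) *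
    Real.exp (κb * (1 - ‖Bw c v s k (v k)‖ ^ 2) / 2)

lemma Fk_pos (κb : ℝ) (s k : ℕ) (x : V) : 0 < Fk c v κb s k x := by
  unfold Fk; positivity

/-- The clip potential is a supermartingale. -/
lemma Law.Fk_le (hc : 1 ≤ c) (hv : ∀ k, ‖v k‖ ≤ 1) {s r k : ℕ} (hsr : s ≤ r) (hrk : r ≤ k)
    {x : V} {κ κb ν : ℝ} {E : PosFun (V × Lab)} (h : Law c v s r x κ ν E) (hκ : κ ≤ κb) :
    E.ev (fun o => Fk c v κb r k o.1) ≤ Fk c v κb s k x := by
  set θ := Bw c v r k (v k) with hθ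
  have hθ2 : Bw c v s r θ = Bw c v s k (v k) := by rw [hθ, Bw_comp c v hsr hrk]
  set y := ⟪Bw c v s k (v k), x⟫_ℝ with hy
  have hin : ∀ o : V × Lab, ⟪θ, o.1⟫_ℝ = ⟪θ, o.1 - Aw c v s r x⟫_ℝ + y := by
    intro o
    rw [inner_sub_right, hy, ← hθ2, inner_Bw c v s r θ x]; ring
  have e1 : ∀ o : V × Lab, Fk c v κb r k o.1 = (Real.exp (κb * (1 - ‖θ‖ ^ 2) / 2) *
      Real.exp y) * Real.exp ⟪θ, o.1 - Aw c v s r x⟫_ℝ +
      (Real.exp (κb * (1 - ‖θ‖ ^ 2) / 2) * Real.exp (-y)) *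
        Real.exp ⟪(-1 : ℝ) • θ, o.1 - Aw c v s r x⟫_ℝ := by
    intro o
    unfold Fk
    rw [← hθ, hin o, real_inner_smul_left, Real.exp_add]
    have : -(⟪θ, o.1 - Aw c v s r x⟫_ℝ + y) = -1 * ⟪θ, o.1 - Aw c v s r x⟫_ℝ + -y := by ring
    rw [this, Real.exp_add]; ring
  have e2 : (fun o : V × Lab => Fk c v κb r k o.1) = fun o =>
      (fun o => (Real.exp (κb * (1 - ‖θ‖ ^ 2) / 2) * Real.exp y) *
        Real.exp ⟪θ, o.1 - Aw c v s r x⟫_ℝ) o +
      (fun o => (Real.exp (κb * (1 - ‖θ‖ ^ 2) / 2) * Real.exp (-y)) *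
        Real.exp ⟪(-1 : ℝ) • θ, o.1 - Aw c v s r x⟫_ℝ) o := by
    funext o; exact e1 o
  rw [e2, E.add', E.smul', E.smul']
  have h1 := h.exp θ
  have h2 := h.exp ((-1 : ℝ) • θ)
  have hD1 : DS c v s r ((-1 : ℝ) • θ) = DS c v s r θ := by
    unfold DS
    rw [map_smul, norm_smul, norm_smul]; simp only [norm_neg, norm_one, one_mul]
  rw [hD1] at h2
  have hD2 : DS c v s r θ = ‖θ‖ ^ 2 - ‖Bw c v s k (v k)‖ ^ 2 := by unfold DS; rw [hθ2]
  have hD3 := DS_nonneg hc hv s r θ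
  have h3 : Real.exp (κb * (1 - ‖θ‖ ^ 2) / 2) * Real.exp (κ * DS c v s r θ / 2) ≤
      Real.exp (κb * (1 - ‖Bw c v s k (v k)‖ ^ 2) / 2) := by
    rw [← Real.exp_add]
    apply Real.exp_le_exp.2
    have := mul_le_mul_of_nonneg_right hκ hD3
    rw [hD2] at this ⊢
    (clear hc hv hsr hrk x ν E h hκ hθ hθ2 y hy hin e1 e2 h1 h2 hD1 hD2 hD3; linarith only [this])
  have p1 := Real.exp_pos y
  have p2 := Real.exp_pos (-y)
  have p3 := Real.exp_pos (κb * (1 - ‖θ‖ ^ 2) / 2)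
  calc Real.exp (κb * (1 - ‖θ‖ ^ 2) / 2) * Real.exp y *
        E.ev (fun o => Real.exp ⟪θ, o.1 - Aw c v s r x⟫_ℝ) +
      Real.exp (κb * (1 - ‖θ‖ ^ 2) / 2) * Real.exp (-y) *
        E.ev (fun o => Real.exp ⟪(-1 : ℝ) • θ, o.1 - Aw c v s r x⟫_ℝ)
      ≤ Real.exp (κb * (1 - ‖θ‖ ^ 2) / 2) * Real.exp y * Real.exp (κ * DS c v s r θ / 2) +
      Real.exp (κb * (1 - ‖θ‖ ^ 2) / 2) * Real.exp (-y) * Real.exp (κ * DS c v s r θ / 2) :=
        add_le_add (mul_le_mul_of_nonneg_left h1 (by positivity))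
          (mul_le_mul_of_nonneg_left h2 (by positivity))
    _ = (Real.exp y + Real.exp (-y)) *
        (Real.exp (κb * (1 - ‖θ‖ ^ 2) / 2) * Real.exp (κ * DS c v s r θ / 2)) := by ring
    _ ≤ (Real.exp y + Real.exp (-y)) * Real.exp (κb * (1 - ‖Bw c v s k (v k)‖ ^ 2) / 2) :=
        mul_le_mul_of_nonneg_left h3 (by positivity)
    _ = Fk c v κb s k x := rfl

/-- A clip at time `k` forces a large clip potential. -/
lemma Fk_clip (hv : ∀ k, ‖v k‖ ≤ 1) {κb : ℝ} (hκb : 0 ≤ κb) (k : ℕ) (x : V)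
    (hx : c / 2 < |⟪v k, x⟫_ℝ|) : Real.exp (c / 2) ≤ Fk c v κb k k x := by
  unfold Fk
  rw [Bw_self]
  set y := ⟪v k, x⟫_ℝ with hy
  have h1 : Real.exp (c / 2) ≤ Real.exp y + Real.exp (-y) := by
    rcases le_total 0 y with h | h
    · rw [abs_of_nonneg h] at hx
      have := Real.exp_le_exp.2 hx.le
      have := Real.exp_pos (-y)
      (clear hv κb hκb hy h; linarith)
    · rw [abs_of_nonpos h] at hx
      have := Real.exp_le_exp.2 hx.le
      have := Real.exp_pos y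
      linarith
  have h2 : 1 ≤ Real.exp (κb * (1 - ‖v k‖ ^ 2) / 2) := by
    apply Real.one_le_exp
    have h3 : ‖v k‖ ^ 2 ≤ 1 := by
      have := norm_nonneg (v k)
      have := hv k
      nlinarith
    have : 0 ≤ κb * (1 - ‖v k‖ ^ 2) := mul_nonneg hκb (by linarith only [h3])
    linarith only [this]
  have p := Real.exp_pos (c / 2)
  nlinarith only [h1, h2, p]

/-- The clip potential is small when the step is nearly orthogonal to the position. -/
lemma Fk_small {κb : ℝ} (hκb : 0 ≤ κb) (s k : ℕ) (x : V)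
    (hx : |⟪Bw c v s k (v k), x⟫_ℝ| ≤ 1) : Fk c v κb s k x ≤ 4 * Real.exp (κb / 2) := by
  unfold Fk
  set y := ⟪Bw c v s k (v k), x⟫_ℝ with hy
  have h1 : Real.exp y + Real.exp (-y) ≤ 4 := by
    have hc : Real.cosh y ≤ Real.cosh 1 := by
      rw [Real.cosh_le_cosh]
      rw [abs_one]; exact hx
    have h3 := Real.cosh_eq y
    have h4 := Real.cosh_eq 1
    have h5 := Real.exp_one_lt_d9
    have h6 : Real.exp (-1) ≤ 1 := Real.exp_le_one_iff.2 (by norm_num)
    linarith only [hc, h3, h4, h5, h6]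
  have h2 : Real.exp (κb * (1 - ‖Bw c v s k (v k)‖ ^ 2) / 2) ≤ Real.exp (κb / 2) := by
    apply Real.exp_le_exp.2
    have : 0 ≤ κb * ‖Bw c v s k (v k)‖ ^ 2 := by (clear x y hx hy h1; positivity)
    linarith only [this]
  exact mul_le_mul h1 h2 (Real.exp_pos _).le (by norm_num)

end Vale.Agent.P262.Sig
end
end

section

section

/-!
The forms `q_{s,t}` and the potential.
-/

open scoped BigOperators InnerProductSpace

namespace Vale.Agent.P262.SigStr

variable {V : Type} [NormedAddCommGroup V] [InnerProductSpace ℝ V] [FiniteDimensional ℝ V]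

/-- Dual defect form. -/
noncomputable def Ds (T : V →ₗ[ℝ] V) (θ : V) : ℝ := ‖θ‖ ^ 2 - ‖LinearMap.adjoint T θ‖ ^ 2

/-- `1 + T† T`. -/
noncomputable def OneB (T : V →ₗ[ℝ] V) : V →ₗ[ℝ] V :=
  LinearMap.id + LinearMap.adjoint T ∘ₗ T

lemma OneB_apply (T : V →ₗ[ℝ] V) (x : V) : OneB T x = x + LinearMap.adjoint T (T x) := rfl

lemma OneB_inner (T : V →ₗ[ℝ] V) (x y : V) :
    ⟪OneB T x, y⟫_ℝ = ⟪x, y⟫_ℝ + ⟪T x, T y⟫_ℝ := by
  rw [OneB_apply, inner_add_left, LinearMap.adjoint_inner_left]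

lemma OneB_inner' (T : V →ₗ[ℝ] V) (x y : V) :
    ⟪x, OneB T y⟫_ℝ = ⟪x, y⟫_ℝ + ⟪T x, T y⟫_ℝ := by
  rw [OneB_apply, inner_add_right, LinearMap.adjoint_inner_right]

lemma OneB_inj (T : V →ₗ[ℝ] V) : Function.Injective (OneB T) := by
  rw [← LinearMap.ker_eq_bot, LinearMap.ker_eq_bot']
  intro x hx
  have h1 := OneB_inner T x x
  rw [hx, inner_zero_left, real_inner_self_eq_norm_sq, real_inner_self_eq_norm_sq] at h1
  have h2 : ‖x‖ ^ 2 = 0 := by
    have := sq_nonneg ‖x‖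
    have := sq_nonneg ‖T x‖
    linarith
  rwa [pow_eq_zero_iff two_ne_zero, norm_eq_zero] at h2

/-- The inverse of `1 + T† T`. -/
noncomputable def Rop (T : V →ₗ[ℝ] V) : V →ₗ[ℝ] V :=
  ((LinearEquiv.ofInjectiveEndo (OneB T) (OneB_inj T)).symm : V →ₗ[ℝ] V)

lemma OneB_Rop (T : V →ₗ[ℝ] V) (x : V) : OneB T (Rop T x) = x := by
  have h := (LinearEquiv.ofInjectiveEndo (OneB T) (OneB_inj T)).apply_symm_apply x
  rwa [LinearEquiv.coe_ofInjectiveEndo] at h

/-- The operator `B (1 + B)⁻¹`. -/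
noncomputable def Mop (T : V →ₗ[ℝ] V) : V →ₗ[ℝ] V := LinearMap.id - Rop T

lemma Mop_apply (T : V →ₗ[ℝ] V) (x : V) : Mop T x = x - Rop T x := rfl

lemma Mop_eq (T : V →ₗ[ℝ] V) (x : V) :
    Mop T x = LinearMap.adjoint T (T (x - Mop T x)) := by
  have h1 := OneB_Rop T x
  rw [OneB_apply] at h1
  have h2 : x - Mop T x = Rop T x := by rw [Mop_apply]; abel
  rw [h2, Mop_apply]
  nth_rewrite 1 [← h1]
  abel

lemma Rop_symm (T : V →ₗ[ℝ] V) (x y : V) : ⟪Rop T x, y⟫_ℝ = ⟪x, Rop T y⟫_ℝ := by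
  conv_lhs => rw [← OneB_Rop T y]
  conv_rhs => rw [← OneB_Rop T x]
  rw [OneB_inner', OneB_inner]

lemma Mop_symm (T : V →ₗ[ℝ] V) (x y : V) : ⟪Mop T x, y⟫_ℝ = ⟪x, Mop T y⟫_ℝ := by
  rw [Mop_apply, Mop_apply, inner_sub_left, inner_sub_right, Rop_symm]

lemma Rop_contr (T : V →ₗ[ℝ] V) (x : V) : ‖Rop T x‖ ≤ ‖x‖ := by
  have h1 := OneB_inner T (Rop T x) (Rop T x)
  rw [OneB_Rop, real_inner_self_eq_norm_sq, real_inner_self_eq_norm_sq] at h1
  have h2 := real_inner_le_norm x (Rop T x)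
  by_contra h3
  push Not at h3
  have := sq_nonneg ‖T (Rop T x)‖
  have h4 : 0 ≤ ‖x‖ := norm_nonneg x
  nlinarith only [h1, h2, h3, h4]

/-- The form `⟨x, B (1 + B)⁻¹ x⟩ = min_u (|T (x - u)|² + |u|²)`. -/
noncomputable def qf (T : V →ₗ[ℝ] V) (x : V) : ℝ := ⟪x, Mop T x⟫_ℝ

lemma qf_add (T : V →ₗ[ℝ] V) (x y : V) :
    qf T (x + y) = qf T x + 2 * ⟪Mop T x, y⟫_ℝ + qf T y := by
  unfold qf
  rw [map_add, inner_add_left, inner_add_right, inner_add_right, ← Mop_symm T x y,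
    real_inner_comm y (Mop T x)]
  ring

/-- Exact form of the minimum formula. -/
lemma qf_min (T : V →ₗ[ℝ] V) (x u : V) :
    ‖T (x - u)‖ ^ 2 + ‖u‖ ^ 2 = qf T x + ‖T (u - Mop T x)‖ ^ 2 + ‖u - Mop T x‖ ^ 2 := by
  set w := Mop T x with hw
  have hw1 : w = LinearMap.adjoint T (T (x - w)) := Mop_eq T x
  set h := u - w with hh
  have hu : u = w + h := by rw [hh]; abel
  have e1 : T (x - u) = T (x - w) - T h := by
    rw [hu, ← map_sub]; congr 1; abel
  rw [e1, norm_sub_sq_real, hu, norm_add_sq_real]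
  have e2 : ⟪T (x - w), T h⟫_ℝ = ⟪w, h⟫_ℝ := by
    rw [← LinearMap.adjoint_inner_left, ← hw1]
  have e3 : ‖T (x - w)‖ ^ 2 + ‖w‖ ^ 2 = qf T x := by
    have e4 : ‖T (x - w)‖ ^ 2 = ⟪w, x - w⟫_ℝ := by
      rw [← real_inner_self_eq_norm_sq, ← LinearMap.adjoint_inner_left, ← hw1]
    rw [e4, inner_sub_right, real_inner_self_eq_norm_sq, qf, ← hw, real_inner_comm]
    ring
  rw [e2]
  linarith only [e3]

lemma qf_le (T : V →ₗ[ℝ] V) (x u : V) : qf T x ≤ ‖T (x - u)‖ ^ 2 + ‖u‖ ^ 2 := by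
  rw [qf_min T x u]
  have := sq_nonneg ‖T (u - Mop T x)‖
  have := sq_nonneg ‖u - Mop T x‖
  linarith

lemma qf_attained (T : V →ₗ[ℝ] V) (x : V) :
    qf T x = ‖T (x - Mop T x)‖ ^ 2 + ‖Mop T x‖ ^ 2 := by
  rw [qf_min T x (Mop T x), sub_self, map_zero, norm_zero]; ring

lemma qf_le_image (T : V →ₗ[ℝ] V) (x : V) : qf T x ≤ ‖T x‖ ^ 2 := by
  have := qf_le T x 0
  simpa only [ge_iff_le, sub_zero, norm_zero, ne_eq, OfNat.ofNat_ne_zero, not_false_eq_true, zero_pow,     add_zero] using this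

/-- Comparison of the forms of two operators. -/
lemma qf_le_of_close (T S : V →ₗ[ℝ] V) (β : ℝ) (hβ : 0 ≤ β)
    (h : ∀ x, ‖T x‖ ^ 2 - ‖S x‖ ^ 2 ≤ β * ‖x‖ ^ 2) (x : V) :
    qf T x ≤ qf S x + β * ‖x‖ ^ 2 := by
  have h1 := qf_le T x (Mop S x)
  have h2 := qf_attained S x
  have h3 := h (x - Mop S x)
  have h4 : x - Mop S x = Rop S x := by rw [Mop_apply]; abel
  have h5 : ‖x - Mop S x‖ ^ 2 ≤ ‖x‖ ^ 2 := by
    rw [h4]; exact pow_le_pow_left₀ (norm_nonneg _) (Rop_contr S x) 2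
  have h6 := mul_le_mul_of_nonneg_left h5 hβ
  linarith only [h1, h2, h3, h6]

/-- The form of the identity. -/
lemma qf_id (x : V) : qf (LinearMap.id : V →ₗ[ℝ] V) x = ‖x‖ ^ 2 / 2 := by
  have h1 : Mop (LinearMap.id : V →ₗ[ℝ] V) x = (1 / 2 : ℝ) • x := by
    have h2 := OneB_Rop (LinearMap.id : V →ₗ[ℝ] V) x
    rw [OneB_apply] at h2
    have h3 : LinearMap.adjoint (LinearMap.id : V →ₗ[ℝ] V) = LinearMap.id :=
      LinearMap.adjoint_id
    rw [h3] at h2
    have h4 : (2 : ℝ) • Rop (LinearMap.id : V →ₗ[ℝ] V) x = x := by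
      rw [two_smul]; exact h2
    rw [Mop_apply]
    nth_rewrite 1 [← h4]
    nth_rewrite 3 [← h4]
    rw [smul_smul]
    module
  unfold qf
  rw [h1, real_inner_smul_right, real_inner_self_eq_norm_sq]; ring

/-- **Key inequality.** -/
lemma qf_key (A T : V →ₗ[ℝ] V) (x : V) :
    qf T (A x) + Ds A (Mop T (A x)) ≤ qf (T ∘ₗ A) x := by
  set w := Mop T (A x) with hw
  set u := Mop (T ∘ₗ A) x with hu
  have h1 : qf (T ∘ₗ A) x = ‖T (A x - A u)‖ ^ 2 + ‖u‖ ^ 2 := by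
    rw [qf_attained (T ∘ₗ A) x, ← hu, ← map_sub]; rfl
  have h2 := qf_min T (A x) (A u)
  rw [← hw] at h2
  have h3 : ‖A u - w‖ ^ 2 = ‖A u‖ ^ 2 - 2 * ⟪u, LinearMap.adjoint A w⟫_ℝ + ‖w‖ ^ 2 := by
    rw [norm_sub_sq_real, LinearMap.adjoint_inner_right]
  have h4 : 0 ≤ ‖u - LinearMap.adjoint A w‖ ^ 2 := sq_nonneg _
  rw [norm_sub_sq_real] at h4
  have h5 := sq_nonneg ‖T (A u - w)‖
  unfold Ds
  linarith only [h1, h2, h3, h4, h5]

end Vale.Agent.P262.SigStr
end
end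

section

section

/-!
Traces, relevant steps, time nets.
-/

open scoped BigOperators InnerProductSpace

namespace Vale.Agent.P262.SigStr

variable {V : Type} [NormedAddCommGroup V] [InnerProductSpace ℝ V] [FiniteDimensional ℝ V]

/-- Squared Hilbert-Schmidt norm. -/
noncomputable def hs (T : V →ₗ[ℝ] V) : ℝ := ∑ i, ‖T (stdOrthonormalBasis ℝ V i)‖ ^ 2

lemma hs_nonneg (T : V →ₗ[ℝ] V) : 0 ≤ hs T := Finset.sum_nonneg (fun _ _ => sq_nonneg _)

lemma hs_le_dim {T : V →ₗ[ℝ] V} (hT : Contr T) : hs T ≤ Module.finrank ℝ V := by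
  unfold hs
  calc ∑ i, ‖T (stdOrthonormalBasis ℝ V i)‖ ^ 2 ≤ ∑ _i : Fin (Module.finrank ℝ V), (1 : ℝ) := by
        apply Finset.sum_le_sum
        intro i _
        have h1 := hT (stdOrthonormalBasis ℝ V i)
        rw [(stdOrthonormalBasis ℝ V).orthonormal.1 i] at h1
        have := norm_nonneg (T (stdOrthonormalBasis ℝ V i))
        nlinarith only [h1, this]
    _ = _ := by simp only [Finset.sum_const, Finset.card_univ, Fintype.card_fin, nsmul_eq_mul, mul_one]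

omit [FiniteDimensional ℝ V] in
lemma sq_sum_inner {ι : Type} [Fintype ι] (f : OrthonormalBasis ι ℝ V) (x : V) :
    ∑ i, ⟪f i, x⟫_ℝ ^ 2 = ‖x‖ ^ 2 := by
  rw [← real_inner_self_eq_norm_sq, ← f.sum_inner_mul_inner x x]
  refine Finset.sum_congr rfl (fun i _ => ?_)
  rw [real_inner_comm x (f i)]; ring

section Walk

variable {c : ℝ} (hc : 1 ≤ c) {v : ℕ → V} (hv : ∀ k, ‖v k‖ ≤ 1)
include hc hv

lemma hs_anti {s a b : ℕ} (hsa : s ≤ a) (hab : a ≤ b) :
    hs (Aw c v s b) ≤ hs (Aw c v s a) := by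
  unfold hs
  apply Finset.sum_le_sum
  intro i _
  have h1 : ‖Aw c v s b (stdOrthonormalBasis ℝ V i)‖ ≤ ‖Aw c v s a (stdOrthonormalBasis ℝ V i)‖ := by
    rw [← Aw_comp_apply c v hsa hab]
    exact Aw_C hc hv a b _
  exact pow_le_pow_left₀ (norm_nonneg _) h1 2

/-- Time net. -/
lemma exists_net {s T : ℕ} (hsT : s ≤ T) :
    ∃ N : Finset ℕ, N.card ≤ Module.finrank ℝ V + 1 ∧ (∀ u ∈ N, s ≤ u ∧ u ≤ T) ∧
      ∀ u, s ≤ u → u ≤ T → ∃ u' ∈ N, u' ≤ u ∧ hs (Aw c v s u') ≤ hs (Aw c v s u) + 1 := by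
  classical
  set d := Module.finrank ℝ V with hd
  let τ : ℕ → ℝ := fun u => (d : ℝ) - hs (Aw c v s u)
  have hτ0 : ∀ u, 0 ≤ τ u := fun u => by
    have := hs_le_dim (Aw_C hc hv s u)
    show 0 ≤ (d : ℝ) - hs (Aw c v s u)
    linarith only [this]
  have hτd : ∀ u, τ u ≤ d := fun u => by
    have := hs_nonneg (Aw c v s u)
    show (d : ℝ) - hs (Aw c v s u) ≤ d
    linarith only [this]
  let P : ℕ → ℕ → Prop := fun j u => s ≤ u ∧ u ≤ T ∧ (j : ℝ) ≤ τ u
  let pick : ℕ → ℕ := fun j => if h : ∃ u, P j u then Nat.find h else s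
  have hpick : ∀ j, s ≤ pick j ∧ pick j ≤ T := by
    intro j
    by_cases h : ∃ u, P j u
    · have h1 : pick j = Nat.find h := dif_pos h
      rw [h1]
      exact ⟨(Nat.find_spec h).1, (Nat.find_spec h).2.1⟩
    · have h1 : pick j = s := dif_neg h
      rw [h1]
      exact ⟨le_rfl, hsT⟩
  refine ⟨(Finset.range (d + 1)).image pick, ?_, ?_, ?_⟩
  · refine Finset.card_image_le.trans ?_
    rw [Finset.card_range]
  · intro u hu
    obtain ⟨j, _, rfl⟩ := Finset.mem_image.1 hu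
    exact hpick j
  · intro u hu1 hu2
    set j := ⌊τ u⌋₊ with hj
    have hju : (j : ℝ) ≤ τ u := Nat.floor_le (hτ0 u)
    have hjd : j ≤ d := by
      have : (j : ℝ) ≤ d := hju.trans (hτd u)
      exact_mod_cast this
    have hex : ∃ u, P j u := ⟨u, hu1, hu2, hju⟩
    have h1 : pick j = Nat.find hex := dif_pos hex
    refine ⟨pick j, Finset.mem_image.2 ⟨j, Finset.mem_range.2 (by omega), rfl⟩, ?_, ?_⟩
    · rw [h1]
      exact Nat.find_min' hex ⟨hu1, hu2, hju⟩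
    · have h2 : (j : ℝ) ≤ τ (pick j) := by
        rw [h1]; exact (Nat.find_spec hex).2.2
      have h3 : τ u < j + 1 := Nat.lt_floor_add_one _
      have h4 : τ (pick j) = (d : ℝ) - hs (Aw c v s (pick j)) := rfl
      have h5 : τ u = (d : ℝ) - hs (Aw c v s u) := rfl
      linarith only [h2, h3]

end Walk

end Vale.Agent.P262.SigStr
end
end

section

section

/-!
Interface of the linear algebra for the signed prefix problem.
-/

open scoped BigOperators InnerProductSpace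

namespace Vale.Agent.P262.Sig

open Vale.Agent.P262.SigStr Vale.Agent.P262.SigP2

variable {V : Type} [NormedAddCommGroup V] [InnerProductSpace ℝ V] [FiniteDimensional ℝ V]

lemma inner_Bw' (c : ℝ) (v : ℕ → V) (s t : ℕ) (θ x : V) :
    ⟪x, Bw c v s t θ⟫_ℝ = ⟪Aw c v s t x, θ⟫_ℝ := LinearMap.adjoint_inner_right _ _ _

lemma DS_smul (c : ℝ) (v : ℕ → V) (s t : ℕ) (a : ℝ) (θ : V) :
    DS c v s t (a • θ) = a ^ 2 * DS c v s t θ := by
  unfold DS
  rw [map_smul, norm_smul, norm_smul, mul_pow, mul_pow, Real.norm_eq_abs, sq_abs]; ring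

omit [InnerProductSpace ℝ V] [FiniteDimensional ℝ V] in
lemma coef_lower' (c : ℝ) (hc : 4 ≤ c) (w : V) (hw : ‖w‖ ≤ 1) :
    (7 / 4) / c ≤ 2 / c - ‖w‖ ^ 2 / c ^ 2 := by
  have hc0 : 0 < c := by linarith only [hc]
  have h1 : ‖w‖ ^ 2 ≤ 1 := by
    have := norm_nonneg w
    nlinarith only [hw, this]
  have h2 : ‖w‖ ^ 2 / c ^ 2 ≤ (1 / 4) / c := by
    rw [div_le_div_iff₀ (by positivity) hc0]
    nlinarith only [hc, h1]
  have h3 : 2 / c = (7 / 4) / c + (1 / 4) / c := by ring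
  linarith only [h2, h3]

section B

variable {c : ℝ} (hc : 1 ≤ c) {v : ℕ → V} (hv : ∀ k, ‖v k‖ ≤ 1)
include hc hv

end B

/-! ### The forms `W` -/

/-- `W T x = min_u ‖T (x - u)‖² + ‖u‖²`. -/
noncomputable def W (T : V →ₗ[ℝ] V) (x : V) : ℝ := qf T x

/-- The minimizer. -/
noncomputable def uM (T : V →ₗ[ℝ] V) (x : V) : V := Mop T x

lemma W_le (T : V →ₗ[ℝ] V) (x u : V) : W T x ≤ ‖T (x - u)‖ ^ 2 + ‖u‖ ^ 2 := qf_le T x u

lemma W_eq (T : V →ₗ[ℝ] V) (x : V) : W T x = ‖T (x - uM T x)‖ ^ 2 + ‖uM T x‖ ^ 2 :=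
  qf_attained T x

lemma W_id (x : V) : W (LinearMap.id : V →ₗ[ℝ] V) x = ‖x‖ ^ 2 / 2 := qf_id x

lemma W_mono {T' T : V →ₗ[ℝ] V} (h : ∀ z, ‖T' z‖ ≤ ‖T z‖) (x : V) : W T' x ≤ W T x := by
  have h1 := W_le T' x (uM T x)
  have h2 := W_eq T x
  have h3 : ‖T' (x - uM T x)‖ ^ 2 ≤ ‖T (x - uM T x)‖ ^ 2 :=
    pow_le_pow_left₀ (norm_nonneg _) (h _) 2
  linarith

lemma W_close {T T' : V →ₗ[ℝ] V} {β : ℝ} (hβ : 0 ≤ β)
    (h : ∀ z, ‖T z‖ ^ 2 - ‖T' z‖ ^ 2 ≤ β * ‖z‖ ^ 2) (x : V) :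
    W T x ≤ W T' x + β * ‖x‖ ^ 2 := qf_le_of_close T T' β hβ h x

lemma W_key (A T' : V →ₗ[ℝ] V) (x : V) :
    W T' (A x) + (‖uM T' (A x)‖ ^ 2 - ‖LinearMap.adjoint A (uM T' (A x))‖ ^ 2) ≤
      W (T' ∘ₗ A) x := qf_key A T' x

lemma W_add_le (T : V →ₗ[ℝ] V) (y X : V) :
    W T (y + X) ≤ W T y + 2 * ⟪uM T y, X⟫_ℝ + ‖T X‖ ^ 2 := by
  unfold W uM
  rw [qf_add]
  have := qf_le_image T X
  linarith

/-! ### The trace `tau` -/

/-- Lost trace. -/
noncomputable def tau (c : ℝ) (v : ℕ → V) (s t : ℕ) : ℝ :=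
  ∑ a, DS c v s t (stdOrthonormalBasis ℝ V a)

lemma hs_adj (T : V →ₗ[ℝ] V) : hs (LinearMap.adjoint T) = hs T := by
  have key : ∀ {κ μ : Type} [Fintype κ] [Fintype μ] (g : OrthonormalBasis κ ℝ V)
      (h : OrthonormalBasis μ ℝ V),
      ∑ i, ‖T (g i)‖ ^ 2 = ∑ j, ‖LinearMap.adjoint T (h j)‖ ^ 2 := by
    intro κ μ _ _ g h
    calc ∑ i, ‖T (g i)‖ ^ 2 = ∑ i, ∑ j, ⟪h j, T (g i)⟫_ℝ ^ 2 :=
          Finset.sum_congr rfl (fun i _ => (sq_sum_inner h _).symm)
      _ = ∑ j, ∑ i, ⟪h j, T (g i)⟫_ℝ ^ 2 := Finset.sum_comm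
      _ = ∑ j, ∑ i, ⟪g i, LinearMap.adjoint T (h j)⟫_ℝ ^ 2 := by
          refine Finset.sum_congr rfl (fun j _ => Finset.sum_congr rfl (fun i _ => ?_))
          rw [LinearMap.adjoint_inner_right, real_inner_comm]
      _ = _ := Finset.sum_congr rfl (fun j _ => sq_sum_inner g _)
  exact (key (stdOrthonormalBasis ℝ V) (stdOrthonormalBasis ℝ V)).symm

lemma tau_eq (c : ℝ) (v : ℕ → V) (s t : ℕ) :
    tau c v s t = Module.finrank ℝ V - hs (Aw c v s t) := by
  unfold tau DS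
  rw [Finset.sum_sub_distrib, ← hs_adj (Aw c v s t)]
  congr 1
  calc ∑ a, ‖stdOrthonormalBasis ℝ V a‖ ^ 2 = ∑ _a : Fin (Module.finrank ℝ V), (1 : ℝ) := by
        refine Finset.sum_congr rfl (fun i _ => ?_)
        rw [(stdOrthonormalBasis ℝ V).orthonormal.1 i]; norm_num
    _ = _ := by simp only [Finset.sum_const, Finset.card_univ, Fintype.card_fin, nsmul_eq_mul, mul_one]

lemma norm_Aw_sq (c : ℝ) (v : ℕ → V) (s t : ℕ) (X : V) :
    ‖Aw c v s t X‖ ^ 2 = ∑ a, ⟪Bw c v s t (stdOrthonormalBasis ℝ V a), X⟫_ℝ ^ 2 := by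
  rw [← sq_sum_inner (stdOrthonormalBasis ℝ V) (Aw c v s t X)]
  refine Finset.sum_congr rfl (fun i _ => ?_)
  rw [inner_Bw]

lemma tau_diff (c : ℝ) (v : ℕ → V) {r s t : ℕ} (h1 : r ≤ s) (h2 : s ≤ t) :
    ∑ a, DS c v r s (Bw c v s t (stdOrthonormalBasis ℝ V a)) = tau c v r t - tau c v s t := by
  unfold tau
  rw [← Finset.sum_sub_distrib]
  refine Finset.sum_congr rfl (fun i _ => ?_)
  rw [DS_comp c v h1 h2]; ring

lemma tau_self (c : ℝ) (v : ℕ → V) (s : ℕ) : tau c v s s = 0 := by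
  unfold tau
  exact Finset.sum_eq_zero (fun i _ => DS_self c v s _)

section Tau

variable {c : ℝ} (hc : 1 ≤ c) {v : ℕ → V} (hv : ∀ k, ‖v k‖ ≤ 1)
include hc hv

omit hc hv in
lemma tau_le (s t : ℕ) : tau c v s t ≤ Module.finrank ℝ V := by
  rw [tau_eq]
  have := hs_nonneg (Aw c v s t)
  linarith only [this]

lemma tau_mono {s a b : ℕ} (h1 : s ≤ a) (h2 : a ≤ b) : tau c v s a ≤ tau c v s b := by
  rw [tau_eq, tau_eq]
  have := hs_anti hc hv h1 h2
  linarith only [this]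

/-- Time net in terms of `tau`. -/
lemma exists_tnet {s t : ℕ} (hst : s ≤ t) :
    ∃ N : Finset ℕ, N.card ≤ Module.finrank ℝ V + 1 ∧ (∀ u ∈ N, s ≤ u ∧ u ≤ t) ∧
      ∀ r, s ≤ r → r ≤ t → ∃ r' ∈ N, r' ≤ r ∧ tau c v s r ≤ tau c v s r' + 1 := by
  obtain ⟨N, h1, h2, h3⟩ := exists_net hc hv hst
  refine ⟨N, h1, h2, fun r hr1 hr2 => ?_⟩
  obtain ⟨r', h4, h5, h6⟩ := h3 r hr1 hr2
  refine ⟨r', h4, h5, ?_⟩
  rw [tau_eq, tau_eq]
  linarith only [h6]

end Tau

section Rel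

variable {c : ℝ} (hc : 4 ≤ c) {v : ℕ → V} (hv : ∀ k, ‖v k‖ ≤ 1)
include hc hv

lemma tau_step {s k : ℕ} (hsk : s ≤ k) :
    ‖Bw c v s k (v k)‖ ^ 2 ≤ 3 / 5 * c * (tau c v s (k + 1) - tau c v s k) := by
  have hc0 : 0 < c := by linarith only [hc]
  have h1 : tau c v s (k + 1) - tau c v s k =
      (2 / c - ‖v k‖ ^ 2 / c ^ 2) * ‖Bw c v s k (v k)‖ ^ 2 := by
    rw [tau_eq, tau_eq]
    have : (Module.finrank ℝ V - hs (Aw c v s (k + 1))) - (Module.finrank ℝ V - hs (Aw c v s k)) =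
      hs (Aw c v s k) - hs (Aw c v s (k + 1)) := by ring
    rw [this]
    unfold hs
    rw [← Finset.sum_sub_distrib,
      ← sq_sum_inner (stdOrthonormalBasis ℝ V) (Bw c v s k (v k)), Finset.mul_sum]
    refine Finset.sum_congr rfl (fun i _ => ?_)
    rw [Aw_succ c v hsk]
    have h2 := DD_stp c hc0 (v k) (Aw c v s k (stdOrthonormalBasis ℝ V i))
    unfold DD at h2
    rw [inner_Bw', real_inner_comm]
    exact h2
  have h3 := coef_lower' c hc (v k) (hv k)
  rw [h1]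
  set N := ‖Bw c v s k (v k)‖ ^ 2 with hN
  have hN0 : 0 ≤ N := sq_nonneg _
  have h4 : (7 / 4) / c * N ≤ (2 / c - ‖v k‖ ^ 2 / c ^ 2) * N := mul_le_mul_of_nonneg_right h3 hN0
  have h5 := mul_le_mul_of_nonneg_left h4 (show 0 ≤ 3 / 5 * c by positivity)
  have h6 : 3 / 5 * c * ((7 / 4) / c * N) = 21 / 20 * N := by field_simp; ring
  linarith only [hN0, h5, h6]

/-- Total relevance. -/
lemma sum_rel {s t : ℕ} (hst : s ≤ t) :
    ∑ k ∈ Finset.Ico s t, ‖Bw c v s k (v k)‖ ^ 2 ≤ 3 / 5 * c * Module.finrank ℝ V := by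
  have hc0 : 0 < c := by linarith only [hc]
  have h1 : ∑ k ∈ Finset.Ico s t, ‖Bw c v s k (v k)‖ ^ 2 ≤ 3 / 5 * c * tau c v s t := by
    induction t, hst using Nat.le_induction with
    | base => rw [tau_self]; simp only [Std.le_refl, Finset.Ico_eq_empty_of_le, Finset.sum_empty, mul_zero]
    | succ t hst ih =>
      rw [Finset.sum_Ico_succ_top hst]
      have h2 := tau_step hc hv hst
      linarith only [ih, h2]
  exact h1.trans (mul_le_mul_of_nonneg_left (tau_le s t) (by positivity))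

/-- Relevant steps. -/
noncomputable def rel (c : ℝ) (v : ℕ → V) (ι : ℝ) (s t : ℕ) : Finset ℕ :=
  (Finset.Ico s t).filter (fun k => ι ≤ ‖Bw c v s k (v k)‖)

omit hc hv in
lemma mem_rel {c : ℝ} {v : ℕ → V} {ι : ℝ} {s t k : ℕ} :
    k ∈ rel c v ι s t ↔ (s ≤ k ∧ k < t) ∧ ι ≤ ‖Bw c v s k (v k)‖ := by
  unfold rel
  rw [Finset.mem_filter, Finset.mem_Ico]

lemma rel_card {s t : ℕ} (hst : s ≤ t) {ι : ℝ} (hι : 0 < ι) :
    ((rel c v ι s t).card : ℝ) ≤ 3 / 5 * c * Module.finrank ℝ V / ι ^ 2 := by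
  rw [le_div_iff₀ (by positivity)]
  refine le_trans ?_ (sum_rel hc hv hst)
  calc ((rel c v ι s t).card : ℝ) * ι ^ 2 = ∑ _k ∈ rel c v ι s t, ι ^ 2 := by
        rw [Finset.sum_const, nsmul_eq_mul]
    _ ≤ ∑ k ∈ rel c v ι s t, ‖Bw c v s k (v k)‖ ^ 2 := by
        apply Finset.sum_le_sum
        intro k hk
        have := (Finset.mem_filter.1 hk).2
        exact pow_le_pow_left₀ hι.le this 2
    _ ≤ _ := Finset.sum_le_sum_of_subset_of_nonneg (Finset.filter_subset _ _)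
        (fun _ _ _ => sq_nonneg _)

/-- Steps after a separation time are irrelevant (pointwise form). -/
lemma rel_of_sep {β : ℝ} (hβ : 0 ≤ β) {T a b k : ℕ} (hab : a ≤ b)
    (hS : Sep c v β T a b) (hbk : b ≤ k) (hkT : k < T) :
    ‖Bw c v a k (v k)‖ ^ 2 ≤ 3 / 5 * c * β := by
  have hc0 : 0 < c := by linarith only [hc]
  have hc1 : 1 ≤ c := by linarith only [hc]
  have hak := hab.trans hbk
  set x := Bw c v a k (v k) with hx
  have h1 := hS k hbk hkT.le x
  have h2 := DD_stp c hc0 (v k) (Aw c v a k x)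
  unfold DD at h2
  have h3 : ⟪v k, Aw c v a k x⟫_ℝ = ‖x‖ ^ 2 := by
    rw [← inner_Bw, ← hx, real_inner_self_eq_norm_sq]
  rw [h3] at h2
  have h4 : ‖Aw c v a T x‖ ≤ ‖stp c (v k) (Aw c v a k x)‖ := by
    have e1 : stp c (v k) (Aw c v a k x) = Aw c v a (k + 1) x := by
      rw [Aw_succ c v hak]; rfl
    rw [e1, ← Aw_comp_apply c v (show a ≤ k + 1 by omega) (Nat.succ_le_of_lt hkT)]
    exact Aw_C hc1 hv (k + 1) T _
  have h5 : ‖Aw c v a T x‖ ^ 2 ≤ ‖stp c (v k) (Aw c v a k x)‖ ^ 2 :=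
    pow_le_pow_left₀ (norm_nonneg _) h4 2
  have h6 := coef_lower' c hc (v k) (hv k)
  set N := ‖x‖ ^ 2 with hN
  have hN0 : 0 ≤ N := sq_nonneg _
  have h7 : (7 / 4) / c * N ^ 2 ≤ β * N := by
    have := mul_le_mul_of_nonneg_right h6 (sq_nonneg N)
    linarith only [h5, h1, h2, this]
  rcases hN0.eq_or_lt with h0 | h0
  · rw [← h0]; (clear * - hc hβ; positivity)
  · have h8 : (7 / 4) / c * N ≤ β := by
      have : ((7 / 4) / c * N) * N ≤ β * N := by
        refine le_trans (le_of_eq ?_) h7; ring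
      exact le_of_mul_le_mul_right this h0
    have h9 := mul_le_mul_of_nonneg_left h8 (show 0 ≤ 3 / 5 * c by positivity)
    have h10 : 3 / 5 * c * ((7 / 4) / c * N) = 21 / 20 * N := by field_simp; ring
    linarith only [h0, h9, h10]

end Rel

/-! ### The potential -/

/-- The potential. -/
noncomputable def Vp (c : ℝ) (v : ℕ → V) (L : ℝ) (s t : ℕ) (x : V) : ℝ :=
  W (Aw c v s t) x + L * tau c v s t

lemma Vp_self (c : ℝ) (v : ℕ → V) (L : ℝ) (s : ℕ) (x : V) : Vp c v L s s x = ‖x‖ ^ 2 / 2 := by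
  unfold Vp
  rw [Aw_self, W_id, tau_self]; ring

/-- Deterministic evolution of the potential. -/
lemma Vp_det (c : ℝ) (v : ℕ → V) (L : ℝ) {s s' t : ℕ} (h1 : s ≤ s') (h2 : s' ≤ t) (x X : V) :
    Vp c v L s' t (Aw c v s s' x + X) ≤ Vp c v L s t x
      - DS c v s s' (uM (Aw c v s' t) (Aw c v s s' x))
      + 2 * ⟪uM (Aw c v s' t) (Aw c v s s' x), X⟫_ℝ
      + (‖Aw c v s' t X‖ ^ 2 - L * (tau c v s t - tau c v s' t)) := by
  unfold Vp
  have k1 := W_add_le (Aw c v s' t) (Aw c v s s' x) X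
  have k2 := W_key (Aw c v s s') (Aw c v s' t) x
  rw [Aw_comp c v h1 h2] at k2
  unfold DS Bw
  (clear h1 h2; linarith only [k1, k2])

/-- Monotonicity in time up to the trace. -/
lemma Vp_net {c : ℝ} (hc : 1 ≤ c) {v : ℕ → V} (hv : ∀ k, ‖v k‖ ≤ 1) {L : ℝ} (hL : 0 ≤ L)
    {s r' r : ℕ} (h1 : s ≤ r') (h2 : r' ≤ r) (h3 : tau c v s r ≤ tau c v s r' + 1) (x : V) :
    Vp c v L s r x ≤ Vp c v L s r' x + L := by
  unfold Vp
  have k1 : W (Aw c v s r) x ≤ W (Aw c v s r') x := by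
    apply W_mono
    intro z
    rw [← Aw_comp_apply c v h1 h2]
    exact Aw_C hc hv r' r _
  have k2 := mul_le_mul_of_nonneg_left h3 hL
  linarith only [k1, k2]

/-- Comparison with the final time after separation. -/
lemma Vp_sep {c : ℝ} (hc : 1 ≤ c) {v : ℕ → V} (hv : ∀ k, ‖v k‖ ≤ 1) {L β : ℝ} (hL : 0 ≤ L)
    (hβ : 0 ≤ β) {T a b u : ℕ} (hab : a ≤ b) (hS : Sep c v β T a b) (hbu : b ≤ u)
    (huT : u ≤ T) (x : V) :
    Vp c v L a u x ≤ Vp c v L a T x + β * ‖x‖ ^ 2 := by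
  unfold Vp
  have k1 := W_close (T := Aw c v a u) (T' := Aw c v a T) hβ (fun z => hS u hbu huT z) x
  have k2 := mul_le_mul_of_nonneg_left (tau_mono hc hv (hab.trans hbu) huT) hL
  linarith only [k1, k2]

end Vale.Agent.P262.Sig
end
end

section

section

/-!
Definitions for the block construction.
-/

open scoped BigOperators InnerProductSpace

namespace Vale.Agent.P262.Sig

open Vale.Agent.P262.SigStr Vale.Agent.P262.SigP2

variable {V : Type} [NormedAddCommGroup V] [InnerProductSpace ℝ V] [FiniteDimensional ℝ V]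

/-- `y` is reachable from `x` by actual signs, all positions having norm at most `R`. -/
def Reach (v : ℕ → V) (R : ℝ) (s t : ℕ) (x y : V) : Prop :=
  ∃ p : ℕ → V, p s = x ∧ p t = y ∧ (∀ k, s ≤ k → k ≤ t → ‖p k‖ ≤ R) ∧
    ∀ k, s ≤ k → k < t → (p (k + 1) = p k + v k ∨ p (k + 1) = p k - v k)

/-- Laws of the walk on an interval, one for each admissible starting point. -/
def Pn (c : ℝ) (v : ℕ → V) (R L κb ι B κ ν M : ℝ) (s t : ℕ) : Prop :=
  ∀ x : V, (∀ r, s ≤ r → r ≤ t → Vp c v L s r x ≤ B) →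
    ∃ E : PosFun (V × Lab), Law c v s t x κ ν E ∧
      Supp E {o | o.2 ≠ Lab.bad ∧ (o.2 = Lab.alive → Reach v R s t x o.1) ∧
        ∀ k, o.2 = Lab.clip k → s ≤ k ∧ k < t ∧ ι ≤ ‖Bw c v s k (v k)‖} ∧
      ∀ k, E.ev (ind {o : V × Lab | o.2 = Lab.clip k}) ≤
        M * Fk c v κb s k x * Real.exp (-(c / 2))

/-- The noise accumulated between `s` (position `x`) and `a` (position `y`) does not increase
the potentials (final times in `[a, T]`) by more than `3 L + 1`. -/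
def NT (c : ℝ) (v : ℕ → V) (L : ℝ) (T s : ℕ) (x : V) (a : ℕ) (y : V) : Prop :=
  ∀ B : ℝ, (∀ r, a ≤ r → r ≤ T → Vp c v L s r x ≤ B) →
    ∀ r, a ≤ r → r ≤ T → Vp c v L a r y ≤ B + (3 * L + 1)

end Vale.Agent.P262.Sig
end
end

section

section

/-!
Noise tests and the reweighting wrapper.
-/

open scoped BigOperators InnerProductSpace

namespace Vale.Agent.P262.Sig

open Vale.Agent.P262.SigStr Vale.Agent.P262.SigP2

section PF

variable {Ω : Type}

lemma jnn (B : Set Ω) (ω : Ω) : 0 ≤ ind B ω := by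
  classical
  by_cases h : ω ∈ B <;> simp [ind, h]

lemma jle1 (B : Set Ω) (ω : Ω) : ind B ω ≤ 1 := by
  classical
  by_cases h : ω ∈ B <;> simp [ind, h]

lemma jin {B : Set Ω} {ω : Ω} (h : ω ∈ B) : ind B ω = 1 := by simp [ind, h]

lemma jout {B : Set Ω} {ω : Ω} (h : ω ∉ B) : ind B ω = 0 := by simp [ind, h]

end PF

variable {V : Type} [NormedAddCommGroup V] [InnerProductSpace ℝ V] [FiniteDimensional ℝ V]
variable {c : ℝ} {v : ℕ → V}

/-- Failure probability of one noise test. -/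
noncomputable def qN (V : Type) [NormedAddCommGroup V] [InnerProductSpace ℝ V]
    (L κ : ℝ) : ℝ :=
  ((Module.finrank ℝ V : ℝ) + 1) ^ 2 * (2 * Real.exp (-(L / (2 * κ))))

lemma noise_test (hc : 1 ≤ c) (hv : ∀ k, ‖v k‖ ≤ 1) {s a T : ℕ} (hsa : s ≤ a) (haT : a ≤ T)
    {x : V} {κ ν : ℝ} {E : PosFun (V × Lab)} (h : Law c v s a x κ ν E) (hκ : 0 < κ) {L : ℝ}
    (hL : 0 ≤ L) :
    E.ev (ind {o : V × Lab | ¬ NT c v L T s x a o.1}) ≤ qN V L κ := by
  classical
  set d : ℝ := (Module.finrank ℝ V : ℝ) with hd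
  obtain ⟨N, hN1, hN2, hN3⟩ := exists_tnet hc hv haT
  let u : ℕ → V := fun r => uM (Aw c v a r) (Aw c v s a x)
  let e := stdOrthonormalBasis ℝ V
  let A : ℕ → Set (V × Lab) := fun r =>
    {o | L * (DS c v s a (u r) + 1) < ⟪u r, o.1 - Aw c v s a x⟫_ℝ ^ 2}
  let A' : ℕ → Fin (Module.finrank ℝ V) → Set (V × Lab) := fun r i =>
    {o | L * (DS c v s a (Bw c v a r (e i)) + 1 / d) <
      ⟪Bw c v a r (e i), o.1 - Aw c v s a x⟫_ℝ ^ 2}
  have key : ∀ o : V × Lab, ind {o : V × Lab | ¬ NT c v L T s x a o.1} o ≤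
      ∑ r ∈ N, (ind (A r) o + ∑ i, ind (A' r i) o) := by
    intro o
    have hnn : ∀ r ∈ N, 0 ≤ ind (A r) o + ∑ i, ind (A' r i) o := fun r _ =>
      add_nonneg (jnn _ _) (Finset.sum_nonneg fun i _ => jnn _ _)
    by_cases hNT : NT c v L T s x a o.1
    · have : o ∉ {o : V × Lab | ¬ NT c v L T s x a o.1} := fun h => h hNT
      rw [jout this]
      exact Finset.sum_nonneg hnn
    · rw [jin (B := {o : V × Lab | ¬ NT c v L T s x a o.1}) hNT]
      by_contra hlt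
      push Not at hlt
      apply hNT
      -- no test fails
      have hone : ∀ r ∈ N, o ∉ A r ∧ ∀ i, o ∉ A' r i := by
        intro r hr
        have h1 := Finset.single_le_sum hnn hr
        have h2 : ind (A r) o + ∑ i, ind (A' r i) o < 1 := lt_of_le_of_lt h1 hlt
        have h3 : 0 ≤ ∑ i, ind (A' r i) o := Finset.sum_nonneg fun i _ => jnn _ _
        constructor
        · intro h4
          rw [jin h4] at h2
          linarith only [h2, h3]
        · intro i h4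
          have h5 := Finset.single_le_sum (f := fun i => ind (A' r i) o)
            (fun i _ => jnn _ _) (Finset.mem_univ i)
          simp only [jin h4] at h5
          have := jnn (A r) o
          linarith only [hlt, h1, h5, this]
      intro B hB r har hrT
      obtain ⟨r', hr'N, hr'r, hτ⟩ := hN3 r har hrT
      obtain ⟨har', hr'T⟩ := hN2 r' hr'N
      obtain ⟨hA, hA'⟩ := hone r' hr'N
      have h1 := Vp_net hc hv hL har' hr'r hτ o.1
      set X := o.1 - Aw c v s a x with hX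
      have h2 := Vp_det c v L hsa har' x X
      have eX : Aw c v s a x + X = o.1 := by rw [hX]; abel
      rw [eX] at h2
      have h3 := hB r' har' hr'T
      have hA2 : ⟪u r', X⟫_ℝ ^ 2 ≤ L * (DS c v s a (u r') + 1) := not_lt.1 hA
      have hδ : 0 ≤ DS c v s a (u r') := DS_nonneg hc hv s a _
      have h4 : 2 * ⟪u r', X⟫_ℝ ≤ L + (DS c v s a (u r') + 1) := by
        have h5 : (2 * ⟪u r', X⟫_ℝ) ^ 2 ≤ (L + (DS c v s a (u r') + 1)) ^ 2 := by
          (clear hc hv T hsa haT κ ν E h hκ hL d hd N hN1 hN2 hN3 e A' hnn hNT hlt hone B hB r har hrT hr'N hr'r hτ har' hr'T hA' h1 hX h2 eX h3 hδ; nlinarith only [hA2, sq_nonneg (L - (DS c v s a (u r') + 1))])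
        exact (abs_le_of_sq_le_sq' h5 (by (clear T hsa haT κ ν E h hκ d hd N hN1 hN2 hN3 e A A' o hnn hNT hlt hone B hB r har hrT hr'N hr'r hτ har' hr'T hA hA' h1 X hX h2 eX h3 hA2 h5; positivity))).2
      have h6 : ‖Aw c v a r' X‖ ^ 2 ≤ L * (tau c v s r' - tau c v a r') + L := by
        rw [norm_Aw_sq, ← tau_diff c v hsa har']
        have h7 : ∑ i, ⟪Bw c v a r' (e i), X⟫_ℝ ^ 2 ≤
            ∑ i, L * (DS c v s a (Bw c v a r' (e i)) + 1 / d) :=
          Finset.sum_le_sum fun i _ => not_lt.1 (hA' i)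
        refine h7.trans ?_
        rw [← Finset.mul_sum, Finset.sum_add_distrib, mul_add]
        have h8 : ∑ _i : Fin (Module.finrank ℝ V), 1 / d ≤ 1 := by
          rw [Finset.sum_const, Finset.card_univ, Fintype.card_fin, nsmul_eq_mul, ← hd]
          rcases eq_or_ne d 0 with h0 | h0
          · rw [h0]; norm_num
          · rw [mul_one_div_cancel h0]
        have h9 := mul_le_mul_of_nonneg_left h8 hL
        rw [mul_one] at h9
        exact add_le_add le_rfl h9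
      have e0 : u r' = uM (Aw c v a r') (Aw c v s a x) := rfl
      rw [← e0] at h2
      linarith only [h1, h2, h3, h4, h6]
  refine (E.ev_mono key).trans ?_
  rw [E.ev_sum]
  have hb : ∀ r ∈ N, E.ev (fun o => ind (A r) o + ∑ i, ind (A' r i) o) ≤
      (d + 1) * (2 * Real.exp (-(L / (2 * κ)))) := by
    intro r _
    rw [E.add' (fun o => ind (A r) o) (fun o => ∑ i, ind (A' r i) o), E.ev_sum]
    have h1 := h.tail hc hv hκ hL (ε := 1) (by norm_num) (u r)
    have h2 : ∑ i, E.ev (ind (A' r i)) ≤ ∑ _i : Fin (Module.finrank ℝ V),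
        2 * Real.exp (-(L / (2 * κ))) :=
      Finset.sum_le_sum fun i _ => h.tail hc hv hκ hL (ε := 1 / d)
        (by (clear * -; positivity)) (Bw c v a r (e i))
    rw [Finset.sum_const, Finset.card_univ, Fintype.card_fin, nsmul_eq_mul, ← hd] at h2
    have h3 : E.ev (fun o => ind (A r) o) = E.ev (ind (A r)) := rfl
    rw [h3]
    calc _ ≤ 2 * Real.exp (-(L / (2 * κ))) + d * (2 * Real.exp (-(L / (2 * κ)))) :=
          add_le_add h1 h2
      _ = _ := by ring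
  refine (Finset.sum_le_sum hb).trans ?_
  rw [Finset.sum_const, nsmul_eq_mul]
  unfold qN
  rw [← hd]
  have h1 : (N.card : ℝ) ≤ d + 1 := by rw [hd]; exact_mod_cast hN1
  have h2 : 0 ≤ (d + 1) * (2 * Real.exp (-(L / (2 * κ)))) := by (clear * -; positivity)
  calc (N.card : ℝ) * ((d + 1) * (2 * Real.exp (-(L / (2 * κ))))) ≤
        (d + 1) * ((d + 1) * (2 * Real.exp (-(L / (2 * κ))))) :=
        mul_le_mul_of_nonneg_right h1 h2
    _ = _ := by ring

/-- Exact quadratic test for the final time. -/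
def QT (c : ℝ) (v : ℕ → V) (L : ℝ) (T s : ℕ) (x : V) (a : ℕ) (y : V) : Prop :=
  ‖Aw c v a T (y - Aw c v s a x)‖ ^ 2 ≤ L * (tau c v s T - tau c v a T)

lemma quad_test (hc : 1 ≤ c) (hv : ∀ k, ‖v k‖ ≤ 1) {s a T : ℕ} (hsa : s ≤ a) (haT : a ≤ T)
    {x : V} {κ ν : ℝ} {E : PosFun (V × Lab)} (h : Law c v s a x κ ν E) (hκ : 0 < κ) {L : ℝ}
    (hL : 0 ≤ L) :
    E.ev (ind {o : V × Lab | ¬ QT c v L T s x a o.1}) ≤
      (Module.finrank ℝ V : ℝ) * (2 * Real.exp (-(L / (2 * κ)))) := by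
  classical
  let e := stdOrthonormalBasis ℝ V
  let A' : Fin (Module.finrank ℝ V) → Set (V × Lab) := fun i =>
    {o | L * (DS c v s a (Bw c v a T (e i)) + 0) <
      ⟪Bw c v a T (e i), o.1 - Aw c v s a x⟫_ℝ ^ 2}
  have key : ∀ o : V × Lab, ind {o : V × Lab | ¬ QT c v L T s x a o.1} o ≤
      ∑ i, ind (A' i) o := by
    intro o
    by_cases hQ : QT c v L T s x a o.1
    · have : o ∉ {o : V × Lab | ¬ QT c v L T s x a o.1} := fun h => h hQ
      rw [jout this]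
      exact Finset.sum_nonneg fun i _ => jnn _ _
    · rw [jin (B := {o : V × Lab | ¬ QT c v L T s x a o.1}) hQ]
      by_contra hlt
      push Not at hlt
      apply hQ
      have hone : ∀ i, o ∉ A' i := by
        intro i h4
        have h5 := Finset.single_le_sum (f := fun i => ind (A' i) o)
          (fun i _ => jnn _ _) (Finset.mem_univ i)
        simp only [jin h4] at h5
        linarith only [hlt, h5]
      unfold QT
      rw [norm_Aw_sq, ← tau_diff c v hsa haT, Finset.mul_sum]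
      apply Finset.sum_le_sum
      intro i _
      have h10 : ¬ (L * (DS c v s a (Bw c v a T (e i)) + 0) <
        ⟪Bw c v a T (e i), o.1 - Aw c v s a x⟫_ℝ ^ 2) := hone i
      rw [add_zero] at h10
      exact not_lt.1 h10
  refine (E.ev_mono key).trans ?_
  rw [E.ev_sum]
  have h2 : ∑ i, E.ev (ind (A' i)) ≤ ∑ _i : Fin (Module.finrank ℝ V),
      2 * Real.exp (-(L / (2 * κ))) :=
    Finset.sum_le_sum fun i _ => h.tail hc hv hκ hL (ε := 0) le_rfl (Bw c v a T (e i))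
  rw [Finset.sum_const, Finset.card_univ, Fintype.card_fin, nsmul_eq_mul] at h2
  exact h2

/-- Conditions for the reweighting of a law with failure probability `p`. -/
structure RwOK (d : ℕ) (κ ν p ρ κ' ν' : ℝ) : Prop where
  hκ : 0 < κ
  hν : 0 < ν
  hρ : 0 ≤ ρ
  hκ' : κ * (1 + ρ) ≤ κ'
  ex : ∃ K η p' : ℝ, 0 ≤ K ∧ p + d * (2 * Real.exp (-(K ^ 2 / (2 * κ)))) ≤ p' ∧
    8 * κ * Real.sqrt p' ≤ ν ∧ 0 ≤ η ∧ η ≤ 1 / 2 ∧ 8 * κ * p' * (d * K ^ 2) ≤ η ^ 2 * ν ^ 2 ∧
    p' + 4 * κ * p' / ν < 1 ∧ 1 + η ≤ (1 + ρ) * (1 - p' - 4 * κ * p' / ν) ∧ η ≤ ρ ∧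
    ν' ≤ (1 - ρ) * (ν - 4 * κ * Real.sqrt p')

lemma Law.rw' (hc : 1 ≤ c) (hv : ∀ k, ‖v k‖ ≤ 1) {s t : ℕ} {x : V} {κ ν p ρ κ' ν' : ℝ}
    {E : PosFun (V × Lab)} (h : Law c v s t x κ ν E)
    (hR : RwOK (Module.finrank ℝ V) κ ν p ρ κ' ν') {S G : Set (V × Lab)} (hS : Supp E S)
    (hG : E.ev (ind Gᶜ) ≤ p) :
    ∃ E' : PosFun (V × Lab), Law c v s t x κ' ν' E' ∧ Supp E' (S ∩ G) ∧
      ∀ f : V × Lab → ℝ, (∀ o, 0 ≤ f o) → E'.ev f ≤ (1 + ρ) * E.ev f := by
  obtain ⟨hκ, hν, hρ, hκ', K, η, p', hK, hp', hs1, hη0, hη1, hη, hpos, hρ', hηρ, hν'⟩ := hR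
  obtain ⟨E', h1, h2, h3, h4, h5⟩ := reweight E (fun o : V × Lab => o.1 - Aw c v s t x)
    (Bw c v s t) (Bw_contr hc hv s t) κ ν K p' ρ η G hκ hν hK h.mean h.exp h.var
    (by linarith only [hG, hp']) hs1 hη0 hη1 hη hpos hρ' hηρ
  have hSE : ∀ S' : Set (V × Lab), Supp E S' → Supp E' S' := fun S' hS' =>
    Supp.of_ev_le hS' h2
  refine ⟨E', ⟨hSE _ h.null, h3, ?_, ?_⟩, (hSE _ hS).inter h1, h2⟩
  · intro θ
    refine (h4 θ).trans (Real.exp_le_exp.2 ?_)
    have := mul_le_mul_of_nonneg_right hκ' (DS_nonneg hc hv s t θ)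
    unfold DS at this ⊢
    linarith only [this]
  · intro θ
    have := mul_le_mul_of_nonneg_right hν' (DS_nonneg hc hv s t θ)
    exact this.trans (h5 θ)

end Vale.Agent.P262.Sig
end
end

section

section

/-!
Numerical parameters: reweighting conditions and the sequences.
-/

open scoped BigOperators

namespace Vale.Agent.P262.Sig

section Num

variable {n x ℓ κ ν ρ : ℝ}

lemma num_pows (hx5 : (5.4 : ℝ) ≤ x) :
    (29 : ℝ) ≤ x ^ 2 ∧ (841 : ℝ) ≤ x ^ 4 ∧ (100000 : ℝ) ≤ x ^ 7 ∧ (700000 : ℝ) ≤ x ^ 8 ∧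
      (588000000 : ℝ) ≤ x ^ 12 := by
  have hx2 : (29 : ℝ) ≤ x ^ 2 := by nlinarith only [hx5]
  have hx4 : (841 : ℝ) ≤ x ^ 4 := by
    have : x ^ 4 = x ^ 2 * x ^ 2 := by ring
    nlinarith only [hx2]
  have h3 : (150 : ℝ) ≤ x ^ 2 * x := by nlinarith only [hx5, hx2]
  have hx7 : (100000 : ℝ) ≤ x ^ 7 := by
    have : x ^ 7 = x ^ 4 * (x ^ 2 * x) := by ring
    rw [this]
    calc (100000 : ℝ) ≤ 841 * 150 := by norm_num
      _ ≤ _ := mul_le_mul hx4 h3 (by norm_num) (by linarith only [hx4])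
  have hx8 : (700000 : ℝ) ≤ x ^ 8 := by
    have : x ^ 8 = x ^ 4 * x ^ 4 := by ring
    rw [this]
    calc (700000 : ℝ) ≤ 841 * 841 := by norm_num
      _ ≤ _ := mul_le_mul hx4 hx4 (by norm_num) (by linarith only [hx4])
  have hx12 : (588000000 : ℝ) ≤ x ^ 12 := by
    have : x ^ 12 = x ^ 8 * x ^ 4 := by ring
    rw [this]
    calc (588000000 : ℝ) ≤ 700000 * 841 := by norm_num
      _ ≤ _ := mul_le_mul hx8 hx4 (by norm_num) (by linarith only [hx8])
  exact ⟨hx2, hx4, hx7, hx8, hx12⟩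

lemma num_a (hn0 : 0 < n) (hxn : 2.7 * n ≤ x) (hx5 : (5.4 : ℝ) ≤ x) (hρ : ρ = 1 / (100 * n)) :
    100000 * (1 / x ^ 16) ≤ ρ := by
  obtain ⟨_, _, hx7, hx8, _⟩ := num_pows hx5
  have hx0 : 0 < x := by linarith only [hx5]
  rw [hρ, mul_one_div, div_le_div_iff₀ (by positivity) (by positivity)]
  have h2 : (100000 : ℝ) * n ≤ x ^ 7 * x := mul_le_mul hx7 (by linarith only [hxn, hx5]) hn0.le (by positivity)
  calc 100000 * (100 * n) = 100 * (100000 * n) := by ring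
    _ ≤ x ^ 8 * (x ^ 7 * x) := mul_le_mul (by linarith only [hx8]) h2 (by positivity) (by positivity)
    _ = 1 * x ^ 16 := by ring

lemma num_b (hν : 0 < ν) (hκν : κ ≤ 1.7 * ν) (hx5 : (5.4 : ℝ) ≤ x) :
    8 * κ * (1 / x ^ 8) ≤ ν := by
  obtain ⟨_, _, _, hx8, _⟩ := num_pows hx5
  have hx0 : 0 < x := by linarith only [hx5]
  rw [mul_one_div, div_le_iff₀ (by positivity)]
  have h1 : ν * 13.6 ≤ ν * x ^ 8 := mul_le_mul_of_nonneg_left (by linarith only [hx8]) hν.le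
  linarith only [hκν, h1]

lemma num_c (hn0 : 0 < n) (hℓ0 : 1 ≤ ℓ) (hℓ1 : ℓ ≤ x) (hν : 0 < ν) (hκ : 0 < κ)
    (hκν : κ ≤ 1.7 * ν) (hxn : 2.7 * n ≤ x) (hx5 : (5.4 : ℝ) ≤ x) (hρ : ρ = 1 / (100 * n)) :
    8 * κ * (1 / x ^ 16) * (n * (2 * κ * (18 * ℓ))) ≤ (ρ / 2) ^ 2 * ν ^ 2 := by
  obtain ⟨_, _, _, _, hx12⟩ := num_pows hx5
  have hx0 : 0 < x := by linarith only [hx5]
  have h1 : κ ^ 2 ≤ 2.89 * ν ^ 2 := by
    have := mul_le_mul hκν hκν hκ.le (by linarith only [hν])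
    nlinarith only [this]
  have h2 : 8 * κ * (1 / x ^ 16) * (n * (2 * κ * (18 * ℓ))) =
      κ ^ 2 * (288 * (n * ℓ) * (1 / x ^ 16)) := by ring
  rw [h2]
  have h3 : κ ^ 2 * (288 * (n * ℓ) * (1 / x ^ 16)) ≤
      2.89 * ν ^ 2 * (288 * (n * ℓ) * (1 / x ^ 16)) :=
    mul_le_mul_of_nonneg_right h1 (by positivity)
  refine h3.trans ?_
  have h4 : 2.89 * 288 * (n * ℓ) * (1 / x ^ 16) ≤ (ρ / 2) ^ 2 := by
    rw [hρ, mul_one_div, div_le_iff₀ (by positivity)]
    have e1 : (1 / (100 * n) / 2) ^ 2 * x ^ 16 = x ^ 16 / (40000 * n ^ 2) := by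
      field_simp; norm_num
    rw [e1, le_div_iff₀ (by positivity)]
    have h5 : n ^ 3 * ℓ ≤ x ^ 4 := by
      have h6 : n ^ 3 ≤ x ^ 3 := pow_le_pow_left₀ hn0.le (by linarith only [hxn, hx5]) 3
      calc n ^ 3 * ℓ ≤ x ^ 3 * x := mul_le_mul h6 hℓ1 (by linarith only [hℓ0]) (by positivity)
        _ = x ^ 4 := by ring
    have h6 : 2.89 * 288 * 40000 ≤ x ^ 12 := by linarith only [hx12]
    calc 2.89 * 288 * (n * ℓ) * (40000 * n ^ 2) = 2.89 * 288 * 40000 * (n ^ 3 * ℓ) := by ring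
      _ ≤ x ^ 12 * x ^ 4 := mul_le_mul h6 h5 (by positivity) (by positivity)
      _ = x ^ 16 := by ring
  calc 2.89 * ν ^ 2 * (288 * (n * ℓ) * (1 / x ^ 16)) =
        (2.89 * 288 * (n * ℓ) * (1 / x ^ 16)) * ν ^ 2 := by ring
    _ ≤ (ρ / 2) ^ 2 * ν ^ 2 := mul_le_mul_of_nonneg_right h4 (sq_nonneg ν)

lemma num_d (hn0 : 0 < n) (hν : 0 < ν)
    (hκν : κ ≤ 1.7 * ν) (hxn : 2.7 * n ≤ x) (hx5 : (5.4 : ℝ) ≤ x) (hρ : ρ = 1 / (100 * n)) :
    4 * κ * (1 / x ^ 8) ≤ ρ * ν := by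
  obtain ⟨_, _, hx7, _, _⟩ := num_pows hx5
  have hx0 : 0 < x := by linarith only [hx5]
  have h2 : 4 * κ * (1 / x ^ 8) ≤ 4 * (1.7 * ν) * (1 / x ^ 8) :=
    mul_le_mul_of_nonneg_right (by linarith only [hκν]) (by positivity)
  refine h2.trans ?_
  rw [mul_one_div, div_le_iff₀ (by positivity), hρ]
  have e1 : 1 / (100 * n) * ν * x ^ 8 = ν * (x ^ 8 / (100 * n)) := by field_simp
  rw [e1]
  have h3 : 6.8 ≤ x ^ 8 / (100 * n) := by
    rw [le_div_iff₀ (by positivity)]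
    have h4 : 680 * n ≤ x ^ 7 * x :=
      mul_le_mul (by linarith only [hx7]) (by linarith only [hxn, hx5]) hn0.le (by positivity)
    calc 6.8 * (100 * n) = 680 * n := by ring
      _ ≤ x ^ 7 * x := h4
      _ = x ^ 8 := by ring
  have h5 := mul_le_mul_of_nonneg_left h3 hν.le
  linarith only [h5]

end Num

/-- Reweighting conditions for small failure probability. -/
lemma rwok {n : ℕ} (hn : 2 ≤ n) {κ ν p ρ κ' ν' : ℝ} (hκ : 0 < κ) (hν : 0 < ν)
    (hκν : κ ≤ 1.7 * ν) (hρ : ρ = 1 / (100 * n)) (hp : p ≤ Real.exp (-(1 + Real.log n)) ^ 17)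
    (hκ' : κ * (1 + ρ) ≤ κ') (hν' : ν' ≤ (1 - 2 * ρ) * ν) : RwOK n κ ν p ρ κ' ν' := by
  have hn2 : (2 : ℝ) ≤ n := by exact_mod_cast hn
  have hn0 : (0 : ℝ) < n := by linarith only [hn2]
  have hρ0 : 0 < ρ := by rw [hρ]; positivity
  have he1 : (2.7 : ℝ) ≤ Real.exp 1 := by
    have := Real.exp_one_gt_d9
    linarith only [this]
  set ℓ : ℝ := 1 + Real.log n with hℓ
  set x : ℝ := Real.exp ℓ with hx
  have hxe : x = Real.exp 1 * n := by
    rw [hx, hℓ, Real.exp_add, Real.exp_log hn0]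
  have hxn : 2.7 * n ≤ x := by rw [hxe]; exact mul_le_mul_of_nonneg_right he1 hn0.le
  have hx5 : (5.4 : ℝ) ≤ x := by linarith only [hn2, hxn]
  have hx0 : 0 < x := by linarith only [hn2, hxn]
  have hℓ1 : ℓ ≤ x := by
    have := Real.add_one_le_exp ℓ
    linarith only [this]
  have hℓ0 : 1 ≤ ℓ := by
    have := Real.log_nonneg (show (1 : ℝ) ≤ n by linarith only [hn2])
    linarith only [this]
  have hρ1 : ρ ≤ 1 / 200 := by
    rw [hρ, div_le_div_iff₀ (by positivity) (by norm_num)]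
    linarith only [hn2]
  -- p' = x^{-16}
  set p' : ℝ := 1 / x ^ 16 with hp'
  have hp'0 : 0 < p' := by positivity
  have hpp : p ≤ p' / 2 := by
    have h1 : Real.exp (-ℓ) ^ 17 = 1 / x ^ 17 := by
      rw [Real.exp_neg, ← hx, inv_pow, one_div]
    rw [h1] at hp
    refine hp.trans ?_
    rw [hp', div_div, div_le_div_iff₀ (by positivity) (by positivity)]
    have : x ^ 17 = x ^ 16 * x := by ring
    rw [this, one_mul, one_mul]
    exact mul_le_mul_of_nonneg_left (by linarith only [hn2, hxn]) (by positivity)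
  have hsq : Real.sqrt p' = 1 / x ^ 8 := by
    rw [hp']
    have : 1 / x ^ 16 = (1 / x ^ 8) ^ 2 := by
      rw [div_pow, one_pow, ← pow_mul]
    rw [this, Real.sqrt_sq (by positivity)]
  have hp'ρ : 100000 * p' ≤ ρ := num_a hn0 hxn hx5 hρ
  have h78 : 4 * κ * p' / ν ≤ 6.8 * p' := by
    rw [div_le_iff₀ hν]
    have := mul_le_mul_of_nonneg_right hκν hp'0.le
    linarith only [this]
  refine ⟨hκ, hν, hρ0.le, hκ', Real.sqrt (2 * κ * (18 * ℓ)), ρ / 2, p', Real.sqrt_nonneg _,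
    ?_, ?_, by positivity, ?_, ?_, ?_, ?_, by linarith only [hp'0, hp'ρ], ?_⟩
  · -- tail
    have h1 : Real.sqrt (2 * κ * (18 * ℓ)) ^ 2 / (2 * κ) = 18 * ℓ := by
      rw [Real.sq_sqrt (by (clear * - hκ; positivity))]; (clear * - hκ hℓ0; field_simp)
    rw [h1]
    have h2 : Real.exp (-(18 * ℓ)) = 1 / x ^ 18 := by
      rw [Real.exp_neg, ← one_div, hx, ← Real.exp_nat_mul]
      norm_num
    rw [h2]
    have h3 : (n : ℝ) * (2 * (1 / x ^ 18)) ≤ p' / 2 := by
      rw [hp']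
      have e1 : (n : ℝ) * (2 * (1 / x ^ 18)) = (2 * n) / x ^ 18 := by ring
      have e2 : 1 / x ^ 16 / 2 = (x ^ 2 / 2) / x ^ 18 := by (clear * - hx5; field_simp)
      rw [e1, e2]
      apply div_le_div_of_nonneg_right _ (by positivity)
      nlinarith only [hn2, hxn]
    linarith only [hpp, h3]
  · rw [hsq]; exact num_b hν hκν hx5
  · linarith only [hρ1, hp'0, hp'ρ]
  · rw [Real.sq_sqrt (by (clear * - hκ; positivity))]
    exact num_c hn0 hℓ0 hℓ1 hν hκ hκν hxn hx5 hρ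
  · linarith only [hρ1, hp'0, hp'ρ, h78]
  · -- 1 + η ≤ ...
    have h1 : (1 + ρ) * (1 - 7.8 * p') ≤ (1 + ρ) * (1 - p' - 4 * κ * p' / ν) :=
      mul_le_mul_of_nonneg_left (by linarith only [h78]) (by linarith only [hp'0, hp'ρ])
    refine le_trans ?_ h1
    have h2 : ρ * p' ≤ 1 * p' := mul_le_mul_of_nonneg_right (by linarith only [hρ1, hp'0, hp'ρ]) hp'0.le
    nlinarith only [hp'0, hp'ρ, h2]
  · -- ν'
    refine hν'.trans ?_
    rw [hsq]
    have h1 := num_d (x := x) hn0 hν hκν hxn hx5 hρ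
    have h4 : (1 - ρ) * (ν - ρ * ν) ≤ (1 - ρ) * (ν - 4 * κ * (1 / x ^ 8)) :=
      mul_le_mul_of_nonneg_left (by linarith only [h1]) (by linarith only [hρ1, hp'0, hp'ρ])
    refine le_trans ?_ h4
    have := mul_nonneg (sq_nonneg ρ) hν.le
    nlinarith only [this]

/-! ### The sequences -/

/-- Reweighting rate. -/
noncomputable def rhoN (n : ℕ) : ℝ := 1 / (100 * n)

/-- Sequences. -/
noncomputable def kap (c : ℝ) (n k : ℕ) : ℝ := c / 1.75 * (1 + rhoN n) ^ (2 * k)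
/-- Sequences. -/
noncomputable def kap' (c : ℝ) (n k : ℕ) : ℝ := c / 1.75 * (1 + rhoN n) ^ (2 * k + 1)
/-- Sequences. -/
noncomputable def nuu (c : ℝ) (n k : ℕ) : ℝ := 3 * c / 8 * (1 - 2 * rhoN n) ^ (2 * k)
/-- Sequences. -/
noncomputable def nuu' (c : ℝ) (n k : ℕ) : ℝ := 3 * c / 8 * (1 - 2 * rhoN n) ^ (2 * k + 1)
/-- Sequences. -/
noncomputable def Mk (n k : ℕ) : ℝ := (1 + rhoN n) ^ (2 * k)

section Seq

variable {n : ℕ} (hn : 2 ≤ n)
include hn

lemma rhoN_pos : 0 < rhoN n := by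
  have : (2 : ℝ) ≤ n := by exact_mod_cast hn
  unfold rhoN
  positivity

lemma rhoN_mul : rhoN n * n = 1 / 100 := by
  have : (2 : ℝ) ≤ n := by exact_mod_cast hn
  unfold rhoN
  field_simp

lemma rhoN_le : rhoN n ≤ 1 / 200 := by
  have h : (2 : ℝ) ≤ n := by exact_mod_cast hn
  have h1 := rhoN_mul hn
  have h2 := rhoN_pos hn
  nlinarith only [h, h1]

lemma pow_up {m : ℕ} (hm : m ≤ 2 * n) : (1 + rhoN n) ^ m ≤ 1.0205 := by
  have h2 := rhoN_pos hn
  have h0 : (1 + rhoN n) ^ m ≤ (1 + rhoN n) ^ (2 * n) := pow_le_pow_right₀ (by linarith only [h2]) hm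
  have h1 : (1 + rhoN n) ^ (2 * n) ≤ Real.exp (rhoN n) ^ (2 * n) :=
    pow_le_pow_left₀ (by linarith only [h2]) (by linarith only [Real.add_one_le_exp (rhoN n)]) _
  rw [← Real.exp_nat_mul] at h1
  have h3 : ((2 * n : ℕ) : ℝ) * rhoN n = 1 / 50 := by
    push_cast
    have := rhoN_mul hn
    linarith only [this]
  rw [h3] at h1
  have h4 : Real.exp (1 / 50) ≤ 1.0205 := by
    have h5 := Real.exp_bound' (x := 1 / 50) (by norm_num) (by norm_num) (n := 2) (by norm_num)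
    refine h5.trans ?_
    norm_num [Finset.sum_range_succ, Nat.factorial]
  linarith only [h0, h1, h4]

lemma pow_dn {m : ℕ} (hm : m ≤ 2 * n) : 0.96 ≤ (1 - 2 * rhoN n) ^ m := by
  have h2 := rhoN_pos hn
  have h3 := rhoN_le hn
  have h0 : (1 - 2 * rhoN n) ^ (2 * n) ≤ (1 - 2 * rhoN n) ^ m :=
    pow_le_pow_of_le_one (by linarith only [h3]) (by linarith only [h2]) hm
  have h1 := one_add_mul_le_pow (a := -(2 * rhoN n)) (by linarith only [h2, h3]) (2 * n)
  have h4 : 1 + -(2 * rhoN n) = 1 - 2 * rhoN n := by ring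
  rw [h4] at h1
  have h5 : 1 + ((2 * n : ℕ) : ℝ) * -(2 * rhoN n) = 0.96 := by
    push_cast
    have := rhoN_mul hn
    linarith only [this]
  linarith only [h0, h1, h5]

variable {c : ℝ} (hc : 4 ≤ c)
include hc

lemma kap_ge (k : ℕ) : c ≤ 1.75 * kap c n k := by
  have h2 := rhoN_pos hn
  have h1 : 1 ≤ (1 + rhoN n) ^ (2 * k) := one_le_pow₀ (by linarith only [h2])
  unfold kap
  have e : c / 1.75 = 4 / 7 * c := by
    rw [div_eq_iff (by norm_num)]; ring
  rw [e]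
  have h3 : 4 / 7 * c * 1 ≤ 4 / 7 * c * (1 + rhoN n) ^ (2 * k) :=
    mul_le_mul_of_nonneg_left h1 (by positivity)
  linarith only [h3]

lemma kap_le {k : ℕ} (hk : k ≤ n) : kap c n k ≤ 0.6 * c := by
  have h1 := pow_up hn (m := 2 * k) (by omega)
  unfold kap
  have e : c / 1.75 = 4 / 7 * c := by
    rw [div_eq_iff (by norm_num)]; ring
  rw [e]
  have h3 : 4 / 7 * c * (1 + rhoN n) ^ (2 * k) ≤ 4 / 7 * c * 1.0205 :=
    mul_le_mul_of_nonneg_left h1 (by positivity)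
  linarith only [hc, h3]

lemma kap'_le {k : ℕ} (hk : k < n) : kap' c n k ≤ 0.6 * c := by
  have h1 := pow_up hn (m := 2 * k + 1) (by omega)
  unfold kap'
  have e : c / 1.75 = 4 / 7 * c := by
    rw [div_eq_iff (by norm_num)]; ring
  rw [e]
  have h3 : 4 / 7 * c * (1 + rhoN n) ^ (2 * k + 1) ≤ 4 / 7 * c * 1.0205 :=
    mul_le_mul_of_nonneg_left h1 (by positivity)
  linarith only [hc, h3]

lemma kap_pos (k : ℕ) : 0 < kap c n k := by
  have h2 := rhoN_pos hn
  unfold kap; positivity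

lemma kap'_pos (k : ℕ) : 0 < kap' c n k := by
  have h2 := rhoN_pos hn
  unfold kap'; positivity

lemma nuu_ge {k : ℕ} (hk : k ≤ n) : 0.36 * c ≤ nuu c n k := by
  have h1 := pow_dn hn (m := 2 * k) (by omega)
  unfold nuu
  have h3 : 3 * c / 8 * 0.96 ≤ 3 * c / 8 * (1 - 2 * rhoN n) ^ (2 * k) :=
    mul_le_mul_of_nonneg_left h1 (by positivity)
  linarith only [h3]

lemma nuu'_ge {k : ℕ} (hk : k < n) : 0.36 * c ≤ nuu' c n k := by
  have h1 := pow_dn hn (m := 2 * k + 1) (by omega)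
  unfold nuu'
  have h3 : 3 * c / 8 * 0.96 ≤ 3 * c / 8 * (1 - 2 * rhoN n) ^ (2 * k + 1) :=
    mul_le_mul_of_nonneg_left h1 (by positivity)
  linarith only [h3]

lemma nuu_nonneg (k : ℕ) : 0 ≤ nuu c n k := by
  have h3 := rhoN_le hn
  have : 0 ≤ 1 - 2 * rhoN n := by linarith only [h3]
  unfold nuu; positivity

lemma nuu'_nonneg (k : ℕ) : 0 ≤ nuu' c n k := by
  have h3 := rhoN_le hn
  have : 0 ≤ 1 - 2 * rhoN n := by linarith only [h3]
  unfold nuu'; positivity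

lemma nuu_le (k : ℕ) : 8 * nuu c n k ≤ 3 * c := by
  have h2 := rhoN_pos hn
  have h3 := rhoN_le hn
  have h1 : (1 - 2 * rhoN n) ^ (2 * k) ≤ 1 := pow_le_one₀ (by linarith only [h3]) (by linarith only [h2])
  unfold nuu
  have h4 : 3 * c / 8 * (1 - 2 * rhoN n) ^ (2 * k) ≤ 3 * c / 8 * 1 :=
    mul_le_mul_of_nonneg_left h1 (by positivity)
  linarith only [h4]

lemma nuu'_le (k : ℕ) : 8 * nuu' c n k ≤ 3 * c := by
  have h2 := rhoN_pos hn
  have h3 := rhoN_le hn
  have h1 : (1 - 2 * rhoN n) ^ (2 * k + 1) ≤ 1 := pow_le_one₀ (by linarith only [h3]) (by linarith only [h2])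
  unfold nuu'
  have h4 : 3 * c / 8 * (1 - 2 * rhoN n) ^ (2 * k + 1) ≤ 3 * c / 8 * 1 :=
    mul_le_mul_of_nonneg_left h1 (by positivity)
  linarith only [h4]

lemma nuu_succ_le (k : ℕ) : nuu c n (k + 1) ≤ nuu' c n k := by
  have h2 := rhoN_pos hn
  have h3 := rhoN_le hn
  unfold nuu nuu'
  apply mul_le_mul_of_nonneg_left _ (by positivity)
  exact pow_le_pow_of_le_one (by linarith only [h3]) (by linarith only [h2]) (by omega)

omit hc in
lemma Mk_ge (k : ℕ) : 1 ≤ Mk n k := by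
  have h2 := rhoN_pos hn
  exact one_le_pow₀ (by linarith only [h2])

omit hc in
lemma Mk_le {k : ℕ} (hk : k ≤ n) : Mk n k ≤ 1.0205 := pow_up hn (by omega)

omit hn hc in
lemma Mk_succ (n k : ℕ) : (1 + rhoN n) ^ 2 * Mk n k ≤ Mk n (k + 1) := by
  unfold Mk
  rw [← pow_add]
  apply le_of_eq
  congr 1
  ring

lemma rw_a {k : ℕ} (hk : k < n) {p : ℝ} (hp : p ≤ Real.exp (-(1 + Real.log n)) ^ 20) :
    RwOK n (kap c n k) (nuu c n k) p (rhoN n) (kap' c n k) (nuu' c n k) := by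
  have h1 := kap_le hn hc hk.le
  have h2 := nuu_ge hn hc hk.le
  have hlog : 0 ≤ Real.log n := Real.log_nonneg (by
    have : (2 : ℝ) ≤ n := by exact_mod_cast hn
    linarith only [this])
  have hw : Real.exp (-(1 + Real.log n)) ^ 20 ≤ Real.exp (-(1 + Real.log n)) ^ 17 :=
    pow_le_pow_of_le_one (Real.exp_pos _).le (Real.exp_le_one_iff.2 (by linarith only [hlog])) (by norm_num)
  refine rwok hn (kap_pos hn hc k) (by linarith only [hc, h2]) (by linarith only [hc, h1, h2]) rfl (hp.trans hw) ?_ ?_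
  · apply le_of_eq
    unfold kap kap'
    rw [pow_succ]; ring
  · apply le_of_eq
    unfold nuu nuu'
    rw [pow_succ]; ring

lemma rw_b {k : ℕ} (hk : k < n) {p : ℝ} (hp : p ≤ Real.exp (-(1 + Real.log n)) ^ 20) :
    RwOK n (kap' c n k) (nuu' c n k) p (rhoN n) (kap c n (k + 1)) (nuu c n (k + 1)) := by
  have h1 := kap'_le hn hc hk
  have h2 := nuu'_ge hn hc hk
  have hlog : 0 ≤ Real.log n := Real.log_nonneg (by
    have : (2 : ℝ) ≤ n := by exact_mod_cast hn
    linarith only [this])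
  have hw : Real.exp (-(1 + Real.log n)) ^ 20 ≤ Real.exp (-(1 + Real.log n)) ^ 17 :=
    pow_le_pow_of_le_one (Real.exp_pos _).le (Real.exp_le_one_iff.2 (by linarith only [hlog])) (by norm_num)
  refine rwok hn (kap'_pos hn hc k) (by linarith only [hc, h2]) (by linarith only [hc, h1, h2]) rfl (hp.trans hw) ?_ ?_
  · apply le_of_eq
    unfold kap kap'
    have : 2 * (k + 1) = (2 * k + 1) + 1 := by ring
    rw [this, pow_succ]; ring
  · apply le_of_eq
    unfold nuu nuu'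
    have : 2 * (k + 1) = (2 * k + 1) + 1 := by ring
    rw [this, pow_succ]; ring

end Seq

end Vale.Agent.P262.Sig
end
end

section

section

/-!
Block laws: exit conditions and removal of failures.
-/

open scoped BigOperators InnerProductSpace

namespace Vale.Agent.P262.Sig

open Vale.Agent.P262.SigStr Vale.Agent.P262.SigP2

variable {V : Type} [NormedAddCommGroup V] [InnerProductSpace ℝ V] [FiniteDimensional ℝ V]

/-- Conclusion of the pre-law construction for a block. -/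
def PreC (c : ℝ) (v : ℕ → V) (R L κb ι B κ ν M : ℝ) (m σ σ' : ℕ) (U : Finset ℕ) : Prop :=
  (U.card : ℝ) ≤ m * (3 / 5 * c * Module.finrank ℝ V / ι ^ 2 + 1) ∧
  (∀ k ∈ U, σ ≤ k ∧ k < σ') ∧
  ∀ (T : ℕ), σ' ≤ T → ∀ (x : V) (B0 : ℝ), (∀ r, σ ≤ r → r ≤ T → Vp c v L σ r x ≤ B0) →
    B0 + (3 * L + 1) ≤ B →
    ∃ E : PosFun (V × Lab), Law c v σ σ' x κ ν E ∧
      Supp E {o | (o.2 = Lab.alive → Reach v R σ σ' x o.1 ∧ NT c v L T σ x σ' o.1) ∧
        ∀ k, o.2 = Lab.clip k → k ∈ U} ∧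
      E.ev (ind {o : V × Lab | o.2 = Lab.bad}) ≤ m * qN V L κ ∧
      ∀ k, E.ev (ind {o : V × Lab | o.2 = Lab.clip k}) ≤
        M * Fk c v κb σ k x * Real.exp (-(c / 2))

variable {c : ℝ} {v : ℕ → V}

/-- Relabelling does not change the law. -/
lemma law_relabel (hc : 1 ≤ c) (hv : ∀ k, ‖v k‖ ≤ 1) {s t : ℕ} (hst : s ≤ t) {x : V} {κ ν : ℝ}
    {E : PosFun (V × Lab)} (h : Law c v s t x κ ν E) (g : V × Lab → Lab) :
    Law c v s t x κ ν (bind E (fun o => dirac (o.1, g o))) := by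
  have hU : Supp E Set.univ := fun f hf => by
    have : f = fun _ => 0 := funext fun o => hf o (Set.mem_univ o)
    rw [this]; exact E.ev_zero
  exact Law.bind hc hv hst le_rfl h hU (fun o _ => Law.dirac t o.1 (g o) κ ν)

/-- Block law after removal of the failures. -/
lemma block_fin (hc : 4 ≤ c) (hv : ∀ k, ‖v k‖ ≤ 1) {R L κb κ ν M q1 q2 q3 p ρ κ' ν' ϖ : ℝ}
    {σ σ' T : ℕ} (hσ : σ ≤ σ') (hT : σ' ≤ T) {x : V} {U : Finset ℕ}
    {E : PosFun (V × Lab)} (hE : Law c v σ σ' x κ ν E)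
    (hS : Supp E {o | (o.2 = Lab.alive → Reach v R σ σ' x o.1 ∧ NT c v L T σ x σ' o.1) ∧
        ∀ k, o.2 = Lab.clip k → k ∈ U})
    (hbad : E.ev (ind {o : V × Lab | o.2 = Lab.bad}) ≤ q1)
    (hclip : ∀ k, E.ev (ind {o : V × Lab | o.2 = Lab.clip k}) ≤
        M * Fk c v κb σ k x * Real.exp (-(c / 2)))
    (C : Set ℕ) (U2 : Finset ℕ) (hU2 : ∀ k ∈ U, k ∉ C → k ∈ U2)
    (hq2 : ∑ k ∈ U2, M * Fk c v κb σ k x * Real.exp (-(c / 2)) ≤ q2)
    (U' : Finset ℕ) (hU' : ∀ k ∈ U', σ' ≤ k)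
    (hq3 : ∑ k ∈ U', Fk c v κb σ k x ≤ q3 * (ϖ * Real.exp (c / 2)))
    (hϖ : 0 < ϖ) (hκb : κ ≤ κb) (hL : 0 ≤ L)
    (hR : RwOK (Module.finrank ℝ V) κ ν p ρ κ' ν')
    (hp : q1 + q2 + q3 + (Module.finrank ℝ V : ℝ) * (2 * Real.exp (-(L / (2 * κ)))) ≤ p) :
    ∃ E' : PosFun (V × Lab), Law c v σ σ' x κ' ν' E' ∧
      Supp E' {o | o.2 ≠ Lab.bad ∧
        (o.2 = Lab.alive → Reach v R σ σ' x o.1 ∧ NT c v L T σ x σ' o.1) ∧
        (∀ k, o.2 = Lab.clip k → k ∈ C) ∧
        (∑ k ∈ U', Fk c v κb σ' k o.1 ≤ ϖ * Real.exp (c / 2)) ∧ QT c v L T σ x σ' o.1} ∧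
      ∀ k, E'.ev (ind {o : V × Lab | o.2 = Lab.clip k}) ≤
        (1 + ρ) * (M * Fk c v κb σ k x * Real.exp (-(c / 2))) := by
  classical
  have hc1 : 1 ≤ c := by linarith only [hc]
  set Bad : Set (V × Lab) := {o | o.2 = Lab.bad} with hBad
  set Vi : Set (V × Lab) := {o | ϖ * Real.exp (c / 2) < ∑ k ∈ U', Fk c v κb σ' k o.1} with hVi
  set Qi : Set (V × Lab) := {o | ¬ QT c v L T σ x σ' o.1} with hQi
  set Cl : ℕ → Set (V × Lab) := fun k => {o | o.2 = Lab.clip k} with hCl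
  set G : Set (V × Lab) := {o | o.2 ≠ Lab.bad ∧ (∀ k, o.2 = Lab.clip k → k ∈ C) ∧
    (∑ k ∈ U', Fk c v κb σ' k o.1 ≤ ϖ * Real.exp (c / 2)) ∧ QT c v L T σ x σ' o.1} with hG
  have hGp : E.ev (ind Gᶜ) ≤ p := by
    have h1 : E.ev (ind Gᶜ) ≤ E.ev (fun o => (fun o => (fun o => ind Bad o +
        ∑ k ∈ U2, ind (Cl k) o) o + ind Vi o) o + ind Qi o) := by
      apply hS.le
      rintro o ⟨ho1, ho2⟩
      have n1 := jnn Bad o
      have n2 : 0 ≤ ∑ k ∈ U2, ind (Cl k) o := Finset.sum_nonneg fun k _ => jnn _ _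
      have n3 := jnn Vi o
      have n4 := jnn Qi o
      show ind Gᶜ o ≤ ind Bad o + ∑ k ∈ U2, ind (Cl k) o + ind Vi o + ind Qi o
      by_cases hoG : o ∈ G
      · rw [jout (B := Gᶜ) (fun h => h hoG)]; linarith only [n1, n2, n3, n4]
      · rw [jin (B := Gᶜ) hoG]
        by_cases g1 : o ∈ Bad
        · rw [jin g1]; linarith only [n2, n3, n4]
        by_cases g3 : o ∈ Vi
        · rw [jin g3]; linarith only [n1, n2, n4]
        by_cases g4 : o ∈ Qi
        · rw [jin g4]; linarith only [n1, n2, n3]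
        have g5 : ¬ ∀ k, o.2 = Lab.clip k → k ∈ C := by
          intro g5
          apply hoG
          exact ⟨g1, g5, not_lt.1 g3, not_not.1 g4⟩
        push Not at g5
        obtain ⟨k, hk1, hk2⟩ := g5
        have hkU2 : k ∈ U2 := hU2 k (ho2 k hk1) hk2
        have h2 := Finset.single_le_sum (f := fun k => ind (Cl k) o)
          (fun k _ => jnn (Cl k) o) hkU2
        have h3 : ind (Cl k) o = 1 := jin hk1
        simp only [h3] at h2
        linarith only [n1, n3, n4, h2]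
    refine h1.trans ?_
    rw [E.add', E.add', E.add' (fun o => ind Bad o) (fun o => ∑ k ∈ U2, ind (Cl k) o), E.ev_sum]
    have h2 : ∑ k ∈ U2, E.ev (fun o => ind (Cl k) o) ≤ q2 :=
      (Finset.sum_le_sum fun k _ => hclip k).trans hq2
    have h3 : E.ev (fun o => ind Vi o) ≤ q3 := by
      have e0 : 0 < ϖ * Real.exp (c / 2) := by positivity
      have h4 : ∀ o, (ϖ * Real.exp (c / 2)) * ind Vi o ≤ ∑ k ∈ U', Fk c v κb σ' k o.1 := by
        intro o
        by_cases h : o ∈ Vi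
        · rw [jin h, mul_one]; exact (le_of_lt h)
        · rw [jout h, mul_zero]
          exact Finset.sum_nonneg fun k _ => (Fk_pos _ _ _ _).le
      have h5 := E.ev_mono h4
      rw [E.smul', E.ev_sum] at h5
      have h6 : ∑ k ∈ U', E.ev (fun o => Fk c v κb σ' k o.1) ≤ ∑ k ∈ U', Fk c v κb σ k x :=
        Finset.sum_le_sum fun k hk => hE.Fk_le hc1 hv hσ (hU' k hk) hκb
      have h7 : (ϖ * Real.exp (c / 2)) * E.ev (fun o => ind Vi o) ≤
          (ϖ * Real.exp (c / 2)) * q3 := by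
        calc _ ≤ ∑ k ∈ U', E.ev (fun o => Fk c v κb σ' k o.1) := h5
          _ ≤ _ := h6
          _ ≤ _ := hq3
          _ = _ := by ring
      exact le_of_mul_le_mul_left h7 e0
    have h4 : E.ev (fun o => ind Qi o) ≤
        (Module.finrank ℝ V : ℝ) * (2 * Real.exp (-(L / (2 * κ)))) :=
      quad_test hc1 hv hσ hT hE hR.hκ hL
    have h5 : E.ev (fun o => ind Bad o) ≤ q1 := hbad
    linarith only [hp, hbad, h2, h3, h4]
  obtain ⟨E', h1, h2, h3⟩ := hE.rw' hc1 hv hR hS hGp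
  refine ⟨E', h1, h2.mono ?_, ?_⟩
  · rintro o ⟨⟨ho1, ho2⟩, ho3, ho4, ho5, ho6⟩
    exact ⟨ho3, ho1, ho4, ho5, ho6⟩
  · intro k
    refine (h3 _ (fun o => jnn _ o)).trans ?_
    have : 0 ≤ 1 + ρ := by have := hR.hρ; linarith only [this]
    exact mul_le_mul_of_nonneg_left (hclip k) this

/-- Ville functional. -/
noncomputable def vil (c : ℝ) (v : ℕ → V) (L κ' V2 : ℝ) (T a : ℕ) (o : V × Lab) : ℝ :=
  match o.2 with
  | Lab.alive => Real.exp (Vp c v L a T o.1 / (2 * κ'))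
  | Lab.bad => Real.exp (V2 / (2 * κ'))
  | Lab.clip _ => 0

lemma vil_alive (L κ' V2 : ℝ) (T a : ℕ) (y : V) :
    vil c v L κ' V2 T a (y, Lab.alive) = Real.exp (Vp c v L a T y / (2 * κ')) := rfl

lemma vil_bad (L κ' V2 : ℝ) (T a : ℕ) (y : V) :
    vil c v L κ' V2 T a (y, Lab.bad) = Real.exp (V2 / (2 * κ')) := rfl

lemma vil_clip (L κ' V2 : ℝ) (T a : ℕ) (y : V) (k : ℕ) :
    vil c v L κ' V2 T a (y, Lab.clip k) = 0 := rfl

lemma vil_nonneg (L κ' V2 : ℝ) (T a : ℕ) (o : V × Lab) : 0 ≤ vil c v L κ' V2 T a o := by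
  obtain ⟨y, l⟩ := o
  cases l with
  | alive => rw [vil_alive]; positivity
  | bad => rw [vil_bad]; positivity
  | clip k => rw [vil_clip]

/-- Relabel the outcomes whose potential at the final time exceeded `V2`. -/
noncomputable def relab (c : ℝ) (v : ℕ → V) (L V2 : ℝ) (T a : ℕ) (o : V × Lab) : Lab := by
  classical
  exact if o.2 = Lab.alive ∧ V2 < Vp c v L a T o.1 then Lab.bad else o.2

lemma relab_alive {L V2 : ℝ} {T a : ℕ} {o : V × Lab} (h : relab c v L V2 T a o = Lab.alive) :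
    o.2 = Lab.alive ∧ Vp c v L a T o.1 ≤ V2 := by
  classical
  unfold relab at h
  split_ifs at h with h1
  refine ⟨h, ?_⟩
  by_contra h2
  exact h1 ⟨h, not_le.1 h2⟩

lemma relab_clip {L V2 : ℝ} {T a : ℕ} {o : V × Lab} {k : ℕ} :
    relab c v L V2 T a o = Lab.clip k ↔ o.2 = Lab.clip k := by
  classical
  unfold relab
  split_ifs with h1
  · constructor
    · intro h; cases h
    · intro h; rw [h1.1] at h; cases h
  · rfl

/-- The Ville functional after one block. -/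
lemma vil_block {L κ' ν' V2 : ℝ} (hκ' : 0 < κ')
    {σ σ' T : ℕ} (hσ : σ ≤ σ') (hT : σ' ≤ T) {x : V} {E : PosFun (V × Lab)}
    (hE : Law c v σ σ' x κ' ν' E)
    (hS : Supp E {o | o.2 ≠ Lab.bad ∧ QT c v L T σ x σ' o.1}) :
    (bind E (fun o => dirac (o.1, relab c v L V2 T σ' o))).ev (vil c v L κ' V2 T σ') ≤
      Real.exp (Vp c v L σ T x / (2 * κ')) := by
  classical
  rw [bind_ev]
  set u := uM (Aw c v σ' T) (Aw c v σ σ' x) with hu
  set δ := DS c v σ σ' u with hδ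
  have h1 : E.ev (fun o => (dirac (o.1, relab c v L V2 T σ' o)).ev (vil c v L κ' V2 T σ')) ≤
      E.ev (fun o => Real.exp ((Vp c v L σ T x - δ) / (2 * κ')) *
        Real.exp ⟪(1 / κ') • u, o.1 - Aw c v σ σ' x⟫_ℝ) := by
    apply hS.le
    rintro o ⟨ho1, ho2⟩
    rw [dirac_ev]
    have h2 := Vp_det c v L hσ hT x (o.1 - Aw c v σ σ' x)
    have eX : Aw c v σ σ' x + (o.1 - Aw c v σ σ' x) = o.1 := by abel
    rw [eX, ← hu, ← hδ] at h2
    unfold QT at ho2
    have h3 : Vp c v L σ' T o.1 ≤ Vp c v L σ T x - δ + 2 * ⟪u, o.1 - Aw c v σ σ' x⟫_ℝ := by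
      (clear κ' ν' V2 hκ' hσ hT E hE hS hu hδ ho1 eX; linarith only [ho2, h2])
    have h4 : Real.exp (Vp c v L σ' T o.1 / (2 * κ')) ≤
        Real.exp ((Vp c v L σ T x - δ) / (2 * κ')) *
        Real.exp ⟪(1 / κ') • u, o.1 - Aw c v σ σ' x⟫_ℝ := by
      rw [← Real.exp_add, real_inner_smul_left]
      apply Real.exp_le_exp.2
      have e : (Vp c v L σ T x - δ) / (2 * κ') + 1 / κ' * ⟪u, o.1 - Aw c v σ σ' x⟫_ℝ =
          (Vp c v L σ T x - δ + 2 * ⟪u, o.1 - Aw c v σ σ' x⟫_ℝ) / (2 * κ') := by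
        field_simp
      rw [e]
      exact div_le_div_of_nonneg_right h3 (by positivity)
    refine le_trans ?_ h4
    have h5 : vil c v L κ' V2 T σ' (o.1, relab c v L V2 T σ' o) ≤
        Real.exp (Vp c v L σ' T o.1 / (2 * κ')) := by
      unfold relab
      split_ifs with h6
      · rw [vil_bad]
        apply Real.exp_le_exp.2
        exact div_le_div_of_nonneg_right h6.2.le (by positivity)
      · obtain ⟨y, l⟩ := o
        cases l with
        | alive => exact le_rfl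
        | bad => exact absurd rfl ho1
        | clip k => rw [vil_clip]; positivity
    exact h5
  refine h1.trans ?_
  rw [E.smul']
  have h2 := hE.exp ((1 / κ') • u)
  rw [DS_smul, ← hδ] at h2
  have e : κ' * ((1 / κ') ^ 2 * δ) / 2 = δ / (2 * κ') := by field_simp
  rw [e] at h2
  calc _ ≤ Real.exp ((Vp c v L σ T x - δ) / (2 * κ')) * Real.exp (δ / (2 * κ')) :=
        mul_le_mul_of_nonneg_left h2 (Real.exp_pos _).le
    _ = _ := by
        rw [← Real.exp_add]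
        congr 1
        field_simp
        ring

end Vale.Agent.P262.Sig
end
end

section

section

/-!
Chains of blocks.
-/

open scoped BigOperators InnerProductSpace

namespace Vale.Agent.P262.Sig

open Vale.Agent.P262.SigStr Vale.Agent.P262.SigP2

variable {V : Type} [NormedAddCommGroup V] [InnerProductSpace ℝ V] [FiniteDimensional ℝ V]

/-- Bound for the number of relevant steps of a block. -/
noncomputable def UmB (d G : ℕ) (c ι : ℝ) : ℝ := G * (3 / 5 * c * d / ι ^ 2 + 1)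

/-- Parameters of one level. `B, κ, ν, M` belong to the inner level, `Bn` to the outer level,
`κ', ν'` to the block laws. -/
structure LP (d G : ℕ) (c R L κb ι β B κ ν M ϖ p ρ κ' ν' Bn L2 : ℝ) : Prop where
  hc : 4 ≤ c
  hL : 1 ≤ L
  hR : 0 ≤ R
  hκ : c ≤ 1.75 * κ
  hκb : κ' ≤ κb
  hν0 : 0 ≤ ν'
  hν : 8 * ν' ≤ 3 * c
  hM : 1 ≤ M
  hϖ : 0 < ϖ
  hβ : 0 ≤ β
  hι : 0 < ι
  hιR : ι * R ≤ 1
  hβR : 3 / 5 * c * β * R ^ 2 ≤ 1
  hBR : 2 * B ≤ R ^ 2
  hL2 : 0 ≤ L2
  hB : Bn + L2 + β * R ^ 2 + 2 * (3 * L + 1) ≤ B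
  hp : G * (((d : ℝ) + 1) ^ 2 * (2 * Real.exp (-(L / (2 * κ))))) + M * ϖ +
    UmB d G c ι * (M * (4 * Real.exp (κb / 2)) * Real.exp (-(c / 2))) +
    UmB d G c ι * (4 * Real.exp (κb / 2)) / (ϖ * Real.exp (c / 2)) +
    d * (2 * Real.exp (-(L / (2 * κ)))) ≤ p
  rw : RwOK d κ ν p ρ κ' ν'

variable {c : ℝ} {v : ℕ → V}

lemma LP.kk {d G : ℕ} {c R L κb ι β B κ ν M ϖ p ρ κ' ν' Bn L2 : ℝ}
    (P : LP d G c R L κb ι β B κ ν M ϖ p ρ κ' ν' Bn L2) : κ ≤ κ' := by
  have h1 := P.rw.hκ'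
  have h2 := P.rw.hκ
  have h3 := P.rw.hρ
  nlinarith only [h1, h2, h3]

/-- The position is bounded when the potential is. -/
lemma norm_le_of_Vp {R L B : ℝ} (hR : 0 ≤ R) (hBR : 2 * B ≤ R ^ 2) {s : ℕ} {x : V}
    (h : Vp c v L s s x ≤ B) : ‖x‖ ≤ R := by
  rw [Vp_self] at h
  have : ‖x‖ ^ 2 ≤ R ^ 2 := by linarith only [hBR, h]
  exact (sq_le_sq₀ (norm_nonneg _) hR).1 this

section Blocks

variable (hv : ∀ k, ‖v k‖ ≤ 1) {G : ℕ} {R L κb ι β B κ ν M ϖ p ρ κ' ν' Bn L2 : ℝ}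
  (P : LP (Module.finrank ℝ V) G c R L κb ι β B κ ν M ϖ p ρ κ' ν' Bn L2)
include hv P

/-- Clip potentials of irrelevant steps are small. -/
lemma Fk_irr {σ k : ℕ} {x : V} (hx : ‖x‖ ≤ R) (hk : ‖Bw c v σ k (v k)‖ * R ≤ 1) :
    Fk c v κb σ k x ≤ 4 * Real.exp (κb / 2) := by
  have hκb : 0 ≤ κb := by
    have h1 := P.rw.hκ; have h2 := P.kk; have h3 := P.hκb; linarith only [h1, h2, h3]
  apply Fk_small hκb
  have h1 := abs_real_inner_le_norm (Bw c v σ k (v k)) x
  have h2 : ‖Bw c v σ k (v k)‖ * ‖x‖ ≤ ‖Bw c v σ k (v k)‖ * R :=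
    mul_le_mul_of_nonneg_left hx (norm_nonneg _)
  linarith

/-- Separation makes the clip potentials small. -/
lemma Fk_sep {T σ σ' k : ℕ} (hσ : σ ≤ σ') (hS : Sep c v β T σ σ') {x : V} (hx : ‖x‖ ≤ R)
    (hk1 : σ' ≤ k) (hk2 : k < T) : Fk c v κb σ k x ≤ 4 * Real.exp (κb / 2) := by
  apply Fk_irr hv P hx
  have h1 := rel_of_sep P.hc hv P.hβ hσ hS hk1 hk2
  have h2 : (‖Bw c v σ k (v k)‖ * R) ^ 2 ≤ 1 := by
    rw [mul_pow]
    have := mul_le_mul_of_nonneg_right h1 (sq_nonneg R)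
    exact this.trans P.hβR
  have h3 : 0 ≤ ‖Bw c v σ k (v k)‖ * R := mul_nonneg (norm_nonneg _) P.hR
  (clear x hx h3; nlinarith only [h2])

/-- Law of one block: entry at `x`, the clips in `C` are allowed. -/
lemma block_law {σ σ' T : ℕ} (hσ : σ ≤ σ') (hT : σ' ≤ T) {U : Finset ℕ}
    (hU : PreC c v R L κb ι B κ ν M G σ σ' U) {x : V}
    (hx : ∀ r, σ ≤ r → r ≤ T → Vp c v L σ r x ≤ Bn + L2 + β * R ^ 2 + (3 * L + 1))
    (hxR : ‖x‖ ≤ R) (C : Set ℕ)
    (hC : (∀ k ∈ U, k ∉ C → ‖Bw c v σ k (v k)‖ * R ≤ 1) ∨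
      ∑ k ∈ U, Fk c v κb σ k x ≤ ϖ * Real.exp (c / 2))
    {U' : Finset ℕ} (hU'1 : (U'.card : ℝ) ≤ UmB (Module.finrank ℝ V) G c ι)
    (hU'2 : ∀ k ∈ U', σ' ≤ k ∧ k < T) (hS : U' = ∅ ∨ Sep c v β T σ σ') :
    ∃ E' : PosFun (V × Lab), Law c v σ σ' x κ' ν' E' ∧
      Supp E' {o | o.2 ≠ Lab.bad ∧
        (o.2 = Lab.alive → Reach v R σ σ' x o.1 ∧ NT c v L T σ x σ' o.1) ∧
        (∀ k, o.2 = Lab.clip k → k ∈ C) ∧
        (∑ k ∈ U', Fk c v κb σ' k o.1 ≤ ϖ * Real.exp (c / 2)) ∧ QT c v L T σ x σ' o.1} ∧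
      ∀ k, E'.ev (ind {o : V × Lab | o.2 = Lab.clip k}) ≤
        (1 + ρ) * (M * Fk c v κb σ k x * Real.exp (-(c / 2))) := by
  classical
  obtain ⟨hU1, hU2, hU3⟩ := hU
  have hL0 : 0 ≤ L := by have := P.hL; linarith only [this]
  obtain ⟨E, hE, hES, hbad, hclip⟩ := hU3 T hT x _ hx (by have := P.hB; linarith only [this])
  have hM0 : 0 ≤ M := by have := P.hM; linarith only [this]
  set U2 : Finset ℕ := U.filter (fun k => k ∉ C) with hU2def
  have hϖ := P.hϖ
  have e0 : 0 < ϖ * Real.exp (c / 2) := by positivity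
  have he : Real.exp (-(c / 2)) * Real.exp (c / 2) = 1 := by
    rw [← Real.exp_add]; simp
  have hUmB0 : 0 ≤ UmB (Module.finrank ℝ V) G c ι := le_trans (Nat.cast_nonneg _) hU'1
  -- clip failures
  have hq2 : ∑ k ∈ U2, M * Fk c v κb σ k x * Real.exp (-(c / 2)) ≤ M * ϖ +
      UmB (Module.finrank ℝ V) G c ι * (M * (4 * Real.exp (κb / 2)) * Real.exp (-(c / 2))) := by
    rcases hC with hC | hC
    · have h1 : ∀ k ∈ U2, M * Fk c v κb σ k x * Real.exp (-(c / 2)) ≤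
          M * (4 * Real.exp (κb / 2)) * Real.exp (-(c / 2)) := by
        intro k hk
        obtain ⟨hk1, hk2⟩ := Finset.mem_filter.1 hk
        have := Fk_irr hv P hxR (hC k hk1 hk2)
        exact mul_le_mul_of_nonneg_right (mul_le_mul_of_nonneg_left this hM0)
          (Real.exp_pos _).le
      refine (Finset.sum_le_sum h1).trans ?_
      rw [Finset.sum_const, nsmul_eq_mul]
      have h2 : (U2.card : ℝ) ≤ UmB (Module.finrank ℝ V) G c ι := by
        have : U2.card ≤ U.card := Finset.card_filter_le _ _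
        have h3 : (U2.card : ℝ) ≤ U.card := by exact_mod_cast this
        exact h3.trans hU1
      have h3 : 0 ≤ M * (4 * Real.exp (κb / 2)) * Real.exp (-(c / 2)) := by (clear * - hM0; positivity)
      have h4 := mul_le_mul_of_nonneg_right h2 h3
      have h5 : 0 ≤ M * ϖ := by (clear * - hM0 hϖ; positivity)
      linarith only [h4, h5]
    · have h1 : ∑ k ∈ U2, M * Fk c v κb σ k x * Real.exp (-(c / 2)) ≤
          ∑ k ∈ U, M * Fk c v κb σ k x * Real.exp (-(c / 2)) := by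
        apply Finset.sum_le_sum_of_subset_of_nonneg (Finset.filter_subset _ _)
        intro k _ _
        have := Fk_pos (c := c) (v := v) κb σ k x
        (clear hv σ' T hσ hT hx hxR U' hU'1 hU'2 hS hU1 hU2 hU3 hL0 E hE hES hbad hclip U2 hU2def hϖ e0 he hUmB0 hC; positivity)
      have h2 : ∑ k ∈ U, M * Fk c v κb σ k x * Real.exp (-(c / 2)) =
          (M * Real.exp (-(c / 2))) * ∑ k ∈ U, Fk c v κb σ k x := by
        rw [Finset.mul_sum]
        exact Finset.sum_congr rfl fun k _ => by ring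
      have h3 : (M * Real.exp (-(c / 2))) * ∑ k ∈ U, Fk c v κb σ k x ≤
          (M * Real.exp (-(c / 2))) * (ϖ * Real.exp (c / 2)) :=
        mul_le_mul_of_nonneg_left hC (by (clear * - hM0; positivity))
      have h4 : (M * Real.exp (-(c / 2))) * (ϖ * Real.exp (c / 2)) = M * ϖ := by
        calc _ = M * ϖ * (Real.exp (-(c / 2)) * Real.exp (c / 2)) := by ring
          _ = M * ϖ := by rw [he, mul_one]
      have h5 : 0 ≤ UmB (Module.finrank ℝ V) G c ι *
          (M * (4 * Real.exp (κb / 2)) * Real.exp (-(c / 2))) := by (clear * - hUmB0 hM0; positivity)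
      linarith only [h1, h2, h3, h4, h5]
  -- viability of the exit
  have hq3 : ∑ k ∈ U', Fk c v κb σ k x ≤
      (UmB (Module.finrank ℝ V) G c ι * (4 * Real.exp (κb / 2)) / (ϖ * Real.exp (c / 2))) *
        (ϖ * Real.exp (c / 2)) := by
    rw [div_mul_cancel₀ _ e0.ne']
    rcases hS with hS | hS
    · rw [hS, Finset.sum_empty]; (clear * - hUmB0; positivity)
    · have h1 : ∀ k ∈ U', Fk c v κb σ k x ≤ 4 * Real.exp (κb / 2) := fun k hk =>
        Fk_sep hv P hσ hS hxR (hU'2 k hk).1 (hU'2 k hk).2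
      refine (Finset.sum_le_sum h1).trans ?_
      rw [Finset.sum_const, nsmul_eq_mul]
      exact mul_le_mul_of_nonneg_right hU'1 (by positivity)
  have hκκb : κ ≤ κb := P.kk.trans P.hκb
  obtain ⟨E', h1, h2, h3⟩ := block_fin (q1 := G * qN V L κ) P.hc hv hσ hT hE hES hbad hclip C U2
    (fun k hk hkC => Finset.mem_filter.2 ⟨hk, hkC⟩) hq2 U' (fun k hk => (hU'2 k hk).1) hq3 hϖ
    hκκb hL0 P.rw (by
      have := P.hp
      unfold qN
      linarith only [this])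
  exact ⟨E', h1, h2, h3⟩

end Blocks

end Vale.Agent.P262.Sig
end
end

section

section

/-!
Chains of blocks: the law of a whole interval.
-/

open scoped BigOperators InnerProductSpace

namespace Vale.Agent.P262.Sig

open Vale.Agent.P262.SigStr Vale.Agent.P262.SigP2

variable {V : Type} [NormedAddCommGroup V] [InnerProductSpace ℝ V] [FiniteDimensional ℝ V]
variable {c : ℝ} {v : ℕ → V}

lemma Reach.tr1 {R : ℝ} {s r t : ℕ} (hsr : s ≤ r) (hrt : r ≤ t) {x y z : V}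
    (h1 : Reach v R s r x y) (h2 : Reach v R r t y z) : Reach v R s t x z := by
  obtain ⟨p, p1, p2, p3, p4⟩ := h1
  obtain ⟨q, q1, q2, q3, q4⟩ := h2
  refine ⟨fun k => if k ≤ r then p k else q k, ?_, ?_, ?_, ?_⟩
  · simp only [hsr, if_true]; exact p1
  · show (if t ≤ r then p t else q t) = z
    split_ifs with h
    · have : t = r := le_antisymm h hrt
      subst this
      rw [p2, ← q1, q2]
    · exact q2
  · intro k hk1 hk2
    show ‖if k ≤ r then p k else q k‖ ≤ R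
    split_ifs with h
    · exact p3 k hk1 h
    · exact q3 k (by omega) hk2
  · intro k hk1 hk2
    show (if k + 1 ≤ r then p (k + 1) else q (k + 1)) = (if k ≤ r then p k else q k) + v k ∨
      (if k + 1 ≤ r then p (k + 1) else q (k + 1)) = (if k ≤ r then p k else q k) - v k
    by_cases h : k + 1 ≤ r
    · have h' : k ≤ r := by omega
      simp only [h, h', if_true]
      exact p4 k hk1 (by omega)
    · by_cases h' : k ≤ r
      · have : k = r := by omega
        subst this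
        simp only [h, h', if_true, if_false]
        rw [p2, ← q1]
        exact q4 k le_rfl hk2
      · simp only [h, h', if_false]
        exact q4 k (by omega) hk2

lemma Reach.rf1 {R : ℝ} {s : ℕ} {x : V} (h : ‖x‖ ≤ R) : Reach v R s s x x := by
  refine ⟨fun _ => x, rfl, rfl, fun _ _ _ => h, fun k h1 h2 => absurd h2 (by omega)⟩

lemma Reach.nr1 {R : ℝ} {s t : ℕ} (hst : s ≤ t) {x y : V} (h : Reach v R s t x y) :
    ‖y‖ ≤ R := by
  obtain ⟨p, p1, p2, p3, p4⟩ := h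
  rw [← p2]; exact p3 t hst le_rfl

/-- Entry conditions of a block at time `a`. -/
def Ent (c : ℝ) (v : ℕ → V) (L κb VP V2 ϖ : ℝ) (T a : ℕ) (U : Finset ℕ) (y : V) : Prop :=
  (∀ r, a ≤ r → r ≤ T → Vp c v L a r y ≤ VP) ∧ Vp c v L a T y ≤ V2 ∧
    ∑ k ∈ U, Fk c v κb a k y ≤ ϖ * Real.exp (c / 2)

section Chain

variable (hv : ∀ k, ‖v k‖ ≤ 1) {G : ℕ} {R L κb ι β B κ ν M ϖ p ρ κ' ν' Bn L2 : ℝ}
  (P : LP (Module.finrank ℝ V) G c R L κb ι β B κ ν M ϖ p ρ κ' ν' Bn L2)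
include hv P

/-- One block together with the relabelling at its end. The exit satisfies the entry conditions
of the next block. -/
lemma block_cons {σ σ' T : ℕ} (hσ : σ ≤ σ') (hT : σ' ≤ T) {U : Finset ℕ}
    (hU : PreC c v R L κb ι B κ ν M G σ σ' U) {x : V}
    (hx : ∀ r, σ ≤ r → r ≤ T → Vp c v L σ r x ≤ Bn + L2 + β * R ^ 2 + (3 * L + 1))
    (hxe : ∀ r, σ' ≤ r → r ≤ T → Vp c v L σ r x ≤ Bn + L2 + β * R ^ 2)
    (hxR : ‖x‖ ≤ R) (C : Set ℕ)
    (hC : (∀ k ∈ U, k ∉ C → ‖Bw c v σ k (v k)‖ * R ≤ 1) ∨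
      ∑ k ∈ U, Fk c v κb σ k x ≤ ϖ * Real.exp (c / 2))
    {U' : Finset ℕ} (hU'1 : (U'.card : ℝ) ≤ UmB (Module.finrank ℝ V) G c ι)
    (hU'2 : ∀ k ∈ U', σ' ≤ k ∧ k < T) (hS : U' = ∅ ∨ Sep c v β T σ σ') :
    ∃ E' : PosFun (V × Lab), Law c v σ σ' x κ' ν' E' ∧
      Supp E' {o | (o.2 = Lab.alive → Reach v R σ σ' x o.1 ∧
          Ent c v L κb (Bn + L2 + β * R ^ 2 + (3 * L + 1)) (Bn + L2) ϖ T σ' U' o.1) ∧
        (∀ k, o.2 = Lab.clip k → k ∈ C)} ∧
      (∀ k, E'.ev (ind {o : V × Lab | o.2 = Lab.clip k}) ≤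
        (1 + ρ) * (M * Fk c v κb σ k x * Real.exp (-(c / 2)))) ∧
      E'.ev (vil c v L κ' (Bn + L2) T σ') ≤ Real.exp (Vp c v L σ T x / (2 * κ')) := by
  have hc1 : 1 ≤ c := by have := P.hc; linarith only [this]
  have hκ'0 : 0 < κ' := by have h1 := P.rw.hκ; have h2 := P.kk; linarith only [h1, h2]
  obtain ⟨E, hE, hES, hEc⟩ := block_law hv P hσ hT hU hx hxR C hC hU'1 hU'2 hS
  refine ⟨bind E (fun o => dirac (o.1, relab c v L (Bn + L2) T σ' o)),
    law_relabel hc1 hv hσ hE _, ?_, ?_, ?_⟩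
  · apply hES.bind
    rintro o ⟨h1, h2, h3, h4, h5⟩
    apply Supp.dirac
    constructor
    · intro ho
      obtain ⟨ho1, ho2⟩ := relab_alive ho
      obtain ⟨h6, h7⟩ := h2 ho1
      exact ⟨h6, fun r hr1 hr2 => h7 _ hxe r hr1 hr2, ho2, h4⟩
    · intro k hk
      exact h3 k (relab_clip.1 hk)
  · intro k
    rw [bind_ev]
    refine le_trans (E.ev_mono ?_) (hEc k)
    intro o
    rw [dirac_ev]
    by_cases h : o.2 = Lab.clip k
    · rw [jin (B := {o : V × Lab | o.2 = Lab.clip k}) h]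
      exact jle1 _ _
    · rw [jout (B := {o : V × Lab | o.2 = Lab.clip k}) h]
      rw [jout]
      intro h'
      exact h (relab_clip.1 h')
  · apply vil_block hκ'0 hσ hT hE
    refine hES.mono ?_
    rintro o ⟨h1, _, _, _, h5⟩
    exact ⟨h1, h5⟩

/-- Continuation of a chain by later blocks. -/
theorem chainII {Q : ℕ → ℕ → Prop}
    (hQ : ∀ a b, a ≤ b → Q a b → ∃ U : Finset ℕ, PreC c v R L κb ι B κ ν M G a b U) {T : ℕ} :
    ∀ {a : ℕ}, Chn Q (Sep c v β T) T a → a ≤ T ∧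
    ∃ U : Finset ℕ, (U.card : ℝ) ≤ UmB (Module.finrank ℝ V) G c ι ∧ (∀ k ∈ U, a ≤ k ∧ k < T) ∧
    ∀ (s0 : ℕ) (x0 : V) (C : Set ℕ) (Ea : PosFun (V × Lab)), s0 ≤ a →
      Law c v s0 a x0 κ' ν' Ea →
      Supp Ea {o | (o.2 = Lab.alive → Reach v R s0 a x0 o.1 ∧
          Ent c v L κb (Bn + L2 + β * R ^ 2 + (3 * L + 1)) (Bn + L2) ϖ T a U o.1) ∧
        (∀ k, o.2 = Lab.clip k → k ∈ C)} →
      ∃ ET : PosFun (V × Lab), Law c v s0 T x0 κ' ν' ET ∧
        Supp ET {o | (o.2 = Lab.alive → Reach v R s0 T x0 o.1) ∧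
          (∀ k, o.2 = Lab.clip k → k ∈ C)} ∧
        (∀ k, ET.ev (ind {o : V × Lab | o.2 = Lab.clip k}) ≤
          Ea.ev (ind {o : V × Lab | o.2 = Lab.clip k})) ∧
        Real.exp ((Bn + L2) / (2 * κ')) * ET.ev (ind {o : V × Lab | o.2 = Lab.bad}) ≤
          Ea.ev (vil c v L κ' (Bn + L2) T a) := by
  classical
  have hc1 : 1 ≤ c := by have := P.hc; linarith only [this]
  have hκ'0 : 0 < κ' := by have h1 := P.rw.hκ; have h2 := P.kk; linarith
  have hL0 : 0 ≤ L := by have := P.hL; linarith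
  have hcκ' : c ≤ 1.75 * κ' := by have h1 := P.hκ; have h2 := P.kk; linarith only [h1, h2]
  have hUm0 : 0 ≤ UmB (Module.finrank ℝ V) G c ι := by
    unfold UmB
    have := P.hc
    (clear * - hc1; positivity)
  set Z := Real.exp ((Bn + L2) / (2 * κ')) with hZ
  have hZ0 : 0 < Z := Real.exp_pos _
  -- pointwise bound for the bad label
  have hbadvil : ∀ (a : ℕ) (o : V × Lab),
      Z * ind {o : V × Lab | o.2 = Lab.bad} o ≤ vil c v L κ' (Bn + L2) T a o := by
    intro a o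
    obtain ⟨y, l⟩ := o
    by_cases h : l = Lab.bad
    · subst h
      rw [jin (B := {o : V × Lab | o.2 = Lab.bad}) rfl, mul_one, vil_bad]
    · rw [jout (B := {o : V × Lab | o.2 = Lab.bad}) h, mul_zero]
      exact vil_nonneg _ _ _ _ _ _
  intro a hch
  induction hch with
  | done =>
    refine ⟨le_rfl, ∅, by simpa only [Finset.card_empty, CharP.cast_eq_zero] using hUm0, by simp, ?_⟩
    intro s0 x0 C Ea hs0 hE hS
    refine ⟨Ea, hE, hS.mono (fun o ho => ⟨fun h => (ho.1 h).1, ho.2⟩), fun k => le_rfl, ?_⟩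
    rw [← Ea.smul']
    exact Ea.ev_mono (hbadvil T)
  | @last s hs hq =>
    obtain ⟨U, hU⟩ := hQ s T hs hq
    refine ⟨hs, U, hU.1, hU.2.1, ?_⟩
    intro s0 x0 C Ea hs0 hE hS
    -- kernel
    have hK : ∀ o : V × Lab, ∃ K : PosFun (V × Lab), (o ∈ {o : V × Lab |
        (o.2 = Lab.alive → Reach v R s0 s x0 o.1 ∧
          Ent c v L κb (Bn + L2 + β * R ^ 2 + (3 * L + 1)) (Bn + L2) ϖ T s U o.1) ∧
        (∀ k, o.2 = Lab.clip k → k ∈ C)} →
        Law c v s T o.1 κ' ν' K ∧ (o.2 = Lab.alive → Supp K {o' | o'.2 = Lab.alive ∧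
          Reach v R s T o.1 o'.1}) ∧ (o.2 ≠ Lab.alive → Supp K {o' | o'.2 = o.2})) := by
      intro o
      by_cases ho : o.2 = Lab.alive
      · by_cases hoS : o ∈ {o : V × Lab |
          (o.2 = Lab.alive → Reach v R s0 s x0 o.1 ∧
            Ent c v L κb (Bn + L2 + β * R ^ 2 + (3 * L + 1)) (Bn + L2) ϖ T s U o.1) ∧
          (∀ k, o.2 = Lab.clip k → k ∈ C)}
        · obtain ⟨hr, he1, he2, he3⟩ := hoS.1 ho
          obtain ⟨K, hK1, hK2, hK3⟩ := block_law hv P hs le_rfl hU he1 (hr.nr1 hs0) ∅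
            (Or.inr he3) (U' := ∅) (by simpa only [Finset.card_empty, CharP.cast_eq_zero] using hUm0) (by simp) (Or.inl rfl)
          refine ⟨K, fun _ => ⟨hK1, fun _ => hK2.mono ?_, fun h => absurd ho h⟩⟩
          rintro o' ⟨g1, g2, g3, g4, g5⟩
          have g6 : o'.2 = Lab.alive := by
            obtain ⟨y', l'⟩ := o'
            cases l' with
            | alive => rfl
            | bad => exact absurd rfl g1
            | clip k => exact absurd (g3 k rfl) (Set.notMem_empty k)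
          exact ⟨g6, (g2 g6).1⟩
        · exact ⟨dirac o, fun h => absurd h hoS⟩
      · obtain ⟨K, hK1, hK2⟩ := exists_virt P.hc hv hcκ' P.hν0 P.hν hs o.1 o.2
        exact ⟨K, fun _ => ⟨hK1, fun h => absurd h ho, fun _ => hK2⟩⟩
    choose K hK using hK
    refine ⟨bind Ea K, Law.bind hc1 hv hs0 hs hE hS (fun o ho => (hK o ho).1), ?_, ?_, ?_⟩
    · apply hS.bind
      intro o ho
      obtain ⟨_, k2, k3⟩ := hK o ho
      by_cases ha : o.2 = Lab.alive
      · refine (k2 ha).mono ?_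
        rintro o' ⟨g1, g2⟩
        refine ⟨fun _ => (ho.1 ha).1.tr1 hs0 hs g2, fun k hk => ?_⟩
        rw [g1] at hk; cases hk
      · refine (k3 ha).mono ?_
        intro o' g1
        have g1' : o'.2 = o.2 := g1
        refine ⟨fun h => absurd (g1'.symm.trans h) ha, fun k hk => ho.2 k (g1'.symm.trans hk)⟩
    · intro k
      rw [bind_ev]
      apply hS.le
      intro o ho
      obtain ⟨_, k2, k3⟩ := hK o ho
      by_cases ha : o.2 = Lab.alive
      · have h0 : (K o).ev (ind {o : V × Lab | o.2 = Lab.clip k}) = 0 := by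
          apply k2 ha
          rintro o' ⟨g1, _⟩
          apply jout
          intro h
          have h' : o'.2 = Lab.clip k := h
          rw [g1] at h'; cases h'
        rw [h0]; exact jnn _ _
      · have h0 : (K o).ev (ind {o : V × Lab | o.2 = Lab.clip k}) =
            (K o).ev (fun _ => ind {o : V × Lab | o.2 = Lab.clip k} o) := by
          apply (k3 ha).congr
          intro o' g1
          have g1' : o'.2 = o.2 := g1
          by_cases h : o.2 = Lab.clip k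
          · rw [jin (B := {o : V × Lab | o.2 = Lab.clip k}) h,
              jin (B := {o : V × Lab | o.2 = Lab.clip k}) (g1'.trans h)]
          · rw [jout (B := {o : V × Lab | o.2 = Lab.clip k}) h,
              jout (B := {o : V × Lab | o.2 = Lab.clip k})
                (fun h' => h (g1'.symm.trans h'))]
        rw [h0, (K o).ev_const]
    · rw [bind_ev, ← Ea.smul']
      apply hS.le
      intro o ho
      obtain ⟨_, k2, k3⟩ := hK o ho
      by_cases ha : o.2 = Lab.alive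
      · have h0 : (K o).ev (ind {o : V × Lab | o.2 = Lab.bad}) = 0 := by
          apply k2 ha
          rintro o' ⟨g1, _⟩
          apply jout
          intro h
          have h' : o'.2 = Lab.bad := h
          rw [g1] at h'; cases h'
        rw [h0, mul_zero]; exact vil_nonneg _ _ _ _ _ _
      · have h0 : (K o).ev (ind {o : V × Lab | o.2 = Lab.bad}) =
            (K o).ev (fun _ => ind {o : V × Lab | o.2 = Lab.bad} o) := by
          apply (k3 ha).congr
          intro o' g1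
          have g1' : o'.2 = o.2 := g1
          by_cases h : o.2 = Lab.bad
          · rw [jin (B := {o : V × Lab | o.2 = Lab.bad}) h,
              jin (B := {o : V × Lab | o.2 = Lab.bad}) (g1'.trans h)]
          · rw [jout (B := {o : V × Lab | o.2 = Lab.bad}) h,
              jout (B := {o : V × Lab | o.2 = Lab.bad})
                (fun h' => h (g1'.symm.trans h'))]
        rw [h0, (K o).ev_const]
        exact hbadvil s o
  | @cons s r hsr hrT hq hsep hch ih =>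
    obtain ⟨U, hU⟩ := hQ s r hsr hq
    obtain ⟨_, U', hU'1, hU'2, hcont⟩ := ih
    have hsT := hsr.trans hrT
    refine ⟨hsT, U, hU.1, fun k hk => ⟨(hU.2.1 k hk).1, ((hU.2.1 k hk).2).trans_le hrT⟩, ?_⟩
    intro s0 x0 C Ea hs0 hE hS
    set S : Set (V × Lab) := {o : V × Lab |
        (o.2 = Lab.alive → Reach v R s0 s x0 o.1 ∧
          Ent c v L κb (Bn + L2 + β * R ^ 2 + (3 * L + 1)) (Bn + L2) ϖ T s U o.1) ∧
        (∀ k, o.2 = Lab.clip k → k ∈ C)} with hSdef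
    have hK : ∀ o : V × Lab, ∃ K : PosFun (V × Lab), (o ∈ S →
        Law c v s r o.1 κ' ν' K ∧
        (o.2 = Lab.alive → Supp K {o' | (o'.2 = Lab.alive → Reach v R s r o.1 o'.1 ∧
            Ent c v L κb (Bn + L2 + β * R ^ 2 + (3 * L + 1)) (Bn + L2) ϖ T r U' o'.1) ∧
            ∀ k, o'.2 = Lab.clip k → False} ∧
          K.ev (vil c v L κ' (Bn + L2) T r) ≤ vil c v L κ' (Bn + L2) T s o) ∧
        (o.2 ≠ Lab.alive → Supp K {o' | o'.2 = o.2})) := by
      intro o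
      by_cases ho : o.2 = Lab.alive
      · by_cases hoS : o ∈ S
        · obtain ⟨hr, he1, he2, he3⟩ := hoS.1 ho
          have hyR := hr.nr1 hs0
          have hxe : ∀ r', r ≤ r' → r' ≤ T → Vp c v L s r' o.1 ≤ Bn + L2 + β * R ^ 2 := by
            intro r' h1 h2
            have h3 := Vp_sep hc1 hv hL0 P.hβ hsr hsep h1 h2 o.1
            have h4 : β * ‖o.1‖ ^ 2 ≤ β * R ^ 2 :=
              mul_le_mul_of_nonneg_left (pow_le_pow_left₀ (norm_nonneg _) hyR 2) P.hβ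
            linarith only [he2, h3, h4]
          obtain ⟨K, hK1, hK2, hK3, hK4⟩ := block_cons hv P hsr hrT hU he1 hxe hyR ∅
            (Or.inr he3) hU'1 hU'2 (Or.inr hsep)
          refine ⟨K, fun _ => ⟨hK1, fun _ => ⟨hK2.mono ?_, ?_⟩, fun h => absurd ho h⟩⟩
          · rintro o' ⟨g1, g2⟩
            exact ⟨g1, fun k hk => Set.notMem_empty k (g2 k hk)⟩
          · refine hK4.trans (le_of_eq ?_)
            obtain ⟨y, l⟩ := o
            have hl : l = Lab.alive := ho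
            rw [hl, vil_alive]
        · exact ⟨dirac o, fun h => absurd h hoS⟩
      · obtain ⟨K, hK1, hK2⟩ := exists_virt P.hc hv hcκ' P.hν0 P.hν hsr o.1 o.2
        exact ⟨K, fun _ => ⟨hK1, fun h => absurd h ho, fun _ => hK2⟩⟩
    choose K hK using hK
    obtain ⟨ET, e1, e2, e3, e4⟩ := hcont s0 x0 C (bind Ea K) (hs0.trans hsr)
      (Law.bind hc1 hv hs0 hsr hE hS (fun o ho => (hK o ho).1)) (by
        apply hS.bind
        intro o ho
        obtain ⟨_, k2, k3⟩ := hK o ho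
        by_cases ha : o.2 = Lab.alive
        · refine (k2 ha).1.mono ?_
          rintro o' ⟨g1, g2⟩
          exact ⟨fun h => ⟨(ho.1 ha).1.tr1 hs0 hsr (g1 h).1, (g1 h).2⟩,
            fun k hk => absurd hk (g2 k)⟩
        · refine (k3 ha).mono ?_
          intro o' g1
          have g1' : o'.2 = o.2 := g1
          exact ⟨fun h => absurd (g1'.symm.trans h) ha, fun k hk => ho.2 k (g1'.symm.trans hk)⟩)
    refine ⟨ET, e1, e2, fun k => (e3 k).trans ?_, e4.trans ?_⟩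
    · rw [bind_ev]
      apply hS.le
      intro o ho
      obtain ⟨_, k2, k3⟩ := hK o ho
      by_cases ha : o.2 = Lab.alive
      · have h0 : (K o).ev (ind {o : V × Lab | o.2 = Lab.clip k}) = 0 := by
          apply (k2 ha).1
          rintro o' ⟨_, g1⟩
          apply jout
          intro h
          exact g1 k h
        rw [h0]; exact jnn _ _
      · have h0 : (K o).ev (ind {o : V × Lab | o.2 = Lab.clip k}) =
            (K o).ev (fun _ => ind {o : V × Lab | o.2 = Lab.clip k} o) := by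
          apply (k3 ha).congr
          intro o' g1
          have g1' : o'.2 = o.2 := g1
          by_cases h : o.2 = Lab.clip k
          · rw [jin (B := {o : V × Lab | o.2 = Lab.clip k}) h,
              jin (B := {o : V × Lab | o.2 = Lab.clip k}) (g1'.trans h)]
          · rw [jout (B := {o : V × Lab | o.2 = Lab.clip k}) h,
              jout (B := {o : V × Lab | o.2 = Lab.clip k})
                (fun h' => h (g1'.symm.trans h'))]
        rw [h0, (K o).ev_const]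
    · rw [bind_ev]
      apply hS.le
      intro o ho
      obtain ⟨_, k2, k3⟩ := hK o ho
      by_cases ha : o.2 = Lab.alive
      · exact (k2 ha).2
      · have h0 : (K o).ev (vil c v L κ' (Bn + L2) T r) =
            (K o).ev (fun _ => vil c v L κ' (Bn + L2) T s o) := by
          apply (k3 ha).congr
          intro o' g1
          have g1' : o'.2 = o.2 := g1
          obtain ⟨y, l⟩ := o
          obtain ⟨y', l'⟩ := o'
          have g2 : l' = l := g1'
          subst g2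
          cases l' with
          | alive => exact absurd rfl ha
          | bad => rfl
          | clip k => rfl
        rw [h0, (K o).ev_const]

end Chain

end Vale.Agent.P262.Sig
end
end

section

section

/-!
Steps of the construction of the pre-law of a block.
-/

open scoped BigOperators InnerProductSpace

namespace Vale.Agent.P262.Sig

open Vale.Agent.P262.SigStr Vale.Agent.P262.SigP2

variable {V : Type} [NormedAddCommGroup V] [InnerProductSpace ℝ V] [FiniteDimensional ℝ V]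

omit [InnerProductSpace ℝ V] [FiniteDimensional ℝ V] in
lemma Reach.refl {v : ℕ → V} {R : ℝ} (s : ℕ) {x : V} (hx : ‖x‖ ≤ R) : Reach v R s s x x :=
  ⟨fun _ => x, rfl, rfl, fun _ _ _ => hx, fun k h1 h2 => by omega⟩

omit [InnerProductSpace ℝ V] [FiniteDimensional ℝ V] in
lemma Reach.trans {v : ℕ → V} {R : ℝ} {s a t : ℕ} {x y z : V} (h1 : s ≤ a) (h2 : a ≤ t)
    (hxy : Reach v R s a x y) (hyz : Reach v R a t y z) : Reach v R s t x z := by
  obtain ⟨p, p1, p2, p3, p4⟩ := hxy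
  obtain ⟨q, q1, q2, q3, q4⟩ := hyz
  refine ⟨fun k => if k ≤ a then p k else q k, ?_, ?_, ?_, ?_⟩
  · simp [h1, p1]
  · by_cases h : t ≤ a
    · have : t = a := le_antisymm h h2
      subst this
      simp only [le_refl, if_true]
      rw [p2, ← q1, q2]
    · simp only [h, if_false]
      exact q2
  · intro k hk1 hk2
    by_cases h : k ≤ a
    · simp only [h, if_true]
      exact p3 k hk1 h
    · simp only [h, if_false]
      exact q3 k (by omega) hk2
  · intro k hk1 hk2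
    by_cases h : k + 1 ≤ a
    · have h' : k ≤ a := by omega
      simp only [h, h', if_true]
      exact p4 k hk1 (by omega)
    · by_cases h' : k ≤ a
      · have hka : k = a := by omega
        subst hka
        simp only [h, le_refl, if_true, if_false]
        rw [p2, ← q1]
        exact q4 k le_rfl hk2
      · simp only [h, h', if_false]
        exact q4 k (by omega) hk2

omit [InnerProductSpace ℝ V] [FiniteDimensional ℝ V] in
lemma Reach.step {v : ℕ → V} {R : ℝ} {r : ℕ} {y z : V} (hy : ‖y‖ ≤ R) (hz : ‖z‖ ≤ R)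
    (h : z = y + v r ∨ z = y - v r) : Reach v R r (r + 1) y z := by
  refine ⟨fun k => if k ≤ r then y else z, by simp, by simp only [add_le_iff_nonpos_right, nonpos_iff_eq_zero, one_ne_zero, ↓reduceIte], ?_, ?_⟩
  · intro k _ _
    by_cases h' : k ≤ r
    · simp only [h', if_true]; exact hy
    · simp only [h', if_false]; exact hz
  · intro k hk1 hk2
    have : k = r := by omega
    subst this
    simpa only [add_le_iff_nonpos_right, nonpos_iff_eq_zero, one_ne_zero, ↓reduceIte, Std.le_refl] using h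

omit [InnerProductSpace ℝ V] [FiniteDimensional ℝ V] in
lemma Reach.norm_end {v : ℕ → V} {R : ℝ} {s t : ℕ} {x y : V} (hst : s ≤ t)
    (h : Reach v R s t x y) : ‖y‖ ≤ R := by
  obtain ⟨p, _, p2, p3, _⟩ := h
  rw [← p2]
  exact p3 t hst le_rfl

lemma Supp.univ {Ω : Type} (E : PosFun Ω) : Supp E Set.univ := by
  intro f hf
  have : f = fun _ => 0 := by funext ω; exact hf ω (Set.mem_univ ω)
  rw [this, E.ev_zero]

/-- Event of having a given label. -/
def isLab (l : Lab) : Set (V × Lab) := {o | o.2 = l}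

open Classical in
omit [NormedAddCommGroup V] [InnerProductSpace ℝ V] [FiniteDimensional ℝ V] in
lemma ind_isLab_of_supp {E : PosFun (V × Lab)} {l l' : Lab} (h : Supp E {o | o.2 = l}) :
    E.ev (ind (isLab l')) = if l = l' then 1 else 0 := by
  by_cases hl : l = l'
  · rw [if_pos hl, ← E.one']
    apply h.congr
    intro o ho
    have ho' : o.2 = l := ho
    exact ind_of_mem _ (show o.2 = l' by rw [ho', hl])
  · rw [if_neg hl]
    apply h
    intro o ho
    have ho' : o.2 = l := ho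
    exact ind_of_not_mem _ (fun h' => hl (by rw [← ho']; exact h'))

section Steps

variable {c : ℝ} {v : ℕ → V} {R L κb ι B κ ν M : ℝ}

/-- State of the construction at time `a`. -/
structure St (c : ℝ) (v : ℕ → V) (R κb κ ν M : ℝ) (σ a : ℕ) (x : V) (A : V → Prop)
    (U : Finset ℕ) (p : ℝ) (E : PosFun (V × Lab)) : Prop where
  law : Law c v σ a x κ ν E
  supp : Supp E {o | (o.2 = Lab.alive → A o.1) ∧ ∀ k, o.2 = Lab.clip k → k ∈ U}
  bad : E.ev (ind (isLab Lab.bad)) ≤ p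
  clip : ∀ k, E.ev (ind (isLab (Lab.clip k))) ≤ M * Fk c v κb σ k x * Real.exp (-(c / 2))

/-- Relabelling of bad outcomes. -/
lemma St.relabel (hc : 4 ≤ c) (hv : ∀ k, ‖v k‖ ≤ 1) {σ a : ℕ} (hσa : σ ≤ a) {x : V}
    {A A' : V → Prop} {U : Finset ℕ} {p q : ℝ} {E : PosFun (V × Lab)}
    (h : St c v R κb κ ν M σ a x A U p E) (C : V → Prop)
    (hA' : ∀ y, A y → C y → A' y)
    (hq : E.ev (ind {o : V × Lab | ¬ C o.1}) ≤ q) :
    ∃ E', St c v R κb κ ν M σ a x A' U (p + q) E' := by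
  classical
  let φ : V × Lab → Lab := fun o => if o.2 = Lab.alive ∧ ¬ C o.1 then Lab.bad else o.2
  refine ⟨bind E (fun o => dirac (o.1, φ o)), ?_, ?_, ?_, ?_⟩
  · exact h.law.bind (by linarith only [hc]) hv hσa le_rfl (Supp.univ E)
      (fun o _ => Law.dirac a o.1 (φ o) κ ν)
  · apply h.supp.bind
    intro o ho
    apply Supp.dirac
    by_cases hφ : o.2 = Lab.alive ∧ ¬ C o.1
    · have e : φ o = Lab.bad := if_pos hφ
      constructor
      · intro h'
        have h'' : φ o = Lab.alive := h'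
        rw [e] at h''
        exact absurd h'' (by simp)
      · intro k h'
        have h'' : φ o = Lab.clip k := h'
        rw [e] at h''
        exact absurd h'' (by simp)
    · have e : φ o = o.2 := if_neg hφ
      constructor
      · intro h'
        have h'' : φ o = Lab.alive := h'
        rw [e] at h''
        have hC : C o.1 := by
          by_contra hC
          exact hφ ⟨h'', hC⟩
        exact hA' _ (ho.1 h'') hC
      · intro k h'
        have h'' : φ o = Lab.clip k := h'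
        rw [e] at h''
        exact ho.2 k h''
  · rw [bind_ev]
    have h1 : ∀ o : V × Lab, (dirac (o.1, φ o)).ev (ind (isLab (V := V) Lab.bad)) ≤
        ind (isLab Lab.bad) o + ind {o : V × Lab | ¬ C o.1} o := by
      intro o
      rw [dirac_ev]
      by_cases hφ : o.2 = Lab.alive ∧ ¬ C o.1
      · have h2 : ind {o : V × Lab | ¬ C o.1} o = 1 := ind_of_mem _ hφ.2
        rw [h2]
        have h3 := ind_le_one (isLab (V := V) Lab.bad) (o.1, φ o)
        have h4 := ind_nonneg (isLab (V := V) Lab.bad) o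
        linarith only [h3, h4]
      · have e : φ o = o.2 := if_neg hφ
        have h2 : (o.1, φ o) = o := by rw [e]
        rw [h2]
        have h4 := ind_nonneg {o : V × Lab | ¬ C o.1} o
        linarith only [h4]
    refine (E.ev_mono h1).trans ?_
    rw [E.add' (ind (isLab Lab.bad)) (ind {o : V × Lab | ¬ C o.1})]
    exact add_le_add h.bad hq
  · intro k
    rw [bind_ev]
    refine le_trans (E.ev_mono ?_) (h.clip k)
    intro o
    rw [dirac_ev]
    by_cases ho : (o.1, φ o) ∈ isLab (V := V) (Lab.clip k)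
    · have ho' : φ o = Lab.clip k := ho
      by_cases hφ : o.2 = Lab.alive ∧ ¬ C o.1
      · have e : φ o = Lab.bad := if_pos hφ
        rw [e] at ho'
        exact absurd ho' (by simp)
      · have e : φ o = o.2 := if_neg hφ
        rw [e] at ho'
        rw [ind_of_mem _ ho, ind_of_mem (isLab (V := V) (Lab.clip k)) (show o.2 = Lab.clip k from ho')]
    · rw [ind_of_not_mem _ ho]
      exact ind_nonneg _ o

/-- Sub-interval step. -/
lemma St.sub (hc : 4 ≤ c) (hv : ∀ k, ‖v k‖ ≤ 1) (hκ : c ≤ 1.75 * κ) (hκb : κ ≤ κb)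
    (hν0 : 0 ≤ ν) (hν : 8 * ν ≤ 3 * c) (hM : 1 ≤ M) {σ a r : ℕ} (hσa : σ ≤ a) (har : a ≤ r)
    {x : V} {A A' : V → Prop} {U : Finset ℕ} {p : ℝ} {E : PosFun (V × Lab)}
    (h : St c v R κb κ ν M σ a x A U p E) (hU : ∀ k ∈ U, k < a)
    (hP : Pn c v R L κb ι B κ ν M a r)
    (hA : ∀ y, A y → ∀ u, a ≤ u → u ≤ r → Vp c v L a u y ≤ B)
    (hA' : ∀ y z, A y → Reach v R a r y z → A' z) :
    ∃ E', St c v R κb κ ν M σ r x A' (U ∪ rel c v ι a r) p E' := by
  classical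
  have hc1 : 1 ≤ c := by linarith only [hc]
  -- the kernel
  have hker : ∀ o : V × Lab, ∃ K : PosFun (V × Lab), Law c v a r o.1 κ ν K ∧
      ((o.2 = Lab.alive ∧ A o.1) → (Supp K {o' | o'.2 ≠ Lab.bad ∧
        (o'.2 = Lab.alive → Reach v R a r o.1 o'.1) ∧
        ∀ k, o'.2 = Lab.clip k → a ≤ k ∧ k < r ∧ ι ≤ ‖Bw c v a k (v k)‖} ∧
        ∀ k, K.ev (ind {o' : V × Lab | o'.2 = Lab.clip k}) ≤
          M * Fk c v κb a k o.1 * Real.exp (-(c / 2)))) ∧
      (¬ (o.2 = Lab.alive ∧ A o.1) → Supp K {o' | o'.2 = o.2}) := by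
    intro o
    by_cases ho : o.2 = Lab.alive ∧ A o.1
    · obtain ⟨K, k1, k2, k3⟩ := hP o.1 (hA o.1 ho.2)
      exact ⟨K, k1, fun _ => ⟨k2, k3⟩, fun h => absurd ho h⟩
    · obtain ⟨K, k1, k2⟩ := exists_virt hc hv hκ hν0 hν har o.1 o.2
      exact ⟨K, k1, fun h => absurd h ho, fun _ => k2⟩
  choose K hK1 hK2 hK3 using hker
  have hexp0 : 0 < Real.exp (-(c / 2)) := Real.exp_pos _
  refine ⟨bind E K, ?_, ?_, ?_, ?_⟩
  · exact h.law.bind hc1 hv hσa har (Supp.univ E) (fun o _ => hK1 o)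
  · apply h.supp.bind
    intro o ho
    by_cases hal : o.2 = Lab.alive
    · have hAo := ho.1 hal
      refine (hK2 o ⟨hal, hAo⟩).1.mono ?_
      rintro o' ⟨_, h2, h3⟩
      refine ⟨fun h' => hA' _ _ hAo (h2 h'), fun k h' => ?_⟩
      obtain ⟨h4, h5, h6⟩ := h3 k h'
      exact Finset.mem_union_right _ (mem_rel.2 ⟨⟨h4, h5⟩, h6⟩)
    · refine (hK3 o (fun h' => hal h'.1)).mono ?_
      intro o' ho'
      have ho'' : o'.2 = o.2 := ho'
      refine ⟨fun h' => absurd (ho''.symm.trans h') hal, fun k h' => ?_⟩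
      exact Finset.mem_union_left _ (ho.2 k (ho''.symm.trans h'))
  · rw [bind_ev]
    refine le_trans (h.supp.le ?_) h.bad
    intro o ho
    by_cases hal : o.2 = Lab.alive
    · have hAo := ho.1 hal
      have h1 : (K o).ev (ind (isLab Lab.bad)) = 0 := by
        apply (hK2 o ⟨hal, hAo⟩).1
        intro o' ho'
        exact ind_of_not_mem _ ho'.1
      rw [h1]; exact ind_nonneg _ o
    · have h1 := ind_isLab_of_supp (l' := Lab.bad) (hK3 o (fun h' => hal h'.1))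
      rw [h1]
      by_cases hb : o.2 = Lab.bad
      · rw [if_pos hb, ind_of_mem (isLab Lab.bad) hb]
      · rw [if_neg hb]; exact ind_nonneg _ o
  · intro k
    rw [bind_ev]
    by_cases hka : k < a
    · refine le_trans (h.supp.le ?_) (h.clip k)
      intro o ho
      by_cases hal : o.2 = Lab.alive
      · have hAo := ho.1 hal
        have h1 : (K o).ev (ind (isLab (Lab.clip k))) = 0 := by
          apply (hK2 o ⟨hal, hAo⟩).1
          intro o' ho'
          apply ind_of_not_mem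
          intro h'
          have := (ho'.2.2 k h').1
          omega
        rw [h1]; exact ind_nonneg _ o
      · have h1 := ind_isLab_of_supp (l' := Lab.clip k) (hK3 o (fun h' => hal h'.1))
        rw [h1]
        by_cases hb : o.2 = Lab.clip k
        · rw [if_pos hb, ind_of_mem (isLab (Lab.clip k)) hb]
        · rw [if_neg hb]; exact ind_nonneg _ o
    · push Not at hka
      have hF := h.law.Fk_le hc1 hv hσa hka hκb
      have h1 : E.ev (fun o => (K o).ev (ind (isLab (Lab.clip k)))) ≤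
          E.ev (fun o => (M * Real.exp (-(c / 2))) * Fk c v κb a k o.1) := by
        apply h.supp.le
        intro o ho
        by_cases hal : o.2 = Lab.alive
        · have hAo := ho.1 hal
          have h2 := (hK2 o ⟨hal, hAo⟩).2 k
          have h3 : (K o).ev (ind (isLab (Lab.clip k))) ≤
            M * Fk c v κb a k o.1 * Real.exp (-(c / 2)) := h2
          linarith only [h3]
        · have h1 := ind_isLab_of_supp (l' := Lab.clip k) (hK3 o (fun h' => hal h'.1))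
          rw [h1]
          have hb : o.2 ≠ Lab.clip k := fun hb => by
            have := hU k (ho.2 k hb)
            omega
          rw [if_neg hb]
          have := Fk_pos (c := c) (v := v) κb a k o.1
          positivity
      refine h1.trans ?_
      rw [E.smul']
      calc M * Real.exp (-(c / 2)) * E.ev (fun o => Fk c v κb a k o.1)
          ≤ M * Real.exp (-(c / 2)) * Fk c v κb σ k x :=
            mul_le_mul_of_nonneg_left hF (by positivity)
        _ = _ := by ring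

/-- Single step. -/
lemma St.single (hc : 4 ≤ c) (hv : ∀ k, ‖v k‖ ≤ 1) (hκ : c ≤ 1.75 * κ) (hκb : κ ≤ κb)
    (hν0 : 0 ≤ ν) (hν : 8 * ν ≤ 3 * c) (hM : 1 ≤ M) {σ r : ℕ} (hσr : σ ≤ r)
    {x : V} {A A' : V → Prop} {U : Finset ℕ} {p : ℝ} {E : PosFun (V × Lab)}
    (h : St c v R κb κ ν M σ r x A U p E) (hU : ∀ k ∈ U, k < r)
    (hA' : ∀ y z, A y → (z = y + v r ∨ z = y - v r) → A' z) :
    ∃ E', St c v R κb κ ν M σ (r + 1) x A' (insert r U) p E' := by
  classical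
  have hc1 : 1 ≤ c := by linarith only [hc]
  have hκb0 : 0 ≤ κb := by linarith only [hc, hκ, hκb]
  have hker : ∀ o : V × Lab, ∃ K : PosFun (V × Lab), Law c v r (r + 1) o.1 κ ν K ∧
      ((o.2 = Lab.alive ∧ |⟪v r, o.1⟫_ℝ| ≤ c / 2) → Supp K {o' | o'.2 = Lab.alive ∧
        (o'.1 = o.1 + v r ∨ o'.1 = o.1 - v r)}) ∧
      (o.2 = Lab.alive → ¬ |⟪v r, o.1⟫_ℝ| ≤ c / 2 → Supp K {o' | o'.2 = Lab.clip r}) ∧
      (o.2 ≠ Lab.alive → Supp K {o' | o'.2 = o.2}) := by
    intro o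
    by_cases ho : o.2 = Lab.alive
    · by_cases hx : |⟪v r, o.1⟫_ℝ| ≤ c / 2
      · obtain ⟨K, k1, k2⟩ := exists_phys hc hv hκ hν0 hν r o.1 hx
        exact ⟨K, k1, fun _ => k2, fun _ h => absurd hx h, fun h => absurd ho h⟩
      · obtain ⟨K, k1, k2⟩ := exists_virt_step hc hv hκ hν0 hν r o.1 (Lab.clip r)
        exact ⟨K, k1, fun h => absurd h.2 hx, fun _ _ => k2, fun h => absurd ho h⟩
    · obtain ⟨K, k1, k2⟩ := exists_virt_step hc hv hκ hν0 hν r o.1 o.2
      exact ⟨K, k1, fun h => absurd h.1 ho, fun h => absurd h ho, fun _ => k2⟩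
  choose K hK1 hK2 hK3 hK4 using hker
  refine ⟨bind E K, ?_, ?_, ?_, ?_⟩
  · exact h.law.bind hc1 hv hσr (Nat.le_succ r) (Supp.univ E) (fun o _ => hK1 o)
  · apply h.supp.bind
    intro o ho
    by_cases hal : o.2 = Lab.alive
    · by_cases hx : |⟪v r, o.1⟫_ℝ| ≤ c / 2
      · refine (hK2 o ⟨hal, hx⟩).mono ?_
        rintro o' ⟨h1, h2⟩
        refine ⟨fun _ => hA' _ _ (ho.1 hal) h2, fun k h' => ?_⟩
        rw [h1] at h'
        exact absurd h' (by simp)
      · refine (hK3 o hal hx).mono ?_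
        intro o' ho'
        have ho'' : o'.2 = Lab.clip r := ho'
        refine ⟨fun h' => ?_, fun k h' => ?_⟩
        · rw [ho''] at h'
          exact absurd h' (by simp)
        · rw [ho''] at h'
          have : r = k := by simpa using h'
          rw [← this]
          exact Finset.mem_insert_self _ _
    · refine (hK4 o hal).mono ?_
      intro o' ho'
      have ho'' : o'.2 = o.2 := ho'
      refine ⟨fun h' => absurd (ho''.symm.trans h') hal, fun k h' => ?_⟩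
      exact Finset.mem_insert_of_mem (ho.2 k (ho''.symm.trans h'))
  · rw [bind_ev]
    refine le_trans (h.supp.le ?_) h.bad
    intro o ho
    by_cases hal : o.2 = Lab.alive
    · by_cases hx : |⟪v r, o.1⟫_ℝ| ≤ c / 2
      · have h1 : (K o).ev (ind (isLab Lab.bad)) = 0 := by
          apply hK2 o ⟨hal, hx⟩
          intro o' ho'
          apply ind_of_not_mem
          intro h'
          have h'' : o'.2 = Lab.bad := h'
          rw [ho'.1] at h''
          exact absurd h'' (by simp)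
        rw [h1]; exact ind_nonneg _ o
      · have h1 := ind_isLab_of_supp (l' := Lab.bad) (hK3 o hal hx)
        rw [h1, if_neg (by simp)]
        exact ind_nonneg _ o
    · have h1 := ind_isLab_of_supp (l' := Lab.bad) (hK4 o hal)
      rw [h1]
      by_cases hb : o.2 = Lab.bad
      · rw [if_pos hb, ind_of_mem (isLab Lab.bad) hb]
      · rw [if_neg hb]; exact ind_nonneg _ o
  · intro k
    rw [bind_ev]
    by_cases hkr : k = r
    · subst hkr
      have hF := h.law.Fk_le hc1 hv hσr le_rfl hκb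
      have h1 : E.ev (fun o => (K o).ev (ind (isLab (Lab.clip k)))) ≤
          E.ev (fun o => Real.exp (-(c / 2)) * Fk c v κb k k o.1) := by
        apply h.supp.le
        intro o ho
        have hpos := Fk_pos (c := c) (v := v) κb k k o.1
        by_cases hal : o.2 = Lab.alive
        · by_cases hx : |⟪v k, o.1⟫_ℝ| ≤ c / 2
          · have h1 : (K o).ev (ind (isLab (Lab.clip k))) = 0 := by
              apply hK2 o ⟨hal, hx⟩
              intro o' ho'
              apply ind_of_not_mem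
              intro h'
              have h'' : o'.2 = Lab.clip k := h'
              rw [ho'.1] at h''
              exact absurd h'' (by simp)
            rw [h1]; positivity
          · have h1 := ind_isLab_of_supp (l' := Lab.clip k) (hK3 o hal hx)
            rw [h1, if_pos rfl]
            have h2 := Fk_clip (c := c) hv hκb0 k o.1 (not_le.1 hx)
            have h3 : Real.exp (-(c / 2)) * Real.exp (c / 2) = 1 := by
              rw [← Real.exp_add]; simp
            have h4 := mul_le_mul_of_nonneg_left h2 (Real.exp_pos (-(c / 2))).le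
            linarith only [h3, h4]
        · have h1 := ind_isLab_of_supp (l' := Lab.clip k) (hK4 o hal)
          rw [h1]
          have hb : o.2 ≠ Lab.clip k := fun hb => by
            have := hU k (ho.2 k hb)
            omega
          rw [if_neg hb]; positivity
      refine h1.trans ?_
      rw [E.smul']
      have hpos := Fk_pos (c := c) (v := v) κb σ k x
      calc Real.exp (-(c / 2)) * E.ev (fun o => Fk c v κb k k o.1)
          ≤ Real.exp (-(c / 2)) * Fk c v κb σ k x :=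
            mul_le_mul_of_nonneg_left hF (Real.exp_pos _).le
        _ = 1 * Fk c v κb σ k x * Real.exp (-(c / 2)) := by ring
        _ ≤ M * Fk c v κb σ k x * Real.exp (-(c / 2)) := by
            apply mul_le_mul_of_nonneg_right _ (Real.exp_pos _).le
            exact mul_le_mul_of_nonneg_right hM hpos.le
    · refine le_trans (h.supp.le ?_) (h.clip k)
      intro o ho
      by_cases hal : o.2 = Lab.alive
      · by_cases hx : |⟪v r, o.1⟫_ℝ| ≤ c / 2
        · have h1 : (K o).ev (ind (isLab (Lab.clip k))) = 0 := by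
            apply hK2 o ⟨hal, hx⟩
            intro o' ho'
            apply ind_of_not_mem
            intro h'
            have h'' : o'.2 = Lab.clip k := h'
            rw [ho'.1] at h''
            exact absurd h'' (by simp)
          rw [h1]; exact ind_nonneg _ o
        · have h1 := ind_isLab_of_supp (l' := Lab.clip k) (hK3 o hal hx)
          have hne : Lab.clip r ≠ Lab.clip k := by
            intro h'
            have : r = k := by simpa using h'
            exact hkr this.symm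
          rw [h1, if_neg hne]
          exact ind_nonneg _ o
      · have h1 := ind_isLab_of_supp (l' := Lab.clip k) (hK4 o hal)
        rw [h1]
        by_cases hb : o.2 = Lab.clip k
        · rw [if_pos hb, ind_of_mem (isLab (Lab.clip k)) hb]
        · rw [if_neg hb]; exact ind_nonneg _ o

end Steps

end Vale.Agent.P262.Sig
end
end

section

section

/-!
The pre-law of a block.
-/

open scoped BigOperators InnerProductSpace

namespace Vale.Agent.P262.Sig

open Vale.Agent.P262.SigStr Vale.Agent.P262.SigP2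

variable {V : Type} [NormedAddCommGroup V] [InnerProductSpace ℝ V] [FiniteDimensional ℝ V]

/-- Admissible alive positions at time `a`. -/
def AliveAt (c : ℝ) (v : ℕ → V) (R L : ℝ) (T σ : ℕ) (x : V) (a : ℕ) (y : V) : Prop :=
  Reach v R σ a x y ∧ NT c v L T σ x a y

lemma NT_self (c : ℝ) (v : ℕ → V) {L : ℝ} (hL : 1 ≤ L) (T σ : ℕ) (x : V) :
    NT c v L T σ x σ x := by
  intro B h r h1 h2
  have := h r h1 h2
  linarith only [hL, this]

section Main

variable {c : ℝ} {v : ℕ → V} {R L κb ι B κ ν M : ℝ}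

lemma norm_of_NT {T σ a : ℕ} {x z : V} {B0 : ℝ} (hσa : σ ≤ a) (haT : a ≤ T)
    (hB0 : ∀ r, σ ≤ r → r ≤ T → Vp c v L σ r x ≤ B0)
    (hB : B0 + (3 * L + 1) ≤ B) (hBR : 2 * B ≤ R ^ 2) (hR : 0 ≤ R)
    (h : NT c v L T σ x a z) : ‖z‖ ≤ R := by
  have h1 := h B0 (fun r h1 h2 => hB0 r (hσa.trans h1) h2) a le_rfl haT
  rw [Vp_self] at h1
  exact abs_le_of_sq_le_sq' (by linarith only [hB, hBR, h1]) hR |>.2

/-- Induction over the items of a block. -/
lemma pre_law_aux (hc : 4 ≤ c) (hv : ∀ k, ‖v k‖ ≤ 1) (hκ : c ≤ 1.75 * κ) (hκb : κ ≤ κb)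
    (hν0 : 0 ≤ ν) (hν : 8 * ν ≤ 3 * c) (hM : 1 ≤ M) (hι : 0 < ι) (hBR : 2 * B ≤ R ^ 2)
    (hR : 0 ≤ R) {P : ℕ → ℕ → Prop}
    (hP : ∀ a b, a ≤ b → P a b → Pn c v R L κb ι B κ ν M a b) {m a b : ℕ}
    (hblk : Blk P m a b) :
    ∃ U : Finset ℕ, (U.card : ℝ) ≤ m * (3 / 5 * c * Module.finrank ℝ V / ι ^ 2 + 1) ∧
      (∀ k ∈ U, a ≤ k ∧ k < b) ∧ a ≤ b ∧
      ∀ (T σ : ℕ), b ≤ T → σ ≤ a → ∀ (x : V) (B0 : ℝ),
        (∀ r, σ ≤ r → r ≤ T → Vp c v L σ r x ≤ B0) → B0 + (3 * L + 1) ≤ B →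
        ∀ q : ℝ, 0 ≤ q → (∀ a, σ ≤ a → a ≤ T → ∀ E, Law c v σ a x κ ν E →
          E.ev (ind {o : V × Lab | ¬ NT c v L T σ x a o.1}) ≤ q) →
        ∀ (U0 : Finset ℕ) (p : ℝ) (E : PosFun (V × Lab)), (∀ k ∈ U0, k < a) →
          St c v R κb κ ν M σ a x (AliveAt c v R L T σ x a) U0 p E →
          ∃ E', St c v R κb κ ν M σ b x (AliveAt c v R L T σ x b) (U0 ∪ U) (p + m * q) E' := by
  classical
  have hc0 : 0 < c := by linarith only [hc]
  set N1 : ℝ := 3 / 5 * c * Module.finrank ℝ V / ι ^ 2 with hN1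
  have hN10 : 0 ≤ N1 := by (clear * - hc hι; positivity)
  induction hblk with
  | nil m s =>
    refine ⟨∅, ?_, ?_, le_rfl, ?_⟩
    · simp only [Finset.card_empty, Nat.cast_zero]
      (clear * - hc hι; positivity)
    · intro k hk; exact absurd hk (Finset.notMem_empty k)
    · intro T σ hT hσ x B0 hB0 hB q hq0 hq U0 p E hU0 hE
      refine ⟨E, ?_⟩
      rw [Finset.union_empty]
      refine ⟨hE.law, hE.supp, ?_, hE.clip⟩
      have : 0 ≤ (m : ℝ) * q := by (clear * - hq0; positivity)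
      linarith only [this, hE.bad]
  | @last m s t hst hPst =>
    refine ⟨rel c v ι s t, ?_, ?_, hst, ?_⟩
    · have h1 := rel_card hc hv hst hι
      push_cast
      have : 0 ≤ (m : ℝ) * (N1 + 1) := by (clear * - hc hι; positivity)
      linarith only [h1, this]
    · intro k hk
      exact (mem_rel.1 hk).1
    · intro T σ hT hσ x B0 hB0 hB q hq0 hq U0 p E hU0 hE
      obtain ⟨E1, h1⟩ := hE.sub (A' := fun z => Reach v R σ t x z) hc hv hκ hκb hν0 hν hM
        hσ hst hU0 (hP s t hst hPst)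
        (by
          rintro y ⟨_, hy2⟩ u hu1 hu2
          have h2 := hy2 B0 (fun r hr1 hr2 => hB0 r (hσ.trans hr1) hr2) u hu1 (hu2.trans hT)
          linarith only [hB, h2])
        (by
          rintro y z ⟨hy1, _⟩ hz
          exact Reach.trans hσ hst hy1 hz)
      obtain ⟨E2, h2⟩ := h1.relabel (A' := AliveAt c v R L T σ x t) hc hv (hσ.trans hst)
        (fun z => NT c v L T σ x t z) (fun z hz1 hz2 => ⟨hz1, hz2⟩)
        (hq t (hσ.trans hst) hT E1 h1.law)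
      refine ⟨E2, h2.law, h2.supp, ?_, h2.clip⟩
      have h3 := h2.bad
      have : 0 ≤ (m : ℝ) * q := by (clear * - hq0; positivity)
      push_cast
      linarith only [h3, this]
  | @cons m s r t hsr hPsr hblk ih =>
    obtain ⟨U, hU1, hU2, hrt, hU3⟩ := ih
    refine ⟨insert r (rel c v ι s r) ∪ U, ?_, ?_, by omega, ?_⟩
    · have h1 := rel_card hc hv hsr hι
      have h2 : ((insert r (rel c v ι s r) ∪ U).card : ℝ) ≤
          ((rel c v ι s r).card : ℝ) + 1 + (U.card : ℝ) := by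
        have h3 := Finset.card_union_le (insert r (rel c v ι s r)) U
        have h4 := Finset.card_insert_le r (rel c v ι s r)
        have h5 : (insert r (rel c v ι s r) ∪ U).card ≤ (rel c v ι s r).card + 1 + U.card := by
          omega
        exact_mod_cast h5
      push_cast
      linarith only [hU1, h1, h2]
    · intro k hk
      rcases Finset.mem_union.1 hk with hk | hk
      · rcases Finset.mem_insert.1 hk with hk | hk
        · subst hk; omega
        · have := (mem_rel.1 hk).1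
          omega
      · have := hU2 k hk
        omega
    · intro T σ hT hσ x B0 hB0 hB q hq0 hq U0 p E hU0 hE
      have hrT : r ≤ T := by omega
      obtain ⟨E1, h1⟩ := hE.sub (A' := fun z => Reach v R σ r x z) hc hv hκ hκb hν0 hν hM
        hσ hsr hU0 (hP s r hsr hPsr)
        (by
          rintro y ⟨_, hy2⟩ u hu1 hu2
          have h2 := hy2 B0 (fun r hr1 hr2 => hB0 r (hσ.trans hr1) hr2) u hu1 (by omega)
          linarith only [hB, h2])
        (by
          rintro y z ⟨hy1, _⟩ hz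
          exact Reach.trans hσ hsr hy1 hz)
      obtain ⟨E2, h2⟩ := h1.single (A' := fun z => ∃ y, Reach v R σ r x y ∧
          (z = y + v r ∨ z = y - v r)) hc hv hκ hκb hν0 hν hM (hσ.trans hsr)
        (by
          intro k hk
          rcases Finset.mem_union.1 hk with hk | hk
          · have := hU0 k hk
            omega
          · exact (mem_rel.1 hk).1.2)
        (fun y z hy hz => ⟨y, hy, hz⟩)
      obtain ⟨E3, h3⟩ := h2.relabel (A' := AliveAt c v R L T σ x (r + 1)) hc hv (by omega)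
        (fun z => NT c v L T σ x (r + 1) z)
        (by
          rintro z ⟨y, hy1, hy2⟩ hz
          have hzR := norm_of_NT (by omega) (by omega) hB0 hB hBR hR hz
          exact ⟨Reach.trans (hσ.trans hsr) (Nat.le_succ r) hy1
            (Reach.step (hy1.norm_end (hσ.trans hsr)) hzR hy2), hz⟩)
        (hq (r + 1) (by omega) (by omega) E2 h2.law)
      obtain ⟨E4, h4⟩ := hU3 T σ hT (by omega) x B0 hB0 hB q hq0 hq
        (insert r (U0 ∪ rel c v ι s r)) (p + q) E3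
        (by
          intro k hk
          rcases Finset.mem_insert.1 hk with hk | hk
          · omega
          · rcases Finset.mem_union.1 hk with hk | hk
            · have := hU0 k hk
              omega
            · have := (mem_rel.1 hk).1.2
              omega) h3
      have hset : insert r (U0 ∪ rel c v ι s r) ∪ U = U0 ∪ (insert r (rel c v ι s r) ∪ U) := by
        ext k
        simp only [Finset.mem_union, Finset.mem_insert]
        tauto
      rw [hset] at h4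
      refine ⟨E4, h4.law, h4.supp, ?_, h4.clip⟩
      have h5 := h4.bad
      push_cast
      linarith only [h5]

/-- **Pre-law of a block.** -/
theorem pre_law (hc : 4 ≤ c) (hv : ∀ k, ‖v k‖ ≤ 1) (hL : 1 ≤ L) (hκ : c ≤ 1.75 * κ)
    (hκb : κ ≤ κb) (hν0 : 0 ≤ ν) (hν : 8 * ν ≤ 3 * c) (hM : 1 ≤ M) (hι : 0 < ι)
    (hBR : 2 * B ≤ R ^ 2) (hR : 0 ≤ R) {P : ℕ → ℕ → Prop}
    (hP : ∀ a b, a ≤ b → P a b → Pn c v R L κb ι B κ ν M a b) {m σ σ' : ℕ}
    (hblk : Blk P m σ σ') :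
    ∃ U : Finset ℕ, (U.card : ℝ) ≤ m * (3 / 5 * c * Module.finrank ℝ V / ι ^ 2 + 1) ∧
      (∀ k ∈ U, σ ≤ k ∧ k < σ') ∧
      ∀ (T : ℕ), σ' ≤ T → ∀ (x : V) (B0 : ℝ),
        (∀ r, σ ≤ r → r ≤ T → Vp c v L σ r x ≤ B0) → B0 + (3 * L + 1) ≤ B →
        ∀ q : ℝ, (∀ a, σ ≤ a → a ≤ T → ∀ E, Law c v σ a x κ ν E →
          E.ev (ind {o : V × Lab | ¬ NT c v L T σ x a o.1}) ≤ q) →
        ∃ E : PosFun (V × Lab), Law c v σ σ' x κ ν E ∧
          Supp E {o | (o.2 = Lab.alive → Reach v R σ σ' x o.1 ∧ NT c v L T σ x σ' o.1) ∧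
            ∀ k, o.2 = Lab.clip k → k ∈ U} ∧
          E.ev (ind {o : V × Lab | o.2 = Lab.bad}) ≤ m * q ∧
          ∀ k, E.ev (ind {o : V × Lab | o.2 = Lab.clip k}) ≤
            M * Fk c v κb σ k x * Real.exp (-(c / 2)) := by
  classical
  obtain ⟨U, hU1, hU2, hσσ', hU3⟩ := pre_law_aux hc hv hκ hκb hν0 hν hM hι hBR hR hP hblk
  refine ⟨U, hU1, hU2, ?_⟩
  intro T hT x B0 hB0 hB q hq
  have hσT : σ ≤ T := hσσ'.trans hT
  have hq0 : 0 ≤ q := by
    have h1 := hq σ le_rfl hσT _ (Law.dirac σ x Lab.alive κ ν)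
    have h2 := (dirac (x, Lab.alive)).pos' _ (ind_nonneg {o : V × Lab | ¬ NT c v L T σ x σ o.1})
    linarith only [h1, h2]
  have hxR : ‖x‖ ≤ R := norm_of_NT le_rfl hσT hB0 hB hBR hR (NT_self c v hL T σ x)
  have hM0 : 0 ≤ M := by linarith only [hM]
  have hst : St c v R κb κ ν M σ σ x (AliveAt c v R L T σ x σ) ∅ 0 (dirac (x, Lab.alive)) := by
    refine ⟨Law.dirac σ x Lab.alive κ ν, ?_, ?_, ?_⟩
    · apply Supp.dirac
      refine ⟨fun _ => ⟨Reach.refl σ hxR, NT_self c v hL T σ x⟩, fun k h => ?_⟩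
      have h' : Lab.alive = Lab.clip k := h
      exact absurd h' (by simp)
    · rw [dirac_ev, ind_of_not_mem]
      intro h
      have h' : Lab.alive = Lab.bad := h
      exact absurd h' (by simp)
    · intro k
      rw [dirac_ev, ind_of_not_mem]
      · have := Fk_pos (c := c) (v := v) κb σ k x
        positivity
      · intro h
        have h' : Lab.alive = Lab.clip k := h
        exact absurd h' (by simp)
  obtain ⟨E, hE⟩ := hU3 T σ hT le_rfl x B0 hB0 hB q hq0 hq ∅ 0 _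
    (fun k hk => absurd hk (Finset.notMem_empty k)) hst
  rw [Finset.empty_union, zero_add] at hE
  exact ⟨E, hE.law, hE.supp, hE.bad, hE.clip⟩

end Main

end Vale.Agent.P262.Sig
end
end

section

section

/-!
The law of an interval of the next level.
-/

open scoped BigOperators InnerProductSpace

namespace Vale.Agent.P262.Sig

open Vale.Agent.P262.SigStr Vale.Agent.P262.SigP2

variable {V : Type} [NormedAddCommGroup V] [InnerProductSpace ℝ V] [FiniteDimensional ℝ V]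
variable {c : ℝ} {v : ℕ → V}

/-- The law of the empty interval. -/
lemma Pn_empty {R L κb ι B κ ν M : ℝ} (hM : 0 ≤ M) (hR : 0 ≤ R) (hBR : 2 * B ≤ R ^ 2) (s : ℕ) :
    Pn c v R L κb ι B κ ν M s s := by
  intro x hx
  have hxR := norm_le_of_Vp hR hBR (hx s le_rfl le_rfl)
  refine ⟨dirac (x, Lab.alive), Law.dirac s x Lab.alive κ ν, ?_, ?_⟩
  · apply Supp.dirac
    refine ⟨by simp, fun _ => Reach.rf1 hxR, fun k hk => by cases hk⟩
  · intro k
    rw [dirac_ev, jout (B := {o : V × Lab | o.2 = Lab.clip k}) (fun h => by cases h)]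
    have := Fk_pos (c := c) (v := v) κb s k x
    (clear R L ι B κ ν hR hBR hx hxR; positivity)

section Level

variable (hv : ∀ k, ‖v k‖ ≤ 1) {G : ℕ} {R L κb ι β B κ ν M ϖ p ρ κ' ν' Bn L2 : ℝ}
  (P : LP (Module.finrank ℝ V) G c R L κb ι β B κ ν M ϖ p ρ κ' ν' Bn L2)
include hv P

/-- The law of an interval which is a chain of blocks. -/
theorem chain_law {Q : ℕ → ℕ → Prop}
    (hQ : ∀ a b, a ≤ b → Q a b → ∃ U : Finset ℕ, PreC c v R L κb ι B κ ν M G a b U)
    {κ'' ν'' M'' : ℝ}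
    (hrw : RwOK (Module.finrank ℝ V) κ' ν' (Real.exp (-(L2 / (2 * κ')))) ρ κ'' ν'')
    (hν'' : ν'' ≤ ν') (hM'' : (1 + ρ) ^ 2 * M ≤ M'') {T s : ℕ}
    (hch : Chn Q (Sep c v β T) T s) :
    Pn c v R L κb ι Bn κ'' ν'' M'' s T := by
  classical
  have hc1 : 1 ≤ c := by have := P.hc; linarith only [this]
  have hκ'0 : 0 < κ' := by have h1 := P.rw.hκ; have h2 := P.kk; linarith only [h1, h2]
  have hL1 := P.hL
  have hL0 : 0 ≤ L := by linarith
  have hρ := P.rw.hρ
  have hM0 : 0 ≤ M := by have := P.hM; linarith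
  have hM''0 : 0 ≤ M'' := by
    refine le_trans ?_ hM''; (clear * - hρ hM0; positivity)
  have hκ'' : κ' ≤ κ'' := by
    have h1 := hrw.hκ'
    nlinarith only [hκ'0, hρ, h1]
  have hβR0 : 0 ≤ β * R ^ 2 := mul_nonneg P.hβ (sq_nonneg _)
  have hL20 := P.hL2
  have hBnB : Bn ≤ B := by have := P.hB; linarith only [hL1, hβR0, hL20, this]
  have hBnR : 2 * Bn ≤ R ^ 2 := by have := P.hBR; linarith only [hBnB, this]
  have hUm0 : 0 ≤ UmB (Module.finrank ℝ V) G c ι := by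
    unfold UmB
    have := P.hc
    (clear * - hc1; positivity)
  have h1ρ : 1 ≤ 1 + ρ := by linarith only [hρ]
  cases hch with
  | done => exact Pn_empty hM''0 P.hR hBnR T
  | last hs hq =>
    intro x hx
    obtain ⟨U, hU⟩ := hQ s T hs hq
    have hxR := norm_le_of_Vp P.hR hBnR (hx s le_rfl hs)
    set C : Set ℕ := {k | s ≤ k ∧ k < T ∧ ι ≤ ‖Bw c v s k (v k)‖} with hC
    obtain ⟨E, hE1, hE2, hE3⟩ := block_law hv P hs le_rfl hU
      (fun r h1 h2 => (hx r h1 h2).trans (by linarith only [hL1, hβR0, hL20])) hxR C (Or.inl (by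
        intro k hk hkC
        have hk2 := hU.2.1 k hk
        have h1 : ‖Bw c v s k (v k)‖ < ι := by
          by_contra h
          exact hkC ⟨hk2.1, hk2.2, not_lt.1 h⟩
        exact (mul_le_mul_of_nonneg_right h1.le P.hR).trans P.hιR))
      (U' := ∅) (by simpa only [Finset.card_empty, CharP.cast_eq_zero] using hUm0) (by simp) (Or.inl rfl)
    refine ⟨E, hE1.mono hc1 hv hκ'' hν'', hE2.mono ?_, ?_⟩
    · rintro o ⟨g1, g2, g3, _, _⟩
      exact ⟨g1, fun h => (g2 h).1, fun k hk => g3 k hk⟩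
    · intro k
      refine (hE3 k).trans ?_
      have h1 := Fk_pos (c := c) (v := v) κb s k x
      have h2 : (1 + ρ) * M ≤ M'' := by
        refine le_trans ?_ hM''
        have : (1 + ρ) * M * 1 ≤ (1 + ρ) * M * (1 + ρ) :=
          mul_le_mul_of_nonneg_left h1ρ (by (clear * - hρ hM0; positivity))
        linarith only [this]
      calc (1 + ρ) * (M * Fk c v κb s k x * Real.exp (-(c / 2))) =
            ((1 + ρ) * M) * (Fk c v κb s k x * Real.exp (-(c / 2))) := by ring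
        _ ≤ M'' * (Fk c v κb s k x * Real.exp (-(c / 2))) :=
            mul_le_mul_of_nonneg_right h2 (by positivity)
        _ = _ := by ring
  | @cons _ r hsr hrT hq hsep hch =>
    intro x hx
    have hsT := hsr.trans hrT
    obtain ⟨U, hU⟩ := hQ s r hsr hq
    obtain ⟨_, U', hU'1, hU'2, hcont⟩ := chainII hv P hQ hch
    have hxR := norm_le_of_Vp P.hR hBnR (hx s le_rfl hsT)
    set C : Set ℕ := {k | s ≤ k ∧ k < T ∧ ι ≤ ‖Bw c v s k (v k)‖} with hC
    obtain ⟨E, hE1, hE2, hE3, hE4⟩ := block_cons hv P hsr hrT hU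
      (fun r' h1 h2 => (hx r' h1 h2).trans (by linarith only [hL1, hβR0, hL20]))
      (fun r' h1 h2 => (hx r' (hsr.trans h1) h2).trans (by linarith only [hβR0, hL20])) hxR C (Or.inl (by
        intro k hk hkC
        have hk2 := hU.2.1 k hk
        have h1 : ‖Bw c v s k (v k)‖ < ι := by
          by_contra h
          exact hkC ⟨hk2.1, hk2.2.trans_le hrT, not_lt.1 h⟩
        exact (mul_le_mul_of_nonneg_right h1.le P.hR).trans P.hιR))
      hU'1 hU'2 (Or.inr hsep)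
    obtain ⟨ET, e1, e2, e3, e4⟩ := hcont s x C E hsr hE1 hE2
    -- the bad label is rare
    have hbad : ET.ev (ind {o : V × Lab | o.2 ≠ Lab.bad}ᶜ) ≤ Real.exp (-(L2 / (2 * κ'))) := by
      have h1 := e4.trans hE4
      have h2 : Vp c v L s T x ≤ Bn := hx T hsT le_rfl
      have h3 : Real.exp (Vp c v L s T x / (2 * κ')) ≤ Real.exp (Bn / (2 * κ')) :=
        Real.exp_le_exp.2 (div_le_div_of_nonneg_right h2 (by positivity))
      have h4 := h1.trans h3
      have h5 : ET.ev (ind {o : V × Lab | o.2 ≠ Lab.bad}ᶜ) =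
          ET.ev (ind {o : V × Lab | o.2 = Lab.bad}) := by
        congr 2
        ext o
        simp
      rw [h5]
      have h6 : Real.exp ((Bn + L2) / (2 * κ')) * Real.exp (-(L2 / (2 * κ'))) =
          Real.exp (Bn / (2 * κ')) := by
        rw [← Real.exp_add]
        congr 1
        field_simp
        ring
      rw [← h6] at h4
      exact le_of_mul_le_mul_left h4 (Real.exp_pos _)
    obtain ⟨E'', f1, f2, f3⟩ := e1.rw' hc1 hv hrw e2 hbad
    refine ⟨E'', f1, f2.mono ?_, ?_⟩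
    · rintro o ⟨⟨g1, g2⟩, g3⟩
      exact ⟨g3, g1, fun k hk => g2 k hk⟩
    · intro k
      refine (f3 _ (fun o => jnn _ o)).trans ?_
      have h1 := (e3 k).trans (hE3 k)
      have h2 := Fk_pos (c := c) (v := v) κb s k x
      calc (1 + ρ) * ET.ev (ind {o : V × Lab | o.2 = Lab.clip k}) ≤
            (1 + ρ) * ((1 + ρ) * (M * Fk c v κb s k x * Real.exp (-(c / 2)))) :=
            mul_le_mul_of_nonneg_left h1 (by linarith only [hρ])
        _ = ((1 + ρ) ^ 2 * M) * (Fk c v κb s k x * Real.exp (-(c / 2))) := by ring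
        _ ≤ M'' * (Fk c v κb s k x * Real.exp (-(c / 2))) :=
            mul_le_mul_of_nonneg_right hM'' (by positivity)
        _ = _ := by ring

/-- One step of the induction on the level. -/
theorem level_step {n : ℕ} {κ'' ν'' M'' : ℝ} (hν0 : 0 ≤ ν) (hν : 8 * ν ≤ 3 * c)
    (hrw : RwOK (Module.finrank ℝ V) κ' ν' (Real.exp (-(L2 / (2 * κ')))) ρ κ'' ν'')
    (hν'' : ν'' ≤ ν') (hM'' : (1 + ρ) ^ 2 * M ≤ M'')
    (ih : ∀ a b, a ≤ b → Lev c v G β n a b → Pn c v R L κb ι B κ ν M a b) :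
    ∀ a b, a ≤ b → Lev c v G β (n + 1) a b → Pn c v R L κb ι Bn κ'' ν'' M'' a b := by
  intro a b _ hlev
  have hc1 : 1 ≤ c := by have := P.hc; linarith only [this]
  have hL1 := P.hL
  refine chain_law hv P (Q := fun a b => Blk (Lev c v G β n) G a b) ?_ hrw hν'' hM'' hlev
  intro a' b' _ hblk
  obtain ⟨U, hU1, hU2, hU3⟩ := pre_law P.hc hv P.hL P.hκ (P.kk.trans P.hκb) hν0 hν P.hM P.hι
    P.hBR P.hR ih hblk
  refine ⟨U, hU1, hU2, ?_⟩
  intro T hT x B0 hB0 hB
  exact hU3 T hT x B0 hB0 hB (qN V L κ) (fun a ha haT E hE =>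
    noise_test hc1 hv ha haT hE P.rw.hκ (by linarith only [hL1]))

end Level

end Vale.Agent.P262.Sig
end
end

section

section

/-!
Structure theorem: every interval of steps is structured of level `≤ d`.
-/

open scoped BigOperators InnerProductSpace

namespace Vale.Agent.P262.SigStr

variable {V : Type} [NormedAddCommGroup V] [InnerProductSpace ℝ V] [FiniteDimensional ℝ V]

section Step

variable {c : ℝ} (hc : 1 ≤ c) {v : ℕ → V} (hv : ∀ k, ‖v k‖ ≤ 1)
include hc hv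

omit hc hv in
/-- A proper subspace has an orthogonal unit vector. -/
lemma exists_perp {F : Submodule ℝ V} (hF : Module.finrank ℝ F < Module.finrank ℝ V) :
    ∃ θ : V, ‖θ‖ = 1 ∧ Perp F θ := by
  have h1 := F.finrank_add_finrank_orthogonal
  have h2 : 0 < Module.finrank ℝ Fᗮ := by omega
  have : Nontrivial Fᗮ := Module.finrank_pos_iff.1 h2
  obtain ⟨x, hx⟩ := exists_ne (0 : Fᗮ)
  have hx0 : (x : V) ≠ 0 := fun h => hx (Subtype.ext h)
  have hn : ‖(x : V)‖ ≠ 0 := norm_ne_zero_iff.2 hx0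
  refine ⟨(1 / ‖(x : V)‖) • (x : V), ?_, ?_⟩
  · rw [norm_smul]
    simp only [one_div, norm_inv, norm_norm, ne_eq, hn, not_false_eq_true, inv_mul_cancel₀]
  · intro f hf
    rw [real_inner_smul_right, (Submodule.mem_orthogonal F (x : V)).1 x.2 f hf, mul_zero]

omit [FiniteDimensional ℝ V] in
/-- Scaling: a lower bound of the form on unit vectors extends to all vectors. -/
lemma lower_of_unit {F : Submodule ℝ V} {a b : ℕ} {g : ℝ}
    (h : ∀ θ : V, ‖θ‖ = 1 → Perp F θ → g ≤ DD (Aw c v a b) θ) (θ : V) (hθ : Perp F θ) :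
    g * ‖θ‖ ^ 2 ≤ DD (Aw c v a b) θ := by
  by_cases h0 : θ = 0
  · subst h0
    have := DD_nonneg (Aw_C hc hv a b) (0 : V)
    simpa only [norm_zero, ne_eq, OfNat.ofNat_ne_zero, not_false_eq_true, zero_pow, mul_zero, ge_iff_le] using     this
  · have hn : ‖θ‖ ≠ 0 := norm_ne_zero_iff.2 h0
    have h1 := h ((1 / ‖θ‖) • θ) (by rw [norm_smul]; simp [hn])
      (fun f hf => by rw [real_inner_smul_right, hθ f hf, mul_zero])
    rw [DD_smul] at h1
    have h2 : (1 / ‖θ‖) ^ 2 * DD (Aw c v a b) θ = DD (Aw c v a b) θ / ‖θ‖ ^ 2 := by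
      field_simp
    rw [h2, le_div_iff₀ (by positivity)] at h1
    exact h1

/-- Finding the next item. -/
lemma find_item {F : Submodule ℝ V} (hF : Module.finrank ℝ F < Module.finrank ℝ V)
    {g : ℝ} (hg : 0 < g) {b t : ℕ} (hbt : b ≤ t) :
    ∃ r, b ≤ r ∧ r ≤ t ∧ (∃ θ : V, ‖θ‖ = 1 ∧ Perp F θ ∧ DD (Aw c v b r) θ ≤ g) ∧
      (r < t → ∀ θ : V, Perp F θ → g * ‖θ‖ ^ 2 ≤ DD (Aw c v b (r + 1)) θ) := by
  classical
  let P : ℕ → Prop := fun r => b ≤ r ∧ ∃ θ : V, ‖θ‖ = 1 ∧ Perp F θ ∧ DD (Aw c v b r) θ ≤ g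
  have hPb : P b := by
    refine ⟨le_rfl, ?_⟩
    obtain ⟨θ, h1, h2⟩ := exists_perp hF
    refine ⟨θ, h1, h2, ?_⟩
    rw [Aw_self]
    show ‖θ‖ ^ 2 - ‖θ‖ ^ 2 ≤ g
    linarith only [hg]
  refine ⟨Nat.findGreatest P t, ?_, Nat.findGreatest_le t, ?_, ?_⟩
  · exact (Nat.findGreatest_spec (P := P) hbt hPb).1
  · exact (Nat.findGreatest_spec (P := P) hbt hPb).2
  · intro hr
    apply lower_of_unit hc hv
    intro θ h1 h2
    have h3 : ¬ P (Nat.findGreatest P t + 1) :=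
      Nat.findGreatest_is_greatest (Nat.lt_succ_self _) hr
    by_contra h4
    exact h3 ⟨((Nat.findGreatest_spec (P := P) hbt hPb).1).trans (Nat.le_succ _),
      θ, h1, h2, (not_le.1 h4).le⟩

/-- Extension of the frozen space by one direction. -/
lemma frozen_sup {F : Submodule ℝ V} {η₁ g : ℝ} (hη1 : 0 ≤ η₁) (hg : 0 < g) {a b : ℕ}
    (hF : ∀ f ∈ F, DD (Aw c v a b) f ≤ η₁ * ‖f‖ ^ 2) {θ : V} (h1 : ‖θ‖ = 1) (h2 : Perp F θ)
    (h3 : DD (Aw c v a b) θ ≤ g) :
    (Module.finrank ℝ ↥(F ⊔ Submodule.span ℝ {θ}) = Module.finrank ℝ F + 1) ∧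
    ∀ e ∈ F ⊔ Submodule.span ℝ {θ}, DD (Aw c v a b) e ≤ (η₁ + g) * ‖e‖ ^ 2 := by
  have hθ0 : θ ≠ 0 := by
    intro h; rw [h, norm_zero] at h1; exact zero_ne_one h1
  constructor
  · have k1 := Submodule.finrank_sup_add_finrank_inf_eq F (Submodule.span ℝ {θ})
    have k2 : F ⊓ Submodule.span ℝ {θ} = ⊥ := by
      rw [Submodule.eq_bot_iff]
      rintro x ⟨hx1, hx2⟩
      obtain ⟨a, rfl⟩ := Submodule.mem_span_singleton.1 hx2
      have k3 := h2 _ hx1
      rw [real_inner_smul_left, real_inner_self_eq_norm_sq, h1] at k3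
      have : a = 0 := by simpa using k3
      rw [this, zero_smul]
    rw [k2, finrank_bot, finrank_span_singleton hθ0] at k1
    simpa using k1
  · intro e he
    obtain ⟨f, hf, x, hx, rfl⟩ := Submodule.mem_sup.1 he
    obtain ⟨α, rfl⟩ := Submodule.mem_span_singleton.1 hx
    have k1 := sqrt_DD_add_le (Aw_C hc hv a b) f (α • θ)
    have hf0 := DD_nonneg (Aw_C hc hv a b) f
    have hθ1 := DD_nonneg (Aw_C hc hv a b) θ
    have hs := DD_nonneg (Aw_C hc hv a b) (f + α • θ)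
    have k2 : ‖f + α • θ‖ ^ 2 = ‖f‖ ^ 2 + α ^ 2 := by
      rw [norm_add_sq_real, real_inner_smul_right, h2 f hf, norm_smul, h1]
      simp
    rw [k2]
    rw [DD_smul] at k1
    set p := Real.sqrt (DD (Aw c v a b) f) with hp
    set q := Real.sqrt (α ^ 2 * DD (Aw c v a b) θ) with hq
    have hp2 : p ^ 2 ≤ η₁ * ‖f‖ ^ 2 := by rw [hp, Real.sq_sqrt hf0]; exact hF f hf
    have hq2 : q ^ 2 ≤ g * α ^ 2 := by
      rw [hq, Real.sq_sqrt (by (clear * - hθ1; positivity))]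
      nlinarith only [h3]
    have k3 : DD (Aw c v a b) (f + α • θ) ≤ (p + q) ^ 2 := by
      rw [← Real.sqrt_le_left (by (clear * -; positivity))]
      exact k1
    -- (p + q)^2 ≤ (η₁ + g) (‖f‖² + α²)
    have hn := sq_nonneg ‖f‖
    have k4 : (p + q) ^ 2 ≤ (η₁ + g) * (‖f‖ ^ 2 + α ^ 2) := by
      -- 2pq ≤ g‖f‖² + η₁ α²
      have k5 : (2 * p * q) ≤ g * ‖f‖ ^ 2 + η₁ * α ^ 2 := by
        have k6 : (2 * p * q) ^ 2 ≤ (g * ‖f‖ ^ 2 + η₁ * α ^ 2) ^ 2 := by
          have k7 : p ^ 2 * q ^ 2 ≤ (η₁ * ‖f‖ ^ 2) * (g * α ^ 2) :=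
            mul_le_mul hp2 hq2 (sq_nonneg _) (by (clear * - hη1; positivity))
          have k8 : 0 ≤ (g * ‖f‖ ^ 2 - η₁ * α ^ 2) ^ 2 := sq_nonneg _
          nlinarith only [k7, sq_nonneg (g * ‖f‖ ^ 2 - η₁ * α ^ 2)]
        exact abs_le_of_sq_le_sq' k6 (by (clear * - hg hη1; positivity)) |>.2
      nlinarith only [hp2, hq2, k5]
    linarith only [k3, k4]

end Step

end Vale.Agent.P262.SigStr
end
end

section

section

/-!
Structure theorem: every interval of steps is structured of level `≤ d`.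
-/

open scoped BigOperators InnerProductSpace

namespace Vale.Agent.P262.SigStr

variable {V : Type} [NormedAddCommGroup V] [InnerProductSpace ℝ V] [FiniteDimensional ℝ V]

section Step

variable {c : ℝ} (hc : 1 ≤ c) {v : ℕ → V} (hv : ∀ k, ‖v k‖ ≤ 1)
include hc hv

omit [FiniteDimensional ℝ V] hc hv in
lemma map_map (E : Submodule ℝ V) {s0 a b : ℕ} (h1 : s0 ≤ a) (h2 : a ≤ b) :
    (E.map (Aw c v s0 a)).map (Aw c v a b) = E.map (Aw c v s0 b) := by
  rw [← Submodule.map_comp, Aw_comp c v h1 h2]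

omit [FiniteDimensional ℝ V] in
/-- The images of the frozen space have full dimension. -/
lemma finrank_image {s0 t : ℕ} {E : Submodule ℝ V} {η : ℝ} (hη : η < 1)
    (hE : ∀ e ∈ E, DD (Aw c v s0 t) e ≤ η * ‖e‖ ^ 2) {a : ℕ} (h1 : s0 ≤ a) (h2 : a ≤ t) :
    Module.finrank ℝ (E.map (Aw c v s0 a)) = Module.finrank ℝ E := by
  have hinj : Function.Injective ((Aw c v s0 a).domRestrict E) := by
    rw [← LinearMap.ker_eq_bot, LinearMap.ker_eq_bot']
    intro e he
    have he' : Aw c v s0 a (e : V) = 0 := he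
    have k1 := DD_mono hc hv h1 h2 (e : V)
    have k2 := hE e e.2
    have k3 : DD (Aw c v s0 a) (e : V) = ‖(e : V)‖ ^ 2 := by
      unfold DD; rw [he', norm_zero]; ring
    rw [k3] at k1
    have k4 : ‖(e : V)‖ ^ 2 = 0 := by
      have := sq_nonneg ‖(e : V)‖
      nlinarith only [hη, k1, k2]
    have k5 : (e : V) = 0 := by
      rwa [pow_eq_zero_iff two_ne_zero, norm_eq_zero] at k4
    exact Subtype.ext k5
  have k := LinearMap.finrank_range_of_inj hinj
  rwa [LinearMap.range_domRestrict] at k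

/-- Building one super-block. -/
lemma blk_build {s0 t : ℕ} {E : Submodule ℝ V} {η η₁ g ι : ℝ} (hη0 : η < 1)
    (hη1 : 0 ≤ η₁) (hη3 : η₁ ≤ 1 / 2) (hη2 : η ≤ η₁ * (1 - η)) (hg : 0 < g) (hg1 : g ≤ 8)
    (hι1 : 4 * η₁ ≤ ι) (hι2 : 16 * η₁ ^ 2 ≤ g * ι)
    (hdim : Module.finrank ℝ E < Module.finrank ℝ V)
    (hE : ∀ e ∈ E, DD (Aw c v s0 t) e ≤ η * ‖e‖ ^ 2)
    (P : ℕ → ℕ → Prop)
    (hP : ∀ b r, s0 ≤ b → b ≤ r → r ≤ t → (∃ θ : V, ‖θ‖ = 1 ∧ Perp (E.map (Aw c v s0 b)) θ ∧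
      DD (Aw c v b r) θ ≤ g) → P b r)
    {a : ℕ} (ha : s0 ≤ a) (m : ℕ) :
    ∀ (b : ℕ) (q : ℝ), a ≤ b → b ≤ t → 0 ≤ q →
      (∀ z, Perp (E.map (Aw c v s0 a)) z → ‖Aw c v a b z‖ ^ 2 ≤ q * ‖z‖ ^ 2) →
      ∃ b', b ≤ b' ∧ b' ≤ t ∧ Blk P m b b' ∧ (b' = t ∨ ((m = 0 ∨ b < b') ∧
        ∀ z, Perp (E.map (Aw c v s0 a)) z →
          ‖Aw c v a b' z‖ ^ 2 ≤ max ι ((1 - g / 8) ^ m * q) * ‖z‖ ^ 2)) := by
  induction m with
  | zero =>
    intro b q hab hbt hq hz
    refine ⟨b, le_rfl, hbt, Blk.nil 0 b, Or.inr ⟨Or.inl rfl, fun z hz' => ?_⟩⟩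
    refine (hz z hz').trans ?_
    apply mul_le_mul_of_nonneg_right _ (sq_nonneg _)
    rw [pow_zero, one_mul]
    exact le_max_right _ _
  | succ m ih =>
    intro b q hab hbt hq hz
    have hsb : s0 ≤ b := ha.trans hab
    have hdimb : Module.finrank ℝ (E.map (Aw c v s0 b)) < Module.finrank ℝ V := by
      rw [finrank_image hc hv hη0 hE hsb hbt]; exact hdim
    obtain ⟨r, hr1, hr2, hr3, hr4⟩ := find_item hc hv hdimb hg hbt
    have hPr := hP b r hsb hr1 hr2 hr3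
    rcases hr2.eq_or_lt with h0 | h0
    · subst h0
      exact ⟨r, hr1, le_rfl, Blk.last hr1 hPr, Or.inl rfl⟩
    · have hK := hr4 h0
      have hg8 : 0 ≤ 1 - g / 8 := by linarith only [hg1]
      obtain ⟨b', h1, h2, h3, h4⟩ := ih (r + 1) (max ι ((1 - g / 8) * q)) (by omega) (by omega)
        (le_max_of_le_right (mul_nonneg hg8 hq)) (by
        intro z hz'
        have hz0 : 0 ≤ ‖z‖ ^ 2 := sq_nonneg _
        by_cases hbig : ι * ‖z‖ ^ 2 ≤ ‖Aw c v a b z‖ ^ 2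
        · have k1 := item_contr hc hv (F := E.map (Aw c v s0 a)) (g := g) (ι := ι)
            (b' := r + 1) hη1 hη3 hg hab (by omega)
            (fun f hf => frozen_image hc hv hη1 hη2 hE ha hab hbt hf)
            (by
              intro f hf
              rw [map_map E ha hab] at hf
              exact frozen_image hc hv hη1 hη2 hE hsb (by omega) (by omega) hf)
            (by
              intro θ hθ
              rw [map_map E ha hab] at hθ
              exact hK θ hθ)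
            hι1 hι2 hz' hbig
          calc _ ≤ _ := k1
            _ ≤ (1 - g / 8) * (q * ‖z‖ ^ 2) := mul_le_mul_of_nonneg_left (hz z hz') hg8
            _ = ((1 - g / 8) * q) * ‖z‖ ^ 2 := by ring
            _ ≤ _ := mul_le_mul_of_nonneg_right (le_max_right _ _) hz0
        · push Not at hbig
          have k1 : ‖Aw c v a (r + 1) z‖ ≤ ‖Aw c v a b z‖ := by
            rw [← Aw_comp_apply c v hab (show b ≤ r + 1 by omega) z]
            exact Aw_C hc hv b (r + 1) _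
          have k2 : ‖Aw c v a (r + 1) z‖ ^ 2 ≤ ‖Aw c v a b z‖ ^ 2 :=
            pow_le_pow_left₀ (norm_nonneg _) k1 2
          calc _ ≤ _ := k2
            _ ≤ ι * ‖z‖ ^ 2 := hbig.le
            _ ≤ _ := mul_le_mul_of_nonneg_right (le_max_left _ _) hz0)
      refine ⟨b', by omega, h2, Blk.cons hr1 hPr h3, ?_⟩
      rcases h4 with h4 | ⟨_, h5⟩
      · exact Or.inl h4
      · right
        refine ⟨Or.inr (by omega), fun z hz' => (h5 z hz').trans ?_⟩
        apply mul_le_mul_of_nonneg_right _ (sq_nonneg _)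
        have hpow : (1 - g / 8) ^ m ≤ 1 := pow_le_one₀ hg8 (by linarith only [hg])
        have hpow0 : 0 ≤ (1 - g / 8) ^ m := pow_nonneg hg8 m
        have hι0 : 0 ≤ ι := le_trans (by (clear * - hη1; positivity)) hι1
        apply max_le (le_max_left _ _)
        rcases le_total ι ((1 - g / 8) * q) with h6 | h6
        · rw [max_eq_right h6]
          refine le_trans (le_of_eq ?_) (le_max_right _ _)
          ring
        · rw [max_eq_left h6]
          refine le_trans ?_ (le_max_left _ _)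
          calc (1 - g / 8) ^ m * ι ≤ 1 * ι := mul_le_mul_of_nonneg_right hpow hι0
            _ = ι := one_mul _

/-- Separation after a full super-block. -/
lemma sep_of_renewal {s0 t : ℕ} {E : Submodule ℝ V} {η η₁ ι : ℝ}
    (hη1 : 0 ≤ η₁) (hη2 : η ≤ η₁ * (1 - η)) (hι : 0 ≤ ι)
    (hE : ∀ e ∈ E, DD (Aw c v s0 t) e ≤ η * ‖e‖ ^ 2)
    {a b : ℕ} (ha : s0 ≤ a) (hab : a ≤ b)
    (hz : ∀ z, Perp (E.map (Aw c v s0 a)) z → ‖Aw c v a b z‖ ^ 2 ≤ ι * ‖z‖ ^ 2) :
    Sep c v (η₁ + ι) t a b := by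
  intro u hbu hut x
  have hau := hab.trans hbu
  set F := E.map (Aw c v s0 a) with hF
  set e : V := F.starProjection x with he
  set z : V := x - e with hzd
  have hem : e ∈ F := Submodule.starProjection_apply_mem _ _
  have hzp : Perp F z := fun f hf => by
    rw [real_inner_comm]; exact Submodule.starProjection_inner_eq_zero x f hf
  have hx : x = e + z := by rw [hzd]; abel
  have k0 : ‖x‖ ^ 2 = ‖e‖ ^ 2 + ‖z‖ ^ 2 := by
    rw [hx, norm_add_sq_real, hzp e hem]; ring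
  have k1 : ‖Aw c v a u x‖ ^ 2 - ‖Aw c v a t x‖ ^ 2 = DD (Aw c v u t) (Aw c v a u x) := by
    unfold DD
    rw [Aw_comp_apply c v hau hut]
  rw [k1, hx, map_add, ← hx]
  have k2 := sqrt_DD_add_le (Aw_C hc hv u t) (Aw c v a u e) (Aw c v a u z)
  have p0 := DD_nonneg (Aw_C hc hv u t) (Aw c v a u e)
  have q0 := DD_nonneg (Aw_C hc hv u t) (Aw c v a u z)
  have r0 := DD_nonneg (Aw_C hc hv u t) (Aw c v a u e + Aw c v a u z)
  set p := Real.sqrt (DD (Aw c v u t) (Aw c v a u e)) with hp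
  set q := Real.sqrt (DD (Aw c v u t) (Aw c v a u z)) with hq
  have hp2 : p ^ 2 ≤ η₁ * ‖e‖ ^ 2 := by
    rw [hp, Real.sq_sqrt p0]
    have h1 := frozen_image hc hv hη1 hη2 hE ha (hau.trans hut) le_rfl hem
    have h2 := DD_comp c v hau hut e
    have h3 := DD_nonneg (Aw_C hc hv a u) e
    linarith only [h1, h2, h3]
  have hq2 : q ^ 2 ≤ ι * ‖z‖ ^ 2 := by
    rw [hq, Real.sq_sqrt q0]
    have h1 : DD (Aw c v u t) (Aw c v a u z) ≤ ‖Aw c v a u z‖ ^ 2 := by
      unfold DD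
      have := sq_nonneg ‖Aw c v u t (Aw c v a u z)‖
      linarith only [this]
    have h2 : ‖Aw c v a u z‖ ≤ ‖Aw c v a b z‖ := by
      rw [← Aw_comp_apply c v hab hbu z]
      exact Aw_C hc hv b u _
    have h3 : ‖Aw c v a u z‖ ^ 2 ≤ ‖Aw c v a b z‖ ^ 2 := pow_le_pow_left₀ (norm_nonneg _) h2 2
    exact h1.trans (h3.trans (hz z hzp))
  have k3 : DD (Aw c v u t) (Aw c v a u e + Aw c v a u z) ≤ (p + q) ^ 2 := by
    rw [← Real.sqrt_le_left (by (clear * -; positivity))]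
    exact k2
  rw [k0]
  have hn := sq_nonneg ‖e‖
  have hn' := sq_nonneg ‖z‖
  have k5 : (2 * p * q) ≤ ι * ‖e‖ ^ 2 + η₁ * ‖z‖ ^ 2 := by
    have k6 : (2 * p * q) ^ 2 ≤ (ι * ‖e‖ ^ 2 + η₁ * ‖z‖ ^ 2) ^ 2 := by
      have k7 : p ^ 2 * q ^ 2 ≤ (η₁ * ‖e‖ ^ 2) * (ι * ‖z‖ ^ 2) :=
        mul_le_mul hp2 hq2 (sq_nonneg _) (by (clear * - hη1; positivity))
      have k8 : 0 ≤ (ι * ‖e‖ ^ 2 - η₁ * ‖z‖ ^ 2) ^ 2 := sq_nonneg _
      nlinarith only [k7, sq_nonneg (ι * ‖e‖ ^ 2 - η₁ * ‖z‖ ^ 2)]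
    exact abs_le_of_sq_le_sq' k6 (by (clear * - hι hη1; positivity)) |>.2
  nlinarith only [hp2, hq2, k3, k5]

/-- Building the chain of super-blocks. -/
lemma chn_build {s0 t : ℕ} {E : Submodule ℝ V} {η η₁ g ι : ℝ} {G : ℕ} (hη0 : η < 1)
    (hη1 : 0 ≤ η₁) (hη3 : η₁ ≤ 1 / 2) (hη2 : η ≤ η₁ * (1 - η)) (hg : 0 < g) (hg1 : g ≤ 8)
    (hι1 : 4 * η₁ ≤ ι) (hι2 : 16 * η₁ ^ 2 ≤ g * ι) (hG0 : G ≠ 0)
    (hG : (1 - g / 8) ^ G ≤ ι)
    (hdim : Module.finrank ℝ E < Module.finrank ℝ V)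
    (hE : ∀ e ∈ E, DD (Aw c v s0 t) e ≤ η * ‖e‖ ^ 2)
    (P : ℕ → ℕ → Prop)
    (hP : ∀ b r, s0 ≤ b → b ≤ r → r ≤ t → (∃ θ : V, ‖θ‖ = 1 ∧ Perp (E.map (Aw c v s0 b)) θ ∧
      DD (Aw c v b r) θ ≤ g) → P b r) :
    ∀ (k a : ℕ), s0 ≤ a → a ≤ t → t - a ≤ k → Chn (fun a b => Blk P G a b)
      (Sep c v (η₁ + ι) t) t a := by
  intro k
  induction k with
  | zero =>
    intro a ha hat hk
    have : a = t := by omega
    subst this
    exact Chn.done
  | succ k ih =>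
    intro a ha hat hk
    rcases hat.eq_or_lt with h0 | h0
    · subst h0; exact Chn.done
    · obtain ⟨b, h1, h2, h3, h4⟩ := blk_build hc hv hη0 hη1 hη3 hη2 hg hg1 hι1 hι2 hdim hE P hP
        ha G a 1 le_rfl hat zero_le_one (fun z _ => by
          rw [Aw_self, one_mul]; exact le_rfl)
      rcases h4 with h4 | ⟨h5, h6⟩
      · subst h4
        exact Chn.last hat h3
      · have h7 : a < b := by
          rcases h5 with h5 | h5
          · exact absurd h5 hG0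
          · exact h5
        refine Chn.cons h1 h2 h3 ?_ (ih b (by omega) h2 (by omega))
        apply sep_of_renewal hc hv hη1 hη2 (le_trans (by (clear * - hη1; positivity)) hι1) hE ha h1
        intro z hz
        refine (h6 z hz).trans ?_
        apply mul_le_mul_of_nonneg_right _ (sq_nonneg _)
        rw [mul_one]
        exact max_le le_rfl hG

end Step

end Vale.Agent.P262.SigStr
end
end

section

section

/-!
Structure theorem: every interval of steps is structured of level `≤ d`.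
-/

open scoped BigOperators InnerProductSpace

namespace Vale.Agent.P262.SigStr

variable {V : Type} [NormedAddCommGroup V] [InnerProductSpace ℝ V] [FiniteDimensional ℝ V]

section Step

variable {c : ℝ} (hc : 1 ≤ c) {v : ℕ → V} (hv : ∀ k, ‖v k‖ ≤ 1)
include hc hv

/-- Structure theorem with a frozen subspace. -/
theorem lev_of_frozen {g : ℝ} {G d : ℕ} (hv2 : ∀ k, 1 / 2 ≤ ‖v k‖)
    (hd : d = Module.finrank ℝ V) (hd1 : 1 ≤ d)
    (hg : 0 < g) (hg1 : 16 * (d : ℝ) ^ 2 * g * c ≤ 1) (hG0 : G ≠ 0)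
    (hG : (1 - g / 8) ^ G ≤ 64 * (d : ℝ) ^ 2 * g) :
    ∀ (n : ℕ), n ≤ d → ∀ (s t : ℕ) (E : Submodule ℝ V), s ≤ t →
      Module.finrank ℝ E + n = d →
      (∀ e ∈ E, DD (Aw c v s t) e ≤ (2 * ((d : ℝ) - n) * g) * ‖e‖ ^ 2) →
      Lev c v G (66 * (d : ℝ) ^ 2 * g) n s t := by
  have hd1' : (1 : ℝ) ≤ d := by exact_mod_cast hd1
  have hdg : 16 * (d : ℝ) ^ 2 * g ≤ 1 := by
    have : 0 ≤ 16 * (d : ℝ) ^ 2 * g := by positivity
    nlinarith only [hc, hg1]
  have hdg1 : 16 * (d : ℝ) * g ≤ 1 := by nlinarith only [hd1', hdg]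
  intro n
  induction n with
  | zero =>
    intro _ s t E hst hdim hE
    show s = t
    by_contra hne
    have hlt : s < t := lt_of_le_of_ne hst hne
    have htop : E = ⊤ := by
      apply Submodule.eq_top_of_finrank_eq
      rw [← hd]; omega
    have h1 := hE (v s) (by rw [htop]; trivial)
    have h2 := DD_comp c v (show s ≤ s + 1 by omega) (show s + 1 ≤ t by omega) (v s)
    have h3 := DD_nonneg (Aw_C hc hv (s + 1) t) (Aw c v s (s + 1) (v s))
    have h4 : DD (Aw c v s (s + 1)) (v s) = (2 / c - ‖v s‖ ^ 2 / c ^ 2) * ⟪v s, v s⟫_ℝ ^ 2 := by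
      rw [Aw_succ c v le_rfl, Aw_self, LinearMap.comp_id]
      exact DD_stp c (by linarith only [hc]) (v s) (v s)
    have h5 := coef_lower c hc (v s) (hv s)
    rw [real_inner_self_eq_norm_sq] at h4
    have h6 : 1 / 4 ≤ ‖v s‖ ^ 2 := by
      have := hv2 s
      nlinarith only [this]
    have h7 : 1 / c * (‖v s‖ ^ 2) ^ 2 ≤ 2 * (d : ℝ) * g * ‖v s‖ ^ 2 := by
      have : 1 / c * (‖v s‖ ^ 2) ^ 2 ≤ (2 / c - ‖v s‖ ^ 2 / c ^ 2) * (‖v s‖ ^ 2) ^ 2 :=
        mul_le_mul_of_nonneg_right h5 (sq_nonneg _)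
      simp only [Nat.cast_zero, sub_zero] at h1
      linarith only [h2, h3, h4, this, h1]
    have hc0 : 0 < c := by linarith only [hc]
    have h8 : (‖v s‖ ^ 2) ^ 2 ≤ 2 * (d : ℝ) * g * c * ‖v s‖ ^ 2 := by
      have := mul_le_mul_of_nonneg_left h7 hc0.le
      have e : c * (1 / c * (‖v s‖ ^ 2) ^ 2) = (‖v s‖ ^ 2) ^ 2 := by (clear * - hc; field_simp)
      rw [e] at this
      linarith only [this]
    have h9 : 2 * (d : ℝ) * g * c ≤ 1 / 8 := by
      have : (d : ℝ) * g * c ≤ (d : ℝ) ^ 2 * g * c := by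
        have h0 : 0 ≤ g * c := by positivity
        nlinarith only [hd1', h6, h8]
      nlinarith only [hg1, this]
    have h10 : 0 < ‖v s‖ ^ 2 := by linarith only [h6]
    have h11 : ‖v s‖ ^ 2 ≤ 2 * (d : ℝ) * g * c := by
      have : ‖v s‖ ^ 2 * ‖v s‖ ^ 2 ≤ (2 * (d : ℝ) * g * c) * ‖v s‖ ^ 2 := by
        refine le_trans (le_of_eq ?_) h8; ring
      exact le_of_mul_le_mul_right this h10
    linarith only [h6, h9, h10, h11]
  | succ n ih =>
    intro hn s t E hst hdim hE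
    -- parameters
    set k : ℝ := (d : ℝ) - ((n + 1 : ℕ) : ℝ) with hk
    have hk0 : 0 ≤ k := by
      have : ((n + 1 : ℕ) : ℝ) ≤ d := by exact_mod_cast hn
      linarith only [this]
    have hk1 : k + 1 ≤ d := by
      have : (1 : ℝ) ≤ ((n + 1 : ℕ) : ℝ) := by exact_mod_cast Nat.succ_le_succ (Nat.zero_le n)
      linarith only [this]
    have hkd : 2 * k + 1 ≤ 2 * (d : ℝ) := by linarith only [hk1]
    have hkk : (d : ℝ) - (n : ℝ) = k + 1 := by
      rw [hk]; push_cast; ring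
    have hη0 : 2 * k * g < 1 := by nlinarith
    have hη1 : 0 ≤ (2 * k + 1) * g := by (clear * - hk0 hg; positivity)
    have hη3 : (2 * k + 1) * g ≤ 1 / 2 := by nlinarith
    have hη2 : 2 * k * g ≤ (2 * k + 1) * g * (1 - 2 * k * g) := by
      have h1 : (2 * k + 1) * (2 * k) ≤ 4 * (d : ℝ) ^ 2 := by nlinarith only [hd1', hk0, hk1]
      have h2 : (2 * k + 1) * (2 * k) * g ≤ 1 := by nlinarith only [hg, hdg, h1]
      nlinarith only [hg, h2]
    have hι1 : 4 * ((2 * k + 1) * g) ≤ 64 * (d : ℝ) ^ 2 * g := by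
      have : 4 * (2 * k + 1) ≤ 64 * (d : ℝ) ^ 2 := by nlinarith only [hd1', hk1]
      nlinarith only [hg, this]
    have hι2 : 16 * ((2 * k + 1) * g) ^ 2 ≤ g * (64 * (d : ℝ) ^ 2 * g) := by
      have : (2 * k + 1) ^ 2 ≤ (2 * (d : ℝ)) ^ 2 := pow_le_pow_left₀ (by (clear * - hk0; positivity)) hkd 2
      have h2 : 0 ≤ g ^ 2 := sq_nonneg _
      nlinarith only [this, sq_nonneg (g)]
    have hg8 : g ≤ 8 := by nlinarith only [hd1', hdg]
    have hβ : Lev c v G (66 * (d : ℝ) ^ 2 * g) (n + 1) s t =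
      Chn (fun a b => Blk (Lev c v G (66 * (d : ℝ) ^ 2 * g) n) G a b)
        (Sep c v (66 * (d : ℝ) ^ 2 * g) t) t s := rfl
    rw [hβ]
    have hmain := chn_build hc hv (s0 := s) (t := t) (E := E) (η := 2 * k * g)
      (η₁ := (2 * k + 1) * g) (g := g) (ι := 64 * (d : ℝ) ^ 2 * g) (G := G) hη0 hη1 hη3 hη2 hg
      hg8 hι1 hι2 hG0 hG (by rw [← hd]; omega) hE (Lev c v G (66 * (d : ℝ) ^ 2 * g) n)
      (by
        rintro b r hsb hbr hrt ⟨θ, h1, h2, h3⟩
        have h4 := frozen_sup hc hv hη1 hg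
          (fun f hf => frozen_image hc hv hη1 hη2 hE hsb hbr hrt hf) h1 h2 h3
        apply ih (by omega) b r (E.map (Aw c v s b) ⊔ Submodule.span ℝ {θ}) hbr
        · rw [h4.1, finrank_image hc hv hη0 hE hsb (hbr.trans hrt)]; omega
        · intro e he
          have h5 := h4.2 e he
          have h6 : (2 * k + 1) * g + g = 2 * ((d : ℝ) - (n : ℝ)) * g := by rw [hkk]; ring
          rw [h6] at h5
          exact h5)
      (t - s) s le_rfl hst le_rfl
    -- weaken the separation constant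
    have hmono : ∀ a, Chn (fun a b => Blk (Lev c v G (66 * (d : ℝ) ^ 2 * g) n) G a b)
        (Sep c v ((2 * k + 1) * g + 64 * (d : ℝ) ^ 2 * g) t) t a →
        Chn (fun a b => Blk (Lev c v G (66 * (d : ℝ) ^ 2 * g) n) G a b)
        (Sep c v (66 * (d : ℝ) ^ 2 * g) t) t a := by
      intro a h
      induction h with
      | done => exact Chn.done
      | last h1 h2 => exact Chn.last h1 h2
      | cons h1 h2 h3 h4 _ h6 =>
        refine Chn.cons h1 h2 h3 ?_ h6
        intro u hu1 hu2 x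
        refine (h4 u hu1 hu2 x).trans ?_
        apply mul_le_mul_of_nonneg_right _ (sq_nonneg _)
        have : (2 * k + 1) * g ≤ 2 * (d : ℝ) ^ 2 * g := by
          have : 2 * k + 1 ≤ 2 * (d : ℝ) ^ 2 := by nlinarith only [hd1', hk1]
          nlinarith only [hg, this]
        linarith only [this]
    exact hmono s hmain

/-- **Structure theorem.** -/
theorem lev_all {g : ℝ} {G d : ℕ} (hv2 : ∀ k, 1 / 2 ≤ ‖v k‖)
    (hd : d = Module.finrank ℝ V) (hd1 : 1 ≤ d)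
    (hg : 0 < g) (hg1 : 16 * (d : ℝ) ^ 2 * g * c ≤ 1) (hG0 : G ≠ 0)
    (hG : (1 - g / 8) ^ G ≤ 64 * (d : ℝ) ^ 2 * g) {s t : ℕ} (hst : s ≤ t) :
    Lev c v G (66 * (d : ℝ) ^ 2 * g) d s t := by
  apply lev_of_frozen hc hv hv2 hd hd1 hg hg1 hG0 hG d le_rfl s t ⊥ hst
  · simp
  · intro e he
    rw [Submodule.mem_bot] at he
    subst he
    unfold DD
    simp only [norm_zero, ne_eq, OfNat.ofNat_ne_zero, not_false_eq_true, zero_pow, map_zero, sub_self, mul_zero, zero_mul, Std.le_refl]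

end Step

end Vale.Agent.P262.SigStr
end
end

section

section

/-!
Induction over the levels and the root.
-/

open scoped BigOperators InnerProductSpace

namespace Vale.Agent.P262.Sig

open Vale.Agent.P262.SigStr Vale.Agent.P262.SigP2

variable {V : Type} [NormedAddCommGroup V] [InnerProductSpace ℝ V] [FiniteDimensional ℝ V]

/-- Base of the induction: empty intervals. -/
lemma Pn_base {c : ℝ} {v : ℕ → V} {R L κb ι B κ ν M : ℝ} (hR : 0 ≤ R) (hBR : 2 * B ≤ R ^ 2)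
    (hM : 0 ≤ M) (s : ℕ) : Pn c v R L κb ι B κ ν M s s := by
  intro x hx
  have h1 := hx s le_rfl le_rfl
  rw [Vp_self] at h1
  have hxR : ‖x‖ ≤ R := abs_le_of_sq_le_sq' (by linarith only [hBR, h1]) hR |>.2
  refine ⟨dirac (x, Lab.alive), Law.dirac s x Lab.alive κ ν, ?_, ?_⟩
  · apply Supp.dirac
    refine ⟨by simp, fun _ => Reach.refl s hxR, fun k h => ?_⟩
    have h' : Lab.alive = Lab.clip k := h
    exact absurd h' (by simp)
  · intro k
    rw [dirac_ev, ind_of_not_mem]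
    · have := Fk_pos (c := c) (v := v) κb s k x
      (clear R L ι B κ ν hR hBR hx h1 hxR; positivity)
    · intro h
      have h' : Lab.alive = Lab.clip k := h
      exact absurd h' (by simp)

/-- Potential of the origin. -/
lemma Vp_zero_le {c : ℝ} {v : ℕ → V} {L : ℝ} (hL : 0 ≤ L) (s t : ℕ) :
    Vp c v L s t 0 ≤ L * Module.finrank ℝ V := by
  have h1 := W_le (Aw c v s t) (0 : V) 0
  rw [sub_zero, map_zero, norm_zero] at h1
  have h2 := mul_le_mul_of_nonneg_left (tau_le (c := c) (v := v) s t) hL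
  unfold Vp
  linarith

/-- **Induction and root.** -/
theorem reach_root {c : ℝ} (hc : 4 ≤ c) {v : ℕ → V} (hv : ∀ k, ‖v k‖ ≤ 1)
    (hv2 : ∀ k, 1 / 2 ≤ ‖v k‖) {d G : ℕ} (hd : d = Module.finrank ℝ V) (hd1 : 1 ≤ d)
    {g R L κb ι β : ℝ} {B κ ν M : ℕ → ℝ}
    (hg : 0 < g) (hg1 : 16 * (d : ℝ) ^ 2 * g * c ≤ 1) (hG0 : G ≠ 0)
    (hG : (1 - g / 8) ^ G ≤ 64 * (d : ℝ) ^ 2 * g) (hβ : β = 66 * (d : ℝ) ^ 2 * g)
    (hR : 0 ≤ R) (hBR : 2 * B 0 ≤ R ^ 2) (hM0 : 0 ≤ M 0) (hMd : 0 ≤ M d) (hL : 0 ≤ L)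
    (hι : 0 < ι) (hκb : 0 ≤ κb)
    (hstep : ∀ n, n < d →
      (∀ s t, s ≤ t → Lev c v G β n s t → Pn c v R L κb ι (B n) (κ n) (ν n) (M n) s t) →
      (∀ s t, s ≤ t → Lev c v G β (n + 1) s t →
        Pn c v R L κb ι (B (n + 1)) (κ (n + 1)) (ν (n + 1)) (M (n + 1)) s t))
    (hroot1 : L * d ≤ B d)
    (hroot2 : 3 / 5 * c * d / ι ^ 2 * (M d * (2 * Real.exp (κb / 2)) * Real.exp (-(c / 2))) < 1)
    (N : ℕ) : ∃ y : V, Reach v R 0 N 0 y := by
  classical
  have hc1 : 1 ≤ c := by linarith only [hc]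
  have hall : ∀ n, n ≤ d → ∀ s t, s ≤ t → Lev c v G β n s t →
      Pn c v R L κb ι (B n) (κ n) (ν n) (M n) s t := by
    intro n
    induction n with
    | zero =>
      intro _ s t _ h
      have h' : s = t := h
      subst h'
      exact Pn_base hR hBR hM0 s
    | succ n ih =>
      intro hn
      exact hstep n (by omega) (ih (by omega))
  have hlev : Lev c v G β d 0 N := by
    rw [hβ]
    exact lev_all hc1 hv hv2 hd hd1 hg hg1 hG0 hG (Nat.zero_le N)
  obtain ⟨E, _, hS, hclip⟩ := hall d le_rfl 0 N (Nat.zero_le N) hlev 0 (by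
    intro r _ _
    have h1 := Vp_zero_le (c := c) (v := v) hL 0 r
    rw [← hd] at h1
    linarith only [hroot1, h1])
  by_contra hcon
  push Not at hcon
  -- every outcome is a clip
  have h1 : E.ev (fun _ => 1) ≤ E.ev (fun o => ∑ k ∈ rel c v ι 0 N,
      ind (isLab (Lab.clip k)) o) := by
    apply hS.le
    rintro o ⟨ho1, ho2, ho3⟩
    have hnn : ∀ k ∈ rel c v ι 0 N, 0 ≤ ind (isLab (V := V) (Lab.clip k)) o :=
      fun k _ => ind_nonneg _ o
    rcases ho : o.2 with _ | _ | k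
    · exact absurd (ho2 ho) (hcon o.1)
    · exact absurd ho ho1
    · obtain ⟨h1, h2, h3⟩ := ho3 k ho
      have h4 := Finset.single_le_sum hnn (mem_rel.2 ⟨⟨h1, h2⟩, h3⟩)
      rw [ind_of_mem (isLab (V := V) (Lab.clip k)) ho] at h4
      exact h4
  rw [E.one', E.ev_sum] at h1
  have h2 : ∀ k ∈ rel c v ι 0 N, E.ev (ind (isLab (Lab.clip k))) ≤
      M d * (2 * Real.exp (κb / 2)) * Real.exp (-(c / 2)) := by
    intro k _
    refine (hclip k).trans ?_
    apply mul_le_mul_of_nonneg_right _ (Real.exp_pos _).le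
    apply mul_le_mul_of_nonneg_left _ hMd
    unfold Fk
    rw [inner_zero_right, neg_zero, Real.exp_zero]
    have h5 : Real.exp (κb * (1 - ‖Bw c v 0 k (v k)‖ ^ 2) / 2) ≤ Real.exp (κb / 2) := by
      apply Real.exp_le_exp.2
      have : 0 ≤ κb * ‖Bw c v 0 k (v k)‖ ^ 2 := by (clear hc hv hv2 G hd hd1 g R L β B M hg hg1 hG0 hG hβ hR hBR hM0 hMd hL hι hstep hroot1 hroot2 hc1 hall hlev hS hclip hcon h1; positivity)
      (clear hc hv hv2 G hd hd1 g R L β B M hg hg1 hG0 hG hβ hR hBR hM0 hMd hL hι hstep hroot1 hroot2 hc1 hall hlev hS hclip hcon h1; linarith only [this])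
    (clear hc hv hv2 G hd hd1 g R L β B M hg hg1 hG0 hG hβ hR hBR hM0 hMd hL hι hstep hroot1 hroot2 hc1 hall hlev hS hclip hcon h1; linarith only [h5])
  have h3 := Finset.sum_le_sum h2
  rw [Finset.sum_const, nsmul_eq_mul] at h3
  have h4 := rel_card hc hv (Nat.zero_le N) hι
  rw [← hd] at h4
  have h5 : 0 ≤ M d * (2 * Real.exp (κb / 2)) * Real.exp (-(c / 2)) := by (clear * - hMd; positivity)
  have h6 := mul_le_mul_of_nonneg_right h4 h5
  linarith only [hroot2, h1, h3, h6]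

end Vale.Agent.P262.Sig
end
end

section

section

/-!
# The lower bound `S_2(d) ≥ √d / 3` (P262)
-/

open scoped BigOperators ENNReal

namespace Vale.Agent.P262.SqrtLower

open Vale.Agent.P262

/-- The family `e_1, …, e_d` and `d` copies of `-(1/d) ∑ e_i`. -/
noncomputable def fam (d : ℕ) : Fin (d + d) → EuclideanSpace ℝ (Fin d) :=
  Fin.append (fun j => EuclideanSpace.single j (1 : ℝ))
    (fun _ => WithLp.toLp 2 (fun _ => -(1 / (d : ℝ))))

lemma fam_left (d : ℕ) (j : Fin d) : fam d (Fin.castAdd d j) = EuclideanSpace.single j (1 : ℝ) := by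
  simp [fam]

lemma fam_right (d : ℕ) (j : Fin d) :
    fam d (Fin.natAdd d j) = WithLp.toLp 2 (fun _ => -(1 / (d : ℝ))) := by
  simp only [fam, Fin.append_right]

lemma norm_fam_le {d : ℕ} (hd : 1 ≤ d) (i : Fin (d + d)) : ‖fam d i‖ ≤ 1 := by
  have hd' : (1 : ℝ) ≤ d := by exact_mod_cast hd
  refine Fin.addCases (fun j => ?_) (fun j => ?_) i
  · rw [fam_left]; simp
  · rw [fam_right, EuclideanSpace.norm_eq]
    refine Real.sqrt_le_one.2 ?_
    simp only [norm_neg, norm_div, norm_one, Real.norm_natCast, Finset.sum_const,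
      Finset.card_univ, Fintype.card_fin, nsmul_eq_mul]
    rw [div_pow, one_pow, mul_one_div, pow_two, div_mul_eq_div_div,
      div_self (by positivity : (d : ℝ) ≠ 0)]
    exact (div_le_one (by positivity)).2 hd'

lemma sum_fam {d : ℕ} (hd : 1 ≤ d) : ∑ i, fam d i = 0 := by
  have hd' : (d : ℝ) ≠ 0 := by positivity
  rw [Fin.sum_univ_add]
  simp only [fam_left, fam_right]
  ext k
  simp only [one_div, Finset.sum_const, Finset.card_univ, Fintype.card_fin, PiLp.add_apply, WithLp.ofLp_sum, PiLp.ofLp_single, Finset.sum_apply, Finset.sum_pi_single, Finset.mem_univ, ↓reduceIte, PiLp.smul_apply, smul_neg, nsmul_eq_mul, PiLp.zero_apply]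
  field_simp
  simp

/-- number of basis vectors among the first `k` -/
def cnt {d : ℕ} (q : Fin d → ℕ) (k : ℕ) : ℕ := (Finset.univ.filter (fun j => q j < k)).card

lemma cnt_succ {d : ℕ} {q : Fin d → ℕ} (hq : Function.Injective q) (k : ℕ) :
    cnt q (k + 1) ≤ cnt q k + 1 := by
  unfold cnt
  have h1 : Finset.univ.filter (fun j => q j < k + 1)
      ⊆ Finset.univ.filter (fun j => q j < k) ∪ Finset.univ.filter (fun j => q j = k) := by
    intro j hj
    simp only [Finset.mem_filter, Finset.mem_univ, true_and, Finset.mem_union] at hj ⊢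
    omega
  have h2 : (Finset.univ.filter (fun j => q j = k)).card ≤ 1 := by
    rw [Finset.card_le_one]
    intro a ha b hb
    simp only [Finset.mem_filter, Finset.mem_univ, true_and] at ha hb
    exact hq (ha.trans hb.symm)
  calc _ ≤ _ := Finset.card_le_card h1
    _ ≤ _ := Finset.card_union_le _ _
    _ ≤ _ := by omega

lemma exists_cnt {d : ℕ} {q : Fin d → ℕ} (hq : Function.Injective q) {M : ℕ}
    (hM : ∀ j, q j < M) {m : ℕ} (hm : m ≤ d) : ∃ k ≤ M, cnt q k = m := by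
  classical
  have hMd : cnt q M = d := by
    unfold cnt
    rw [Finset.filter_true_of_mem (fun j _ => hM j)]
    simp only [Finset.card_univ, Fintype.card_fin]
  have hex : ∃ k, m ≤ cnt q k := ⟨M, by omega⟩
  refine ⟨Nat.find hex, Nat.find_min' hex (by omega), ?_⟩
  have h1 := Nat.find_spec hex
  rcases Nat.eq_zero_or_pos (Nat.find hex) with h0 | h0
  · rw [h0] at h1 ⊢
    have : cnt q 0 = 0 := by simp [cnt]
    omega
  · obtain ⟨k, hk⟩ : ∃ k, Nat.find hex = k + 1 := ⟨Nat.find hex - 1, by omega⟩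
    have h2 := Nat.find_min hex (m := k) (by omega)
    have h3 := cnt_succ hq k
    rw [hk] at h1 ⊢
    omega

/-- partial sums in coordinates -/
lemma partial_coord {d : ℕ} (p : Equiv.Perm (Fin (d + d))) (k : ℕ) (c : Fin d) :
    (partialSum (fun i => fam d (p i)) k) c
      = (if ((p.symm (Fin.castAdd d c)).val < k) then (1 : ℝ) else 0)
        - ((Finset.univ.filter (fun j : Fin d => (p.symm (Fin.natAdd d j)).val < k)).card : ℝ)
          / d := by
  have h1 : partialSum (fun i => fam d (p i)) k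
      = ∑ x : Fin (d + d), if (p.symm x).val < k then fam d x else 0 := by
    unfold partialSum
    rw [Finset.sum_filter,
      ← Equiv.sum_comp p (fun x => if (p.symm x).val < k then fam d x else 0)]
    simp only [Equiv.symm_apply_apply]
  rw [h1, Fin.sum_univ_add]
  simp only [fam_left, fam_right]
  rw [PiLp.add_apply]
  congr 1
  · rw [WithLp.ofLp_sum, Finset.sum_apply, Finset.sum_eq_single c]
    · split_ifs <;> simp
    · intro b _ hb
      split_ifs
      · simp [hb.symm]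
      · simp
    · simp only [Finset.mem_univ, not_true_eq_false, IsEmpty.forall_iff]
  · rw [WithLp.ofLp_sum, Finset.sum_apply, Finset.card_filter]
    push_cast
    rw [Finset.sum_div, ← Finset.sum_neg_distrib]
    refine Finset.sum_congr rfl fun j _ => ?_
    split_ifs <;> simp

/-- squared norm of a partial sum -/
lemma partial_norm {d : ℕ} (p : Equiv.Perm (Fin (d + d))) (k : ℕ) :
    ‖partialSum (fun i => fam d (p i)) k‖ ^ 2
      = (cnt (fun c : Fin d => (p.symm (Fin.castAdd d c)).val) k : ℝ)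
          * (1 - ((Finset.univ.filter (fun j : Fin d =>
            (p.symm (Fin.natAdd d j)).val < k)).card : ℝ) / d) ^ 2
        + ((d : ℝ) - cnt (fun c : Fin d => (p.symm (Fin.castAdd d c)).val) k)
          * (((Finset.univ.filter (fun j : Fin d =>
            (p.symm (Fin.natAdd d j)).val < k)).card : ℝ) / d) ^ 2 := by
  rw [EuclideanSpace.norm_sq_eq]
  simp only [partial_coord, Real.norm_eq_abs, sq_abs]
  set θ : ℝ := ((Finset.univ.filter (fun j : Fin d =>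
            (p.symm (Fin.natAdd d j)).val < k)).card : ℝ) / d
  set q : Fin d → ℕ := fun c : Fin d => (p.symm (Fin.castAdd d c)).val with hq
  have h1 : ∀ c : Fin d, ((if (p.symm (Fin.castAdd d c)).val < k then (1 : ℝ) else 0) - θ) ^ 2
      = (if q c < k then ((1 - θ) ^ 2 - θ ^ 2) else 0) + θ ^ 2 := by
    intro c
    simp only [hq]
    split_ifs <;> ring
  simp only [h1]
  rw [Finset.sum_add_distrib, ← Finset.sum_filter, Finset.sum_const, Finset.sum_const,
    Finset.card_univ, Fintype.card_fin, nsmul_eq_mul, nsmul_eq_mul]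
  simp only [cnt]
  ring

lemma nat_bound {d m : ℕ} (hd : 2 ≤ d) (hm : m = d / 2) : 2 * d * d ≤ 9 * (m * (d - m)) := by
  rcases Nat.even_or_odd' d with ⟨c, rfl | rfl⟩
  · have : m = c := by omega
    subst this
    have : 2 * m - m = m := by omega
    rw [this]
    nlinarith only []
  · have : m = c := by omega
    subst this
    have : 2 * m + 1 - m = m + 1 := by omega
    rw [this]
    have : 1 ≤ m := by omega
    nlinarith only [this]

/-- every ordering of the family has a partial sum of norm at least `√d / 3` -/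
lemma exists_large {d : ℕ} (hd : 1 ≤ d) (p : Equiv.Perm (Fin (d + d))) :
    ∃ k : Fin (d + d + 1), Real.sqrt d / 3 ≤ ‖partialSum (fun i => fam d (p i)) k.val‖ := by
  have hdr : (0 : ℝ) < d := by positivity
  have key : ∀ x : ℝ, 0 ≤ x → (d : ℝ) / 9 ≤ x ^ 2 → Real.sqrt d / 3 ≤ x := by
    intro x hx h
    refine le_of_sq_le_sq ?_ hx
    rw [div_pow, Real.sq_sqrt hdr.le]
    norm_num
    linarith only [h]
  rcases Nat.lt_or_ge d 2 with h1 | h2
  · have h1 : d = 1 := by omega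
    subst h1
    refine ⟨⟨1, by norm_num⟩, key _ (norm_nonneg _) ?_⟩
    rw [partial_norm]
    have hinj : (p.symm (Fin.castAdd 1 (0 : Fin 1))).val ≠ (p.symm (Fin.natAdd 1 (0 : Fin 1))).val := by
      intro h
      have h' := p.symm.injective (Fin.ext h)
      exact absurd (congrArg Fin.val h') (by simp)
    have hb1 := (p.symm (Fin.castAdd 1 (0 : Fin 1))).isLt
    have hb2 := (p.symm (Fin.natAdd 1 (0 : Fin 1))).isLt
    have hcnt : cnt (fun c : Fin 1 => (p.symm (Fin.castAdd 1 c)).val) 1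
        = if (p.symm (Fin.castAdd 1 (0 : Fin 1))).val < 1 then 1 else 0 := by
      unfold cnt
      rw [Finset.card_filter, Fin.sum_univ_one]
    have hcnt2 : (Finset.univ.filter (fun j : Fin 1 => (p.symm (Fin.natAdd 1 j)).val < 1)).card
        = if (p.symm (Fin.natAdd 1 (0 : Fin 1))).val < 1 then 1 else 0 := by
      rw [Finset.card_filter, Fin.sum_univ_one]
    simp only [hcnt, hcnt2]
    by_cases ha : (p.symm (Fin.castAdd 1 (0 : Fin 1))).val < 1
    · have hb : ¬ (p.symm (Fin.natAdd 1 (0 : Fin 1))).val < 1 := by omega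
      rw [if_pos ha, if_neg hb]; norm_num
    · have hb : (p.symm (Fin.natAdd 1 (0 : Fin 1))).val < 1 := by omega
      rw [if_neg ha, if_pos hb]; norm_num
  · obtain ⟨k, hk, hm⟩ := exists_cnt (q := fun c : Fin d => (p.symm (Fin.castAdd d c)).val)
      (fun a b h => by
        have h' := p.symm.injective (Fin.ext h)
        exact Fin.castAdd_injective d d h')
      (M := d + d) (fun j => (p.symm (Fin.castAdd d j)).isLt) (m := d / 2) (Nat.div_le_self d 2)
    refine ⟨⟨k, by omega⟩, key _ (norm_nonneg _) ?_⟩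
    rw [partial_norm, hm]
    set θ : ℝ := ((Finset.univ.filter (fun j : Fin d =>
            (p.symm (Fin.natAdd d j)).val < k)).card : ℝ) / d
    have hnat := nat_bound h2 (m := d / 2) rfl
    have hle : d / 2 ≤ d := Nat.div_le_self d 2
    have hreal : 2 * (d : ℝ) * d ≤ 9 * (((d / 2 : ℕ) : ℝ) * ((d : ℝ) - ((d / 2 : ℕ) : ℝ))) := by
      have h3 : ((2 * d * d : ℕ) : ℝ) ≤ ((9 * (d / 2 * (d - d / 2)) : ℕ) : ℝ) := by
        exact_mod_cast hnat
      rw [Nat.cast_mul, Nat.cast_mul, Nat.cast_mul, Nat.cast_mul, Nat.cast_sub hle] at h3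
      simpa only [ge_iff_le, Nat.cast_ofNat] using h3
    set μ : ℝ := ((d / 2 : ℕ) : ℝ)
    have h5 : (d : ℝ) * ((d : ℝ) / 9)
        ≤ d * (μ * (1 - θ) ^ 2 + ((d : ℝ) - μ) * θ ^ 2) := by
      nlinarith only [hreal, sq_nonneg ((d : ℝ) * θ - μ)]
    exact le_of_mul_le_mul_left h5 hdr

/-- **Lower bound**: `√d / 3 ≤ S_2(d)` for all `d ≥ 1`. -/
theorem steinitz_lower (d : ℕ) (hd : 1 ≤ d) :
    ENNReal.ofReal (Real.sqrt d / 3) ≤ steinitzConst d := by
  unfold steinitzConst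
  refine le_iSup_of_le (d + d) (le_iSup_of_le (fam d) (le_iSup_of_le (norm_fam_le hd)
    (le_iSup_of_le (sum_fam hd) ?_)))
  unfold beta
  refine le_iInf fun p => ?_
  obtain ⟨k, hk⟩ := exists_large hd p
  refine le_iSup_of_le k ?_
  rw [← ofReal_norm]
  exact ENNReal.ofReal_le_ofReal hk

/-- The lower bound in the form `c √d ≤ S_2(d)`. -/
theorem lower : ∃ c : ℝ, 0 < c ∧ ∀ d : ℕ, 1 ≤ d →
    ENNReal.ofReal (c * Real.sqrt d) ≤ steinitzConst d :=
  ⟨1 / 3, by norm_num, fun d hd => by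
    have := steinitz_lower d hd
    rwa [show Real.sqrt d / 3 = 1 / 3 * Real.sqrt d by ring] at this⟩

end Vale.Agent.P262.SqrtLower
end
end

section

section

/-!
Final reduction for the signed prefix constant: lifting to unit vectors in one more dimension.
-/

open scoped ENNReal BigOperators InnerProductSpace

namespace Vale.Agent.P262.Sig

/-- Signed prefix sums of an infinite sequence of unit vectors of `ℝ^n` can be kept in the ball of
radius `R` up to any finite time. -/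
def UnitBal (n : ℕ) (R : ℝ) : Prop :=
  ∀ v : ℕ → EuclideanSpace ℝ (Fin n), (∀ k, ‖v k‖ = 1) → ∀ N : ℕ,
    ∃ ε : ℕ → ℝ, (∀ k, ε k = 1 ∨ ε k = -1) ∧
      ∀ k, k ≤ N → ‖∑ i ∈ Finset.range k, ε i • v i‖ ≤ R

/-- Lift of a vector of the unit ball to a unit vector in one more dimension. -/
noncomputable def lift {n : ℕ} (x : EuclideanSpace ℝ (Fin n)) : EuclideanSpace ℝ (Fin (n + 1)) :=
  WithLp.toLp 2 (Fin.cons (Real.sqrt (1 - ‖x‖ ^ 2)) (fun i => x i))

lemma norm_lift {n : ℕ} (x : EuclideanSpace ℝ (Fin n)) (hx : ‖x‖ ≤ 1) : ‖lift x‖ = 1 := by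
  have h0 : 0 ≤ 1 - ‖x‖ ^ 2 := by
    have := norm_nonneg x
    nlinarith only [hx, this]
  have h1 : ‖lift x‖ ^ 2 = 1 := by
    rw [EuclideanSpace.norm_sq_eq, Fin.sum_univ_succ]
    have h2 : ‖x‖ ^ 2 = ∑ i, ‖x i‖ ^ 2 := EuclideanSpace.norm_sq_eq x
    show ‖Real.sqrt (1 - ‖x‖ ^ 2)‖ ^ 2 + ∑ i, ‖x i‖ ^ 2 = 1
    rw [← h2, Real.norm_eq_abs, sq_abs, Real.sq_sqrt h0]
    ring
  have h3 := norm_nonneg (lift x)
  nlinarith only [h1, h3]

/-- Projection forgetting the extra coordinate does not increase norms of signed sums. -/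
lemma norm_sum_le_lift {n N : ℕ} (v : Fin N → EuclideanSpace ℝ (Fin n))
    (w : ℕ → EuclideanSpace ℝ (Fin (n + 1))) (hw : ∀ i : Fin N, w i.val = lift (v i))
    (ε : ℕ → ℝ) (k : ℕ) (hk : k ≤ N) :
    ‖∑ i : Fin N with i.val < k, ε i.val • v i‖ ≤ ‖∑ i ∈ Finset.range k, ε i • w i‖ := by
  have e1 : ∑ i ∈ Finset.range k, ε i • w i = ∑ i : Fin N with i.val < k, ε i.val • w i.val := by
    symm
    refine Finset.sum_bij (fun (i : Fin N) _ => i.val) ?_ ?_ ?_ ?_
    · intro i hi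
      simpa only [Finset.mem_range, Finset.mem_filter, Finset.mem_univ, true_and] using hi
    · intro i _ j _ h
      exact Fin.ext h
    · intro j hj
      have hj' : j < k := by simpa using hj
      exact ⟨⟨j, by omega⟩, by simpa only [Finset.mem_filter, Finset.mem_univ, true_and] using hj', rfl⟩
    · intro i _
      rfl
  rw [e1]
  set S : EuclideanSpace ℝ (Fin n) := ∑ i : Fin N with i.val < k, ε i.val • v i with hS
  set T : EuclideanSpace ℝ (Fin (n + 1)) := ∑ i : Fin N with i.val < k, ε i.val • w i.val with hT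
  have h1 : ∀ j : Fin n, T j.succ = S j := by
    intro j
    rw [hS, hT]
    simp only [WithLp.ofLp_sum, WithLp.ofLp_smul, Finset.sum_apply, Pi.smul_apply, hw]
    rfl
  have h2 : ‖S‖ ^ 2 ≤ ‖T‖ ^ 2 := by
    rw [EuclideanSpace.norm_sq_eq, EuclideanSpace.norm_sq_eq, Fin.sum_univ_succ]
    have : ∑ i, ‖S i‖ ^ 2 = ∑ i : Fin n, ‖T i.succ‖ ^ 2 :=
      Finset.sum_congr rfl (fun i _ => by rw [h1])
    rw [this]
    have := sq_nonneg ‖T 0‖
    linarith only [this]
  exact (sq_le_sq₀ (norm_nonneg _) (norm_nonneg _)).1 h2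

/-- Balancing of unit vectors in dimension `n + 1` bounds the signed prefix constant in
dimension `n`. -/
theorem signedConst_le_of_unitBal {n : ℕ} {R : ℝ} (h : UnitBal (n + 1) R) :
    signedConst n ≤ ENNReal.ofReal R := by
  unfold signedConst
  refine iSup_le fun N => iSup_le fun v => iSup_le fun hv => ?_
  classical
  let w : ℕ → EuclideanSpace ℝ (Fin (n + 1)) := fun i =>
    if hi : i < N then lift (v ⟨i, hi⟩) else lift 0
  have hw1 : ∀ k, ‖w k‖ = 1 := by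
    intro k
    by_cases hk : k < N
    · simp only [w, dif_pos hk]; exact norm_lift _ (hv _)
    · simp only [w, dif_neg hk]; exact norm_lift _ (by simp only [norm_zero, zero_le_one])
  have hw2 : ∀ i : Fin N, w i.val = lift (v i) := by
    intro i
    simp only [w, dif_pos i.2]
  obtain ⟨ε, hε, hb⟩ := h w hw1 N
  let e : Fin N → ℤˣ := fun i => if ε i.val = 1 then 1 else -1
  have he : ∀ i : Fin N, (((e i : ℤˣ) : ℤ) : ℝ) = ε i.val := by
    intro i
    rcases hε i.val with h1 | h1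
    · simp [e, h1]
    · have h2 : ¬ (ε i.val = 1) := by rw [h1]; norm_num
      have h3 : e i = -1 := if_neg h2
      rw [h3, h1]; simp
  refine iInf_le_of_le e ?_
  refine iSup_le fun k => ?_
  have hk : k.val ≤ N := Nat.lt_succ_iff.1 k.2
  have h1 : partialSum (fun i => (((e i : ℤˣ) : ℤ) : ℝ) • v i) k.val =
      ∑ i : Fin N with i.val < k.val, ε i.val • v i := by
    unfold partialSum
    exact Finset.sum_congr rfl (fun i _ => by beta_reduce; rw [he])
  rw [h1]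
  have h2 := (norm_sum_le_lift v w hw2 ε k.val hk).trans (hb k.val hk)
  rw [← ofReal_norm]
  exact ENNReal.ofReal_le_ofReal h2

/-- The trivial lower bound `√d ≤ σ(d)`. -/
theorem le_signedConst (d : ℕ) : ENNReal.ofReal (Real.sqrt d) ≤ signedConst d := by
  unfold signedConst
  let v : Fin d → EuclideanSpace ℝ (Fin d) := fun i => EuclideanSpace.single i 1
  refine le_iSup_of_le d (le_iSup_of_le v (le_iSup_of_le (fun i => by simp [v]) ?_))
  refine le_iInf fun e => le_iSup_of_le (Fin.last d) ?_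
  rw [← ofReal_norm]
  apply ENNReal.ofReal_le_ofReal
  apply Real.sqrt_le_iff.2
  refine ⟨norm_nonneg _, ?_⟩
  rw [EuclideanSpace.norm_sq_eq]
  have h1 : ∀ j : Fin d, ‖(partialSum (fun i => (((e i : ℤˣ) : ℤ) : ℝ) • v i)
      (Fin.last d).val) j‖ ^ 2 = 1 := by
    intro j
    have h2 : (partialSum (fun i => (((e i : ℤˣ) : ℤ) : ℝ) • v i) (Fin.last d).val) j
        = ((e j : ℤˣ) : ℤ) := by
      unfold partialSum
      have h3 : (Finset.univ.filter fun i : Fin d => i.val < (Fin.last d).val) = Finset.univ := by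
        apply Finset.filter_true_of_mem
        intro i _
        exact i.2
      rw [h3]
      simp only [WithLp.ofLp_sum, WithLp.ofLp_smul, Finset.sum_apply, Pi.smul_apply, v]
      rw [Finset.sum_eq_single j]
      · simp
      · intro i _ hij
        simp [Ne.symm hij]
      · intro h; exact absurd (Finset.mem_univ j) h
    rw [h2]
    rcases Int.units_eq_one_or (e j) with h | h <;> simp only [h, Units.val_neg, Units.val_one, Int.reduceNeg, Int.cast_neg, Int.cast_one, norm_neg, norm_one, one_pow]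
  rw [Finset.sum_congr rfl (fun j _ => h1 j)]
  simp only [Finset.sum_const, Finset.card_univ, Fintype.card_fin, nsmul_eq_mul, mul_one, Std.le_refl]

/-- Conditional final statement: from the balancing of unit vectors to the bound on `σ(d)`. -/
theorem sigma_of_unitBal (h : ∃ C : ℝ, 0 < C ∧ ∀ n : ℕ, 2 ≤ n →
      UnitBal n (C * (Real.sqrt n * Real.log n))) :
    ∃ C : ℝ, 0 < C ∧ ∀ d : ℕ, 1 ≤ d →
      ENNReal.ofReal (Real.sqrt d) ≤ signedConst d ∧
      signedConst d ≤ ENNReal.ofReal (C * (Real.sqrt d * Real.log (d + 1))) := by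
  obtain ⟨C, hC, hb⟩ := h
  refine ⟨2 * C, by positivity, fun d hd => ⟨le_signedConst d, ?_⟩⟩
  refine (signedConst_le_of_unitBal (hb (d + 1) (by omega))).trans (ENNReal.ofReal_le_ofReal ?_)
  have hd1 : (1 : ℝ) ≤ d := by exact_mod_cast hd
  have h1 : Real.sqrt ((d + 1 : ℕ) : ℝ) ≤ 2 * Real.sqrt d := by
    have h2 : (2 : ℝ) * Real.sqrt d = Real.sqrt (4 * d) := by
      rw [Real.sqrt_mul (by norm_num)]
      congr 1
      rw [show (4 : ℝ) = 2 ^ 2 by norm_num, Real.sqrt_sq (by norm_num)]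
    rw [h2]
    apply Real.sqrt_le_sqrt
    push_cast
    linarith only [hd1]
  have h3 : 0 ≤ Real.log ((d + 1 : ℕ) : ℝ) := Real.log_natCast_nonneg _
  have h4 : Real.log ((d + 1 : ℕ) : ℝ) = Real.log (d + 1) := by push_cast; rfl
  rw [h4] at h3 ⊢
  have h5 := mul_le_mul_of_nonneg_right h1 h3
  nlinarith only [hC, h5]

end Vale.Agent.P262.Sig
end
end

section

section

/-!
From numerical parameters to balancing of unit vectors.
-/

open scoped BigOperators InnerProductSpace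

namespace Vale.Agent.P262.Sig

open Vale.Agent.P262.SigStr Vale.Agent.P262.SigP2

/-- All numerical conditions. -/
def ParOK (d : ℕ) (R : ℝ) : Prop :=
  ∃ (G : ℕ) (c L κb ι β ϖ p ρ L2 g : ℝ) (B κ ν M κ' ν' : ℕ → ℝ),
    (∀ n, n < d → LP d G c R L κb ι β (B n) (κ n) (ν n) (M n) ϖ p ρ (κ' n) (ν' n) (B (n + 1)) L2) ∧
    (∀ n, n < d → RwOK d (κ' n) (ν' n) (Real.exp (-(L2 / (2 * κ' n)))) ρ (κ (n + 1))
      (ν (n + 1))) ∧
    (∀ n, n < d → ν (n + 1) ≤ ν' n) ∧
    (∀ n, n < d → (1 + ρ) ^ 2 * M n ≤ M (n + 1)) ∧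
    (∀ n, n < d → 0 ≤ ν n) ∧ (∀ n, n < d → 8 * ν n ≤ 3 * c) ∧
    0 ≤ M d ∧ L * d ≤ B d ∧
    3 / 5 * c * d / ι ^ 2 * (M d * (2 * Real.exp (κb / 2)) * Real.exp (-(c / 2))) < 1 ∧
    0 < g ∧ 16 * (d : ℝ) ^ 2 * g * c ≤ 1 ∧ G ≠ 0 ∧ (1 - g / 8) ^ G ≤ 64 * (d : ℝ) ^ 2 * g ∧
    β = 66 * (d : ℝ) ^ 2 * g

theorem unitBal_of_par {d : ℕ} (hd1 : 1 ≤ d) {R : ℝ} (h : ParOK d R) : UnitBal d R := by
  intro v hv N
  obtain ⟨G, c, L, κb, ι, β, ϖ, p, ρ, L2, g, B, κ, ν, M, κ', ν', hLP, hRw, hν', hM, hν0, hν,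
    hMd, hroot1, hroot2, hg, hg1, hG0, hG, hβ⟩ := h
  have hd : d = Module.finrank ℝ (EuclideanSpace ℝ (Fin d)) := by simp only [finrank_euclideanSpace, Fintype.card_fin]
  have hv1 : ∀ k, ‖v k‖ ≤ 1 := fun k => (hv k).le
  have P0 := hLP 0 (by omega)
  have hκb : 0 ≤ κb := by
    have h1 := P0.rw.hκ; have h2 := P0.kk; have h3 := P0.hκb; linarith only [h1, h2, h3]
  obtain ⟨y, q, q1, q2, q3, q4⟩ := reach_root P0.hc hv1 (fun k => by rw [hv k]; norm_num) hd hd1
    hg hg1 hG0 hG hβ P0.hR P0.hBR (by have := P0.hM; linarith only [this]) hMd (by have := P0.hL; linarith only [this])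
    P0.hι hκb (κ := κ) (ν := ν) (fun n hn ih => by
      have P := hLP n hn
      have hr := hRw n hn
      rw [hd] at P hr
      exact level_step hv1 P (hν0 n hn) (hν n hn) hr (hν' n hn) (hM n hn) ih) hroot1 hroot2 N
  -- extract the signs
  classical
  let ε : ℕ → ℝ := fun k => if q (k + 1) = q k + v k then 1 else -1
  refine ⟨ε, fun k => ?_, ?_⟩
  · simp only [ε]
    split_ifs
    · exact Or.inl rfl
    · exact Or.inr rfl
  · have hsum : ∀ k, k ≤ N → ∑ i ∈ Finset.range k, ε i • v i = q k := by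
      intro k
      induction k with
      | zero => intro _; rw [Finset.sum_range_zero, q1]
      | succ k ih =>
        intro hk
        rw [Finset.sum_range_succ, ih (by omega)]
        by_cases h : q (k + 1) = q k + v k
        · simp only [ε, if_pos h, one_smul]
          exact h.symm
        · have h' := (q4 k (Nat.zero_le k) (by omega)).resolve_left h
          simp only [ε, if_neg h, neg_smul, one_smul]
          rw [h']; abel
    intro k hk
    rw [hsum k hk]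
    exact q3 k (Nat.zero_le k) hk

/-- Final form: the parameters exist. -/
theorem sigma_of_par (h : ∃ C : ℝ, 0 < C ∧ ∀ n : ℕ, 2 ≤ n →
      ParOK n (C * (Real.sqrt n * Real.log n))) :
    ∃ C : ℝ, 0 < C ∧ ∀ d : ℕ, 1 ≤ d →
      ENNReal.ofReal (Real.sqrt d) ≤ signedConst d ∧
      signedConst d ≤ ENNReal.ofReal (C * (Real.sqrt d * Real.log (d + 1))) := by
  obtain ⟨C, hC, h⟩ := h
  exact sigma_of_unitBal ⟨C, hC, fun n hn => unitBal_of_par (by omega) (h n hn)⟩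

end Vale.Agent.P262.Sig
end
end

section

section

/-!
Numerical parameters: structure constants, radii, failure probability.
-/

open scoped BigOperators

namespace Vale.Agent.P262.Sig

open Vale.Agent.P262.SigStr Vale.Agent.P262.SigP2

/-- Basic size facts: `x` the dimension, `m = log x`, `l = 1 + log x`, `w = exp (-l)`. -/
structure Siz (x m l w : ℝ) : Prop where
  hx : 2 ≤ x
  hm : 69 / 100 ≤ m
  hl : l = 1 + m
  hw0 : 0 < w
  hw : w ≤ 1 / 5
  hxw : x * w ≤ 1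
  hlw : l * w ≤ 1
  hwl : w = Real.exp (-l)

lemma siz_of (n : ℕ) (hn : 2 ≤ n) :
    Siz (n : ℝ) (Real.log n) (1 + Real.log n) (Real.exp (-(1 + Real.log n))) := by
  have hx : (2 : ℝ) ≤ n := by exact_mod_cast hn
  have hx0 : (0 : ℝ) < n := by linarith only [hx]
  have hlog : 69 / 100 ≤ Real.log n := by
    have h1 := Real.log_two_gt_d9
    have h2 := Real.log_le_log (by norm_num : (0 : ℝ) < 2) hx
    norm_num at h1
    linarith only [h2, h1]
  have e1 : Real.exp (-(1 + Real.log n)) = Real.exp (-1) * (n : ℝ)⁻¹ := by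
    rw [neg_add, Real.exp_add, Real.exp_neg (Real.log n), Real.exp_log hx0]
  have e2 : Real.exp (-1) ≤ 2 / 5 := by
    rw [Real.exp_neg, inv_le_comm₀ (Real.exp_pos _) (by norm_num)]
    have := Real.exp_one_gt_d9
    norm_num
    linarith only [this]
  refine ⟨hx, hlog, rfl, Real.exp_pos _, ?_, ?_, ?_, rfl⟩
  · rw [e1]
    have h1 : (n : ℝ)⁻¹ ≤ 1 / 2 := by
      rw [one_div]
      exact inv_anti₀ (by norm_num) hx
    have h2 : (0 : ℝ) ≤ (n : ℝ)⁻¹ := by positivity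
    calc _ ≤ 2 / 5 * (1 / 2) := mul_le_mul e2 h1 h2 (by norm_num)
      _ = _ := by norm_num
  · rw [e1]
    have : (n : ℝ) * (Real.exp (-1) * (n : ℝ)⁻¹) = Real.exp (-1) := by
      field_simp
    rw [this]; linarith only [e2]
  · have h1 := Real.add_one_le_exp (1 + Real.log n)
    have h2 : Real.exp (1 + Real.log n) * Real.exp (-(1 + Real.log n)) = 1 := by
      rw [← Real.exp_add]; simp
    have h3 : (1 + Real.log n) * Real.exp (-(1 + Real.log n)) ≤
        Real.exp (1 + Real.log n) * Real.exp (-(1 + Real.log n)) :=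
      mul_le_mul_of_nonneg_right (by linarith only [h1]) (Real.exp_pos _).le
    linarith only [h2, h3]

lemma wpow {w : ℝ} (hw0 : 0 < w) (hw : w ≤ 1 / 5) (k : ℕ) : w ^ k ≤ (1 / 5) ^ k :=
  pow_le_pow_left₀ hw0.le hw k

lemma wpow2 {w : ℝ} (hw0 : 0 < w) (hw : w ≤ 1 / 5) {j k : ℕ} (h : j ≤ k) :
    w ^ k ≤ (1 / 5) ^ j :=
  (pow_le_pow_of_le_one hw0.le (by linarith only [hw]) h).trans (wpow hw0 hw j)

section Num

variable {x m l w : ℝ} (S : Siz x m l w)
include S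

/-- The product `c x R² ` is at most `w⁻⁵ 10¹¹`. -/
lemma cxR_le : (2000 * l) * x * ((6000 * (Real.sqrt x * m)) ^ 2) * w ^ 5 ≤ 10 ^ 11 := by
  have hx := S.hx; have hm := S.hm; have hl := S.hl; have hw0 := S.hw0
  have hxw := S.hxw; have hlw := S.hlw
  have hx0 : 0 ≤ x := by linarith only [hx]
  have hl0 : 0 ≤ l := by linarith only [hm, hl]
  have hml : m ≤ l := by linarith only [hl]
  have hm0 : 0 ≤ m := by linarith only [hm]
  have e1 : (6000 * (Real.sqrt x * m)) ^ 2 = 36000000 * (x * m ^ 2) := by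
    rw [mul_pow, mul_pow, Real.sq_sqrt hx0]; ring
  rw [e1]
  have h1 : 0 ≤ x * w := by positivity
  have h2 : 0 ≤ l * w := by positivity
  have h3 : m ^ 2 ≤ l ^ 2 := pow_le_pow_left₀ hm0 hml 2
  have h4 : (2000 * l) * x * (36000000 * (x * m ^ 2)) * w ^ 5 ≤
      (2000 * l) * x * (36000000 * (x * l ^ 2)) * w ^ 5 := by
    apply mul_le_mul_of_nonneg_right _ (by positivity)
    apply mul_le_mul_of_nonneg_left _ (by (clear * - hl0 hx; positivity))
    apply mul_le_mul_of_nonneg_left _ (by norm_num)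
    exact mul_le_mul_of_nonneg_left h3 hx0
  have h5 : (2000 * l) * x * (36000000 * (x * l ^ 2)) * w ^ 5 =
      72000000000 * ((l * w) ^ 3 * (x * w) ^ 2) := by ring
  have h6 : (l * w) ^ 3 ≤ 1 := pow_le_one₀ h2 hlw
  have h7 : (x * w) ^ 2 ≤ 1 := pow_le_one₀ h1 hxw
  have h8 : (l * w) ^ 3 * (x * w) ^ 2 ≤ 1 := mul_le_one₀ h6 (by positivity) h7
  rw [h5] at h4
  norm_num
  linarith only [h4, h8]

/-- Radius against potentials. -/
lemma R_large : 22 * (240000 * l ^ 2) * x ≤ (6000 * (Real.sqrt x * m)) ^ 2 := by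
  have hx := S.hx; have hm := S.hm; have hl := S.hl
  have hx0 : 0 ≤ x := by linarith only [hx]
  have e1 : (6000 * (Real.sqrt x * m)) ^ 2 = 36000000 * (x * m ^ 2) := by
    rw [mul_pow, mul_pow, Real.sq_sqrt hx0]; ring
  rw [e1]
  have h1 : l ≤ 5 / 2 * m := by linarith only [hm, hl]
  have h2 : l ^ 2 ≤ (5 / 2 * m) ^ 2 := pow_le_pow_left₀ (by linarith only [hm, hl]) h1 2
  have h3 : x * l ^ 2 ≤ x * (5 / 2 * m) ^ 2 := mul_le_mul_of_nonneg_left h2 hx0
  nlinarith only [e1, h3]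

/-- Separation constant. -/
lemma beta_small : 3 / 5 * (2000 * l) * (66 * x ^ 2 * w ^ 30) *
    (6000 * (Real.sqrt x * m)) ^ 2 ≤ 1 := by
  have hx := S.hx; have hw0 := S.hw0; have hw5 := S.hw; have hxw := S.hxw
  have hx0 : 0 ≤ x := by linarith only [hx]
  have h1 := cxR_le S
  have h2 : x * w ^ 1 ≤ 1 := by rw [pow_one]; exact hxw
  have e : 3 / 5 * (2000 * l) * (66 * x ^ 2 * w ^ 30) * (6000 * (Real.sqrt x * m)) ^ 2 =
      198 / 5 * ((2000 * l) * x * ((6000 * (Real.sqrt x * m)) ^ 2) * w ^ 5) * (x * w) * w ^ 24 := by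
    ring
  rw [e]
  have h3 := wpow hw0 hw5 24
  have h4 : 0 ≤ w ^ 24 := by positivity
  have h5 : 0 ≤ x * w := by positivity
  have hb : 198 / 5 * ((2000 * l) * x * ((6000 * (Real.sqrt x * m)) ^ 2) * w ^ 5) * (x * w) *
      w ^ 24 ≤ 198 / 5 * 10 ^ 11 * 1 * (1 / 5) ^ 24 := by
    apply mul_le_mul _ h3 h4 (by norm_num)
    apply mul_le_mul _ hxw h5 (by norm_num)
    exact mul_le_mul_of_nonneg_left h1 (by norm_num)
  exact hb.trans (by norm_num)

lemma g_cond : 16 * x ^ 2 * w ^ 30 * (2000 * l) ≤ 1 := by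
  have hx := S.hx; have hw0 := S.hw0; have hw5 := S.hw; have hxw := S.hxw; have hlw := S.hlw
  have hl := S.hl; have hm := S.hm
  have hx0 : 0 ≤ x := by linarith only [hx]
  have hl0 : 0 ≤ l := by linarith only [hl, hm]
  have e : 16 * x ^ 2 * w ^ 30 * (2000 * l) = 32000 * ((x * w) ^ 2 * (l * w)) * w ^ 27 := by ring
  rw [e]
  have h1 : (x * w) ^ 2 ≤ 1 := pow_le_one₀ (by positivity) hxw
  have h2 : (x * w) ^ 2 * (l * w) ≤ 1 := mul_le_one₀ h1 (by positivity) hlw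
  have h3 := wpow hw0 hw5 27
  have hb : 32000 * ((x * w) ^ 2 * (l * w)) * w ^ 27 ≤ 32000 * 1 * (1 / 5) ^ 27 := by
    apply mul_le_mul _ h3 (by positivity) (by norm_num)
    exact mul_le_mul_of_nonneg_left h2 (by norm_num)
  exact hb.trans (by norm_num)

/-- Renewal length. -/
lemma G_cond : (1 - w ^ 30 / 8) ^ (⌈1 / (w ^ 30) ^ 2⌉₊) ≤ 64 * x ^ 2 * w ^ 30 := by
  have hx := S.hx; have hw0 := S.hw0; have hw5 := S.hw
  set g := w ^ 30 with hg
  have hg0 : 0 < g := by positivity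
  have hg1 : g ≤ (1 / 5) ^ 30 := wpow hw0 hw5 30
  have hg2 : g ≤ 1 := hg1.trans (by norm_num)
  set N := ⌈1 / g ^ 2⌉₊ with hN
  have hN1 : 1 / g ^ 2 ≤ N := Nat.le_ceil _
  have h1 : (1 - g / 8) ^ N ≤ Real.exp (-(g / 8)) ^ N := by
    apply pow_le_pow_left₀ (by linarith only [hg1])
    have := Real.add_one_le_exp (-(g / 8))
    linarith only [this]
  have h2 : Real.exp (-(g / 8)) ^ N ≤ Real.exp (-(1 / (8 * g))) := by
    rw [← Real.exp_nat_mul]
    apply Real.exp_le_exp.2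
    have h3 : 1 / (8 * g) = 1 / g ^ 2 * (g / 8) := by field_simp
    rw [h3]
    have := mul_le_mul_of_nonneg_right hN1 (show 0 ≤ g / 8 by positivity)
    linarith only [this]
  have h3 : Real.exp (-(1 / (8 * g))) ≤ 8 * g := by
    have h4 := Real.add_one_le_exp (1 / (8 * g))
    rw [Real.exp_neg, inv_le_comm₀ (Real.exp_pos _) (by positivity)]
    have : (8 * g)⁻¹ = 1 / (8 * g) := by rw [one_div]
    rw [this]; linarith only [h4]
  have h4 : 8 * g ≤ 64 * x ^ 2 * g := by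
    apply mul_le_mul_of_nonneg_right _ hg0.le
    nlinarith only [hx]
  linarith only [h1, h2, h3, h4]

/-- Number of relevant steps of a block. -/
lemma UmB_le {d : ℕ} (hd : (d : ℝ) = x) :
    UmB d (⌈1 / (w ^ 30) ^ 2⌉₊) (2000 * l) (1 / (6000 * (Real.sqrt x * m))) * w ^ 85 ≤ 1 := by
  have hx := S.hx; have hw0 := S.hw0; have hw5 := S.hw; have hl := S.hl; have hm := S.hm
  have hx0 : 0 < x := by linarith only [hx]
  have hm0 : 0 < m := by linarith only [hm]
  have hl0 : 0 < l := by linarith only [hl, hm]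
  have h1 := cxR_le S
  set R := 6000 * (Real.sqrt x * m) with hR
  have hR0 : 0 < R := by positivity
  have hG : ((⌈1 / (w ^ 30) ^ 2⌉₊ : ℕ) : ℝ) * w ^ 60 ≤ 2 := by
    have h2 := (Nat.ceil_lt_add_one (show 0 ≤ 1 / (w ^ 30) ^ 2 by positivity)).le
    have h3 := mul_le_mul_of_nonneg_right h2 (show 0 ≤ w ^ 60 by positivity)
    refine h3.trans ?_
    have h4 : (1 / (w ^ 30) ^ 2 + 1) * w ^ 60 = 1 + w ^ 60 := by field_simp
    rw [h4]
    have := wpow hw0 hw5 60
    have h5 : ((1 : ℝ) / 5) ^ 60 ≤ 1 := by norm_num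
    linarith only [this]
  have hr : (3 / 5 * (2000 * l) * d / (1 / R) ^ 2 + 1) * w ^ 5 ≤ 10 ^ 11 := by
    have h2 : (3 / 5 * (2000 * l) * d / (1 / R) ^ 2 + 1) * w ^ 5 =
        3 / 5 * ((2000 * l) * x * R ^ 2 * w ^ 5) + w ^ 5 := by
      rw [hd]; field_simp
    rw [h2]
    have := wpow hw0 hw5 5
    norm_num at this h1 ⊢
    linarith only [this, h1]
  unfold UmB
  have e : (⌈1 / (w ^ 30) ^ 2⌉₊ : ℝ) * (3 / 5 * (2000 * l) * d / (1 / R) ^ 2 + 1) * w ^ 85 =
      ((⌈1 / (w ^ 30) ^ 2⌉₊ : ℝ) * w ^ 60) *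
        ((3 / 5 * (2000 * l) * d / (1 / R) ^ 2 + 1) * w ^ 5) * w ^ 20 := by ring
  rw [e]
  have h3 := wpow hw0 hw5 20
  have h4 : 0 ≤ (3 / 5 * (2000 * l) * d / (1 / R) ^ 2 + 1) * w ^ 5 := by (clear * - hl0 hx hm hw0; positivity)
  have hb : ((⌈1 / (w ^ 30) ^ 2⌉₊ : ℝ) * w ^ 60) *
      ((3 / 5 * (2000 * l) * d / (1 / R) ^ 2 + 1) * w ^ 5) * w ^ 20 ≤
      2 * 10 ^ 11 * (1 / 5) ^ 20 := by
    apply mul_le_mul _ h3 (by positivity) (by norm_num)
    exact mul_le_mul hG hr h4 (by norm_num)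
  exact hb.trans (by norm_num)

lemma exp_L {κ : ℝ} (hκ0 : 0 < κ) (hκ : κ ≤ 3 / 5 * (2000 * l)) :
    Real.exp (-(240000 * l ^ 2 / (2 * κ))) ≤ w ^ 100 := by
  have hl := S.hl; have hm := S.hm
  have hl0 : 0 < l := by linarith only [hl, hm]
  rw [S.hwl, ← Real.exp_nat_mul]
  apply Real.exp_le_exp.2
  have h1 : 100 * l ≤ 240000 * l ^ 2 / (2 * κ) := by
    rw [le_div_iff₀ (by positivity)]
    nlinarith only [hκ0, hκ]
  push_cast
  linarith only [h1]

lemma exp_c : Real.exp (3 / 5 * (2000 * l) / 2) * Real.exp (-(2000 * l / 2)) = w ^ 400 := by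
  rw [S.hwl, ← Real.exp_nat_mul, ← Real.exp_add]
  congr 1
  push_cast
  ring

/-- Failure probability of a block. -/
lemma hp_ok {d : ℕ} (hd : (d : ℝ) = x) {κ M : ℝ} (hκ0 : 0 < κ) (hκ : κ ≤ 3 / 5 * (2000 * l))
    (hM : M ≤ 2) :
    ((⌈1 / (w ^ 30) ^ 2⌉₊ : ℕ) : ℝ) *
        (((d : ℝ) + 1) ^ 2 * (2 * Real.exp (-(240000 * l ^ 2 / (2 * κ))))) + M * w ^ 22 +
      UmB d (⌈1 / (w ^ 30) ^ 2⌉₊) (2000 * l) (1 / (6000 * (Real.sqrt x * m))) *
        (M * (4 * Real.exp (3 / 5 * (2000 * l) / 2)) * Real.exp (-(2000 * l / 2))) +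
      UmB d (⌈1 / (w ^ 30) ^ 2⌉₊) (2000 * l) (1 / (6000 * (Real.sqrt x * m))) *
        (4 * Real.exp (3 / 5 * (2000 * l) / 2)) / (w ^ 22 * Real.exp (2000 * l / 2)) +
      d * (2 * Real.exp (-(240000 * l ^ 2 / (2 * κ)))) ≤ w ^ 20 := by
  have hx := S.hx; have hw0 := S.hw0; have hw5 := S.hw; have hl := S.hl; have hm := S.hm
  have hxw := S.hxw
  have hx0 : 0 < x := by linarith only [hx]
  have hm0 : 0 < m := by linarith only [hm]
  have hl0 : 0 < l := by linarith only [hl, hm]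
  have hU := UmB_le S hd
  have hEL := exp_L S hκ0 hκ
  have hEc := exp_c S
  have hEL0 := Real.exp_pos (-(240000 * l ^ 2 / (2 * κ)))
  set EL := Real.exp (-(240000 * l ^ 2 / (2 * κ))) with hELdef
  set Ub := UmB d (⌈1 / (w ^ 30) ^ 2⌉₊) (2000 * l) (1 / (6000 * (Real.sqrt x * m))) with hUb
  have hUb0 : 0 ≤ Ub := by
    rw [hUb]; unfold UmB; (clear * - hw0 hl0 hx hm; positivity)
  have hG : ((⌈1 / (w ^ 30) ^ 2⌉₊ : ℕ) : ℝ) * w ^ 60 ≤ 2 := by
    have h2 := (Nat.ceil_lt_add_one (show 0 ≤ 1 / (w ^ 30) ^ 2 by positivity)).le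
    have h3 := mul_le_mul_of_nonneg_right h2 (show 0 ≤ w ^ 60 by positivity)
    refine h3.trans ?_
    have h4 : (1 / (w ^ 30) ^ 2 + 1) * w ^ 60 = 1 + w ^ 60 := by field_simp
    rw [h4]
    have := wpow hw0 hw5 60
    have h5 : ((1 : ℝ) / 5) ^ 60 ≤ 1 := by norm_num
    linarith only [this]
  set Gn : ℝ := ((⌈1 / (w ^ 30) ^ 2⌉₊ : ℕ) : ℝ) with hGn
  have hGn0 : 0 ≤ Gn := by rw [hGn]; positivity
  have w20 : 0 < w ^ 20 := by positivity
  -- first term
  have t1 : Gn * (((d : ℝ) + 1) ^ 2 * (2 * EL)) ≤ w ^ 20 * (1 / 5) := by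
    have h1 : ((d : ℝ) + 1) ^ 2 * w ^ 2 ≤ 4 := by
      rw [hd]
      have h2 : (x + 1) * w ≤ 2 := by nlinarith only [hw5, hxw]
      have h3 : 0 ≤ (x + 1) * w := by positivity
      nlinarith only [hw0, hw5, hxw, h3]
    calc Gn * (((d : ℝ) + 1) ^ 2 * (2 * EL)) ≤ Gn * (((d : ℝ) + 1) ^ 2 * (2 * w ^ 100)) := by
          apply mul_le_mul_of_nonneg_left _ hGn0
          apply mul_le_mul_of_nonneg_left _ (by (clear * -; positivity))
          linarith only [hEL]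
      _ = 2 * (Gn * w ^ 60) * (((d : ℝ) + 1) ^ 2 * w ^ 2) * w ^ 18 * w ^ 20 := by ring
      _ ≤ 2 * 2 * 4 * (1 / 5) ^ 18 * w ^ 20 := by
          apply mul_le_mul_of_nonneg_right _ w20.le
          apply mul_le_mul _ (wpow hw0 hw5 18) (by positivity) (by norm_num)
          apply mul_le_mul _ h1 (by (clear * - hw0; positivity)) (by norm_num)
          exact mul_le_mul_of_nonneg_left hG (by norm_num)
      _ ≤ w ^ 20 * (1 / 5) := by nlinarith only [w20]
  have t2 : M * w ^ 22 ≤ w ^ 20 * (2 / 25) := by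
    calc M * w ^ 22 = M * w ^ 2 * w ^ 20 := by ring
      _ ≤ 2 * (1 / 5) ^ 2 * w ^ 20 := by
          apply mul_le_mul_of_nonneg_right _ w20.le
          exact mul_le_mul hM (wpow hw0 hw5 2) (by positivity) (by norm_num)
      _ = _ := by ring
  have t3 : Ub * (M * (4 * Real.exp (3 / 5 * (2000 * l) / 2)) * Real.exp (-(2000 * l / 2))) ≤
      w ^ 20 * (1 / 5) := by
    calc Ub * (M * (4 * Real.exp (3 / 5 * (2000 * l) / 2)) * Real.exp (-(2000 * l / 2))) =
          4 * M * Ub * (Real.exp (3 / 5 * (2000 * l) / 2) * Real.exp (-(2000 * l / 2))) := by ring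
      _ = 4 * M * (Ub * w ^ 85) * w ^ 295 * w ^ 20 := by rw [hEc]; ring
      _ ≤ 4 * 2 * 1 * (1 / 5) ^ 20 * w ^ 20 := by
          apply mul_le_mul_of_nonneg_right _ w20.le
          apply mul_le_mul _ (wpow2 hw0 hw5 (by norm_num)) (by positivity) (by norm_num)
          apply mul_le_mul _ hU (by (clear * - hUb0 hw0; positivity)) (by norm_num)
          linarith only [hM]
      _ ≤ w ^ 20 * (1 / 5) := by
          have : 4 * 2 * 1 * ((1 : ℝ) / 5) ^ 20 ≤ 1 / 5 := by norm_num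
          nlinarith only [w20]
  have t4 : Ub * (4 * Real.exp (3 / 5 * (2000 * l) / 2)) / (w ^ 22 * Real.exp (2000 * l / 2)) ≤
      w ^ 20 * (1 / 5) := by
    have e1 : Ub * (4 * Real.exp (3 / 5 * (2000 * l) / 2)) / (w ^ 22 * Real.exp (2000 * l / 2)) =
        4 * Ub * (Real.exp (3 / 5 * (2000 * l) / 2) * Real.exp (-(2000 * l / 2))) / w ^ 22 := by
      rw [Real.exp_neg]
      have := Real.exp_pos (2000 * l / 2)
      (clear * - hw0; field_simp)
    rw [e1, hEc]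
    have e2 : 4 * Ub * w ^ 400 / w ^ 22 = 4 * (Ub * w ^ 85) * w ^ 273 * w ^ 20 := by
      (clear * - hw0; field_simp)
    rw [e2]
    have hb : 4 * (Ub * w ^ 85) * w ^ 273 * w ^ 20 ≤ 4 * 1 * (1 / 5) ^ 20 * w ^ 20 := by
      apply mul_le_mul_of_nonneg_right _ w20.le
      apply mul_le_mul _ (wpow2 hw0 hw5 (by norm_num)) (by positivity) (by norm_num)
      linarith only [hU]
    have h5 : 4 * 1 * ((1 : ℝ) / 5) ^ 20 ≤ 1 / 5 := by norm_num
    nlinarith only [w20, hb]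
  have t5 : (d : ℝ) * (2 * EL) ≤ w ^ 20 * (1 / 5) := by
    rw [hd]
    calc x * (2 * EL) ≤ x * (2 * w ^ 100) := by
          apply mul_le_mul_of_nonneg_left _ hx0.le
          linarith only [hEL]
      _ = 2 * (x * w) * w ^ 79 * w ^ 20 := by ring
      _ ≤ 2 * 1 * (1 / 5) ^ 79 * w ^ 20 := by
          apply mul_le_mul_of_nonneg_right _ w20.le
          apply mul_le_mul _ (wpow hw0 hw5 79) (by positivity) (by norm_num)
          linarith only [hxw]
      _ ≤ w ^ 20 * (1 / 5) := by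
          have : 2 * 1 * ((1 : ℝ) / 5) ^ 79 ≤ 1 / 5 := by norm_num
          nlinarith only [w20]
  linarith only [w20, t1, t2, t3, t4, t5]

/-- Total clip probability at the root. -/
lemma root_ok {d : ℕ} (hd : (d : ℝ) = x) {M : ℝ} (hM : M ≤ 2) :
    3 / 5 * (2000 * l) * d / (1 / (6000 * (Real.sqrt x * m))) ^ 2 *
      (M * (2 * Real.exp (3 / 5 * (2000 * l) / 2)) * Real.exp (-(2000 * l / 2))) < 1 := by
  have hx := S.hx; have hw0 := S.hw0; have hw5 := S.hw; have hl := S.hl; have hm := S.hm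
  have hx0 : 0 < x := by linarith only [hx]
  have hm0 : 0 < m := by linarith only [hm]
  have hl0 : 0 < l := by linarith only [hl, hm]
  have h1 := cxR_le S
  have hEc := exp_c S
  set R := 6000 * (Real.sqrt x * m) with hR
  have hR0 : 0 < R := by positivity
  have e1 : 3 / 5 * (2000 * l) * d / (1 / R) ^ 2 *
      (M * (2 * Real.exp (3 / 5 * (2000 * l) / 2)) * Real.exp (-(2000 * l / 2))) =
      6 / 5 * M * (2000 * l * x * R ^ 2) *
        (Real.exp (3 / 5 * (2000 * l) / 2) * Real.exp (-(2000 * l / 2))) := by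
    rw [hd]; field_simp; ring
  rw [e1, hEc]
  have e2 : 6 / 5 * M * (2000 * l * x * R ^ 2) * w ^ 400 =
      6 / 5 * M * ((2000 * l) * x * R ^ 2 * w ^ 5) * w ^ 395 := by ring
  rw [e2]
  have h2 : 0 ≤ (2000 * l) * x * R ^ 2 * w ^ 5 := by positivity
  have hb : 6 / 5 * M * ((2000 * l) * x * R ^ 2 * w ^ 5) * w ^ 395 ≤
      6 / 5 * 2 * 10 ^ 11 * (1 / 5) ^ 20 := by
    apply mul_le_mul _ (wpow2 hw0 hw5 (by norm_num)) (by positivity) (by norm_num)
    apply mul_le_mul _ h1 h2 (by norm_num)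
    linarith only [hM]
  exact lt_of_le_of_lt hb (by norm_num)

end Num

end Vale.Agent.P262.Sig
end
end

section

section

/-!
All numerical parameters together.
-/

open scoped BigOperators

namespace Vale.Agent.P262.Sig

open Vale.Agent.P262.SigStr Vale.Agent.P262.SigP2

theorem parOK_of (n : ℕ) (hn : 2 ≤ n) : ParOK n (6000 * (Real.sqrt n * Real.log n)) := by
  have S := siz_of n hn
  set m := Real.log (n : ℝ) with hm
  set l := 1 + m with hldef
  set w := Real.exp (-l) with hw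
  have hx := S.hx
  have hm1 := S.hm
  have hw0 := S.hw0
  have hw5 := S.hw
  have hx0 : (0 : ℝ) < n := by linarith only [hx]
  have hm0 : 0 < m := by linarith only [hm1]
  have hl1 : 1.69 ≤ l := by rw [hldef]; linarith only [hm1]
  have hc : (4 : ℝ) ≤ 2000 * l := by linarith only [hm1]
  set R := 6000 * (Real.sqrt n * m) with hR
  have hR0 : 0 < R := by positivity
  have hRL := R_large S
  have hβ1 := beta_small S
  have hg1 := g_cond S
  have hG := G_cond S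
  have hρ0 := rhoN_pos hn
  have hL1 : (1 : ℝ) ≤ 240000 * l ^ 2 := by nlinarith only [hm1]
  have hβR : 66 * (n : ℝ) ^ 2 * w ^ 30 * R ^ 2 ≤ 1 := by
    have h1 : 0 ≤ 66 * (n : ℝ) ^ 2 * w ^ 30 * R ^ 2 := by positivity
    have h2 : 3 / 5 * (2000 * l) * (66 * (n : ℝ) ^ 2 * w ^ 30) * R ^ 2 =
        (1200 * l) * (66 * (n : ℝ) ^ 2 * w ^ 30 * R ^ 2) := by ring
    rw [← hR, h2] at hβ1
    nlinarith only [hm1, hβ1]
  refine ⟨⌈1 / (w ^ 30) ^ 2⌉₊, 2000 * l, 240000 * l ^ 2, 3 / 5 * (2000 * l), 1 / R,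
    66 * (n : ℝ) ^ 2 * w ^ 30, w ^ 22, w ^ 20, rhoN n, 240000 * l ^ 2, w ^ 30,
    fun j => R ^ 2 / 2 - j * (10 * (240000 * l ^ 2)), kap (2000 * l) n, nuu (2000 * l) n, Mk n,
    kap' (2000 * l) n, nuu' (2000 * l) n, ?_, ?_, ?_, ?_, ?_, ?_, ?_, ?_, ?_, ?_, ?_, ?_, ?_, rfl⟩
  · intro k hk
    have k1 := kap_ge (c := 2000 * l) hn hc k
    have k2 := kap_le (c := 2000 * l) hn hc hk.le
    have k3 := kap'_le (c := 2000 * l) hn hc hk
    have k4 := kap_pos (c := 2000 * l) hn hc k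
    have k5 := nuu'_nonneg (c := 2000 * l) hn hc k
    have k6 := nuu'_le (c := 2000 * l) hn hc k
    have k7 := Mk_ge hn k
    have k8 := Mk_le hn hk.le
    refine ⟨hc, hL1, hR0.le, k1, by linarith only [k3], k5, k6, k7, by positivity, by positivity,
      by positivity, ?_, ?_, ?_, by positivity, ?_, ?_, ?_⟩
    · rw [one_div, inv_mul_cancel₀ hR0.ne']
    · exact hβ1
    · have : (0 : ℝ) ≤ k * (10 * (240000 * l ^ 2)) := by (clear * - hm1; positivity)
      show 2 * (R ^ 2 / 2 - k * (10 * (240000 * l ^ 2))) ≤ R ^ 2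
      linarith only [this]
    · show (R ^ 2 / 2 - ((k + 1 : ℕ) : ℝ) * (10 * (240000 * l ^ 2))) + 240000 * l ^ 2 +
        66 * (n : ℝ) ^ 2 * w ^ 30 * R ^ 2 + 2 * (3 * (240000 * l ^ 2) + 1) ≤
        R ^ 2 / 2 - k * (10 * (240000 * l ^ 2))
      push_cast
      nlinarith only [hL1, hβR]
    · exact hp_ok S rfl k4 (by linarith only [k2]) (by linarith only [k8])
    · exact rw_a hn hc hk le_rfl
  · intro k hk
    have k3 := kap'_le (c := 2000 * l) hn hc hk
    have k4 := kap'_pos (c := 2000 * l) hn hc k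
    apply rw_b hn hc hk
    have h1 := exp_L S k4 (by linarith only [k3])
    refine h1.trans ?_
    exact pow_le_pow_of_le_one hw0.le (by linarith only [hw0, hw5]) (by norm_num)
  · intro k _
    exact nuu_succ_le hn hc k
  · intro k _
    exact Mk_succ n k
  · intro k _
    exact nuu_nonneg hn hc k
  · intro k _
    exact nuu_le hn hc k
  · have := Mk_ge hn n
    linarith only [this]
  · show 240000 * l ^ 2 * (n : ℝ) ≤ R ^ 2 / 2 - (n : ℝ) * (10 * (240000 * l ^ 2))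
    rw [← hR] at hRL
    nlinarith only [hRL]
  · exact root_ok S rfl (by have := Mk_le hn (le_refl n); linarith only [this])
  · positivity
  · exact hg1
  · have h1 : 0 < 1 / (w ^ 30) ^ 2 := by positivity
    exact (Nat.ceil_pos.2 h1).ne'
  · exact hG

/-- **Signed prefix sums**: `√d ≤ σ(d) ≤ C √d log (d + 1)`. -/
theorem sigma_sqrt_log : ∃ C : ℝ, 0 < C ∧ ∀ d : ℕ, 1 ≤ d →
      ENNReal.ofReal (Real.sqrt d) ≤ signedConst d ∧
      signedConst d ≤ ENNReal.ofReal (C * (Real.sqrt d * Real.log (d + 1))) :=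
  sigma_of_par ⟨6000, by norm_num, fun n hn => parOK_of n hn⟩

end Vale.Agent.P262.Sig
end
end
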